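import Mathlib
import Vale.Agent.P142.Jets
import Vale.Agent.P142.Moments

/-!
Interfaces for the sharper bound on the integral means of `1/f'`: Taylor coefficients of
`h(z) U(z,w)` with `h = 1/f'`, `U` the Grunsky kernel, and the identities they satisfy.
-/

namespace Vale.Agent.P142.Sharp

open Complex Metric Set MeasureTheory Finset

noncomputable section

/-- Taylor coefficient at the origin. -/
def coef (g : ℂ → ℂ) (m : ℕ) : ℂ := iteratedDeriv m g 0 / (m.factorial : ℂ)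

/-- `f'(z) / (f w - f z) - 1 / (w - z)`, continued to the diagonal. -/
def Mfun (f : ℂ → ℂ) (z w : ℂ) : ℂ :=
  if w = z then Jets.eta0 f z else deriv f z / (f w - f z) - 1 / (w - z)

/-- The Grunsky kernel `f' z f' w / (f z - f w)² - 1 / (z - w)²`. -/
def Ufun (f : ℂ → ℂ) (z w : ℂ) : ℂ := -deriv (Mfun f z) w

/-- `z ^ i` times the `i`-th derivative of `1/f'`. -/
def Hfun (f : ℂ → ℂ) (i : ℕ) (z : ℂ) : ℂ := z ^ i * iteratedDeriv i (fun w => (deriv f w)⁻¹) z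

/-- Radial moments. -/
def nu (g : ℝ) (m : ℕ) : ℝ := ∫ t in (0 : ℝ)..1, t ^ m * (1 - t) ^ g

/-- `∂_w^j U (z, z) / j!` through the derivatives of half the Schwarzian. -/
def U0 (f : ℂ → ℂ) (j : ℕ) (z : ℂ) : ℂ :=
  -((j : ℂ) + 1) * Jets.gam (fun k => iteratedDeriv k (Jets.sig f) z) (j + 1)

/-- T0: the area theorem with all Taylor coefficients of `U (z, ·)` at the origin. -/
def AreaStatement : Prop :=
  ∀ (f : ℂ → ℂ) (R : ℝ), 1 < R → DifferentiableOn ℂ f (ball 0 R) → InjOn f (ball 0 R) →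
    ∀ z ∈ ball (0 : ℂ) 1, ∀ N : ℕ,
      ∑ q ∈ range N, ‖coef (Ufun f z) q‖ ^ 2 / ((q : ℝ) + 1) ≤ ((1 - ‖z‖ ^ 2) ^ 2)⁻¹

/-- T1: coefficients of `z^i h^(i)(z) U(z,w)` and their identities. -/
structure Rows (f : ℂ → ℂ) (u : ℕ → ℕ → ℕ → ℂ) : Prop where
  supp : ∀ i p q : ℕ, p < i → u i p q = 0
  area : ∀ (i : ℕ) (g : ℝ), 2 ≤ g → ∀ N : ℕ,
    ∑ p ∈ range N, ∑ q ∈ range N, ‖u i p q‖ ^ 2 / ((q : ℝ) + 1) * nu g p ≤
      ∑' m, ‖coef (Hfun f i) m‖ ^ 2 * nu (g - 2) m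
  lie : ∀ p q : ℕ, ((p : ℂ) + 1) * u 0 (p + 1) q + ((q : ℂ) + 1) * u 0 (q + 1) p =
    -(((p : ℂ) + 1) * ((q : ℂ) + 1)) * coef (Hfun f 0) (p + q + 3)
  jets : ∀ i j N : ℕ, j ≤ 6 →
    ∑ q ∈ range (N + 1), (q.descFactorial j : ℂ) * u i (N - q) q =
      (j.factorial : ℂ) * coef (fun z => z ^ (j + 2) * Hfun f i z * U0 f j z) (N + 2)
  symm : ∀ i j N : ℕ,
    ∑ q ∈ range (N + 1), (q.descFactorial j : ℂ) * u i (N - q) q =
      ∑ l ∈ range (j + 1), (j.choose l : ℂ) * (-1) ^ l *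
        ∑ q ∈ range (N + 1),
          (((descPochhammer ℤ (j - l)).eval (((N - q : ℕ) : ℤ) - (i : ℤ) - (l : ℤ)) : ℤ) : ℂ) *
            u (i + l) (N - q) q

/-- T1 goal. -/
def RowsStatement : Prop :=
  ∀ (f : ℂ → ℂ) (R : ℝ), 1 < R → DifferentiableOn ℂ f (ball 0 R) → InjOn f (ball 0 R) →
    ∃ u, Rows f u

/-- T2: the orthogonality of powers for radial weights. -/
def ExpansionStatement : Prop :=
  ∀ (P Q : ℂ → ℂ) (R g : ℝ), 1 < R → 0 ≤ g →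
    DifferentiableOn ℂ P (ball 0 R) → DifferentiableOn ℂ Q (ball 0 R) →
    Summable (fun m => coef P m * (starRingEnd ℂ) (coef Q m) * (nu g m : ℂ)) ∧
    ∫ z in ball (0 : ℂ) 1, ((1 - ‖z‖ ^ 2) ^ g : ℝ) * (P z * (starRingEnd ℂ) (Q z)) =
      (Real.pi : ℂ) * ∑' m, coef P m * (starRingEnd ℂ) (coef Q m) * (nu g m : ℂ)

/-- T2: arithmetic of the radial moments. -/
def NuStatement : Prop :=
  ∀ g : ℝ, 0 ≤ g → (∀ m : ℕ, 0 < nu g m ∧ nu g m ≤ 1) ∧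
    (∀ m : ℕ, nu (g + 1) m = (g + 1) / ((m : ℝ) + g + 2) * nu g m) ∧
    (g ≤ 1 → ∀ p m : ℕ, p ≤ m →
      nu g m / nu g p ≤ (((p : ℝ) + 1) / (m + 1)) * (((p : ℝ) + 3) / (m + 3)) ^ g)

/-- T2: power sums. -/
def PowerSumStatement : Prop :=
  ∀ (k : ℕ) (r : ℕ → ℕ), (∀ N, 2 * r N ≤ N + 2) → (∀ N, N ≤ 2 * r N + 2) →
    Filter.Tendsto (fun N : ℕ => (∑ p ∈ range (r N), (p : ℝ) ^ k) / (N : ℝ) ^ (k + 1))
      Filter.atTop (nhds (1 / (((k : ℝ) + 1) * 2 ^ (k + 1))))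

end

end Vale.Agent.P142.Sharp
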