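import Mathlib
import Vale.Agent.P142.Area
import Vale.Agent.P142.Sharp.Defs

/-!
T0: the area theorem for `U(z, ·)` with all Taylor coefficients at the origin.
-/

namespace Vale.Agent.P142.Sharp.AreaAll

open Complex MeasureTheory Metric Set Filter Topology ComplexConjugate
open scoped Real ContDiff
open Vale.Agent.P142.Area

noncomputable section

/-- The Jacobian of an inner modification of `P ∘ f` has nonpositive integral. -/
theorem integral_jac_nonpos {f Ψ : ℂ → ℂ} {R R₁ R₂ : ℝ} {v₀ p₁ p₂ : ℂ}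
    (h12 : R₁ < R₂) (h2R : R₂ < R) (hf : DifferentiableOn ℂ f (ball 0 R))
    (hinj : InjOn f (ball 0 R)) (h0K : v₀ ∈ f '' closedBall (0 : ℂ) R₁)
    (hΨ2 : ∀ z ∈ ball (0 : ℂ) R₂, ContDiffAt ℝ 2 Ψ z)
    (heq : ∀ z ∈ ball (0 : ℂ) R₂, R₁ < ‖z‖ →
      p₁ / (f z - v₀) + p₂ / (f z - v₀) ^ 2 = Ψ z) :
    ∫ z in ball (0 : ℂ) R₂, jac Ψ z ≤ 0 := by
  classical
  set P : ℂ → ℂ := fun w => p₁ / (w - v₀) + p₂ / (w - v₀) ^ 2 with hPdef
  set U := f '' ball (0 : ℂ) R₂ with hU
  set K := f '' closedBall (0 : ℂ) R₁ with hK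
  have hsub2 : closedBall (0 : ℂ) R₂ ⊆ ball 0 R := closedBall_subset_ball h2R
  have hsubU : ball (0 : ℂ) R₂ ⊆ ball 0 R := ball_subset_closedBall.trans hsub2
  have hne : ∀ z ∈ ball (0 : ℂ) R, deriv f z ≠ 0 := fun z hz =>
    deriv_ne_zero_of_injOn isOpen_ball hf hinj hz
  have hstrict : ∀ z ∈ ball (0 : ℂ) R, HasStrictDerivAt f (deriv f z) z := fun z hz =>
    (hf.analyticAt (isOpen_ball.mem_nhds hz)).hasStrictDerivAt
  have hUopen : IsOpen U := by
    refine isOpen_iff_mem_nhds.2 ?_
    rintro _ ⟨z, hz, rfl⟩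
    rw [← (hstrict z (hsubU hz)).map_nhds_eq (hne z (hsubU hz))]
    exact image_mem_map (isOpen_ball.mem_nhds hz)
  have hKU : K ⊆ U := image_mono (closedBall_subset_ball h12)
  have hKc : IsCompact K := (isCompact_closedBall _ _).image_of_continuousOn
    (hf.continuousOn.mono ((closedBall_subset_ball h12).trans hsubU))
  have hU2c : IsCompact (f '' closedBall (0 : ℂ) R₂) := (isCompact_closedBall _ _).image_of_continuousOn
    (hf.continuousOn.mono hsub2)
  obtain ⟨M, hM⟩ := hU2c.isBounded.subset_closedBall (0 : ℂ)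
  set g := Function.invFunOn f (ball (0 : ℂ) R₂) with hg
  have hgf : ∀ z ∈ ball (0 : ℂ) R₂, g (f z) = z := fun z hz =>
    (hinj.mono hsubU).leftInvOn_invFunOn hz
  have hPdiff : ∀ w ∉ K, DifferentiableAt ℂ P w := fun w hw => by
    have h0 : w - v₀ ≠ 0 := sub_ne_zero.2 fun h => hw (h ▸ h0K)
    simp only [hPdef]
    fun_prop (disch := simp [h0])
  -- one bound for large arguments
  obtain ⟨Kτ, hKτ⟩ : ∃ Kτ : ℝ, ∀ t : ℝ, |deriv Real.smoothTransition t| ≤ Kτ := by
    have hc : Continuous (deriv Real.smoothTransition) :=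
      (Real.smoothTransition.contDiff (n := 1)).continuous_deriv le_rfl
    obtain ⟨b, hb⟩ := isCompact_Icc.exists_bound_of_continuousOn (s := Icc (0 : ℝ) 1) hc.continuousOn
    refine ⟨max b 0, fun t => ?_⟩
    by_cases ht : t ∈ Icc (0 : ℝ) 1
    · exact ((Real.norm_eq_abs _).symm.le.trans (hb t ht)).trans (le_max_left _ _)
    · rw [mem_Icc, not_and_or, not_le, not_le] at ht
      have : deriv Real.smoothTransition t = 0 := by
        rcases ht with ht | ht
        · refine HasDerivAt.deriv ((hasDerivAt_const t (0 : ℝ)).congr_of_eventuallyEq ?_)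
          filter_upwards [Iio_mem_nhds ht] with s hs
          exact Real.smoothTransition.zero_of_nonpos (le_of_lt hs)
        · refine HasDerivAt.deriv ((hasDerivAt_const t (1 : ℝ)).congr_of_eventuallyEq ?_)
          filter_upwards [Ioi_mem_nhds ht] with s hs
          exact Real.smoothTransition.one_of_one_le (le_of_lt hs)
      rw [this, abs_zero]
      exact le_max_right _ _
  have key : ∀ L : ℝ, M + 1 < L → 2 * ‖v₀‖ + 2 < L →
      (∫ z in ball (0 : ℂ) R₂, jac Ψ z) ≤
        (4 * Kτ * (‖p₁‖ + 2 * ‖p₂‖)) ^ 2 / L ^ 4 * (π * (2 * L) ^ 2) := by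
    intro L hLM hL0
    have hLpos : 0 < L := by linarith [norm_nonneg (v₀)]
    set G : ℂ → ℂ := fun w => if w ∈ U then Ψ (g w) else infCut L w * P w with hG
    have hcut1 : ∀ w ∈ U, infCut L w = 1 := by
      rintro _ ⟨z, hz, rfl⟩
      have hb := mem_closedBall_zero_iff.1 (hM ⟨z, ball_subset_closedBall hz, rfl⟩)
      have h2 : ‖f z‖ ^ 2 / L ^ 2 ≤ 1 := by
        rw [div_le_one (by positivity)]; gcongr; linarith
      rw [infCut, Real.smoothTransition.one_of_one_le (by linarith), Complex.ofReal_one]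
    have houter : ∀ w ∉ K, G w = infCut L w * P w := by
      intro w hw
      by_cases hwU : w ∈ U
      · simp only [hG, if_pos hwU]
        obtain ⟨z, hz, rfl⟩ := hwU
        rw [hgf z hz, hcut1 _ ⟨z, hz, rfl⟩, one_mul, hPdef]
        have hzK : R₁ < ‖z‖ := by
          by_contra h
          exact hw ⟨z, mem_closedBall_zero_iff.2 (not_lt.1 h), rfl⟩
        show Ψ z = _
        rw [← heq z hz hzK]
      · simp only [hG, if_neg hwU]
    have hnearK : ∀ w ∉ K, G =ᶠ[𝓝 w] fun v => infCut L v * P v := fun w hw => by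
      filter_upwards [hKc.isClosed.isOpen_compl.mem_nhds hw] with v hv using houter v hv
    have hGfd : ∀ w ∉ K, ContDiffAt ℝ 2 G w := by
      intro w hw
      have hPo : DifferentiableOn ℂ P Kᶜ := fun v hv => (hPdiff v hv).differentiableWithinAt
      have hP2 : ContDiffAt ℝ 2 P w :=
        ((hPo.contDiffOn hKc.isClosed.isOpen_compl).restrict_scalars ℝ).contDiffAt
          (hKc.isClosed.isOpen_compl.mem_nhds hw)
      exact (((contDiff_infCut L).contDiffAt).mul hP2).congr_of_eventuallyEq (hnearK w hw)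
    have hinner : ∀ z ∈ ball (0 : ℂ) R₂, ContDiffAt ℝ 2 G (f z) := by
      intro z hz
      have hgd : DifferentiableOn ℂ g U := by
        rintro _ ⟨z', hz', rfl⟩
        have hs := hstrict z' (hsubU hz')
        have h0 := hne z' (hsubU hz')
        have hli := (hs.to_localInverse h0).hasDerivAt.differentiableAt
        refine (hli.congr_of_eventuallyEq ?_).differentiableWithinAt
        have hev : ∀ᶠ v in 𝓝 (f z'), hs.localInverse f _ z' h0 v ∈ ball (0 : ℂ) R₂ := by
          refine hli.continuousAt.preimage_mem_nhds (isOpen_ball.mem_nhds ?_)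
          rw [(hs.eventually_left_inverse h0).self_of_nhds]
          exact hz'
        filter_upwards [hev, hs.eventually_right_inverse h0] with v hv1 hv2
        conv_lhs => rw [← hv2]
        exact hgf _ hv1
      have hg2 : ContDiffAt ℝ 2 g (f z) :=
        ((hgd.contDiffOn hUopen).restrict_scalars ℝ).contDiffAt (hUopen.mem_nhds ⟨z, hz, rfl⟩)
      have hΨg : ContDiffAt ℝ 2 Ψ (g (f z)) := by
        rw [hgf z hz]
        exact hΨ2 z hz
      refine (hΨg.comp (f z) hg2).congr_of_eventuallyEq ?_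
      filter_upwards [hUopen.mem_nhds ⟨z, hz, rfl⟩] with v hv
      simp only [hG, if_pos hv, Function.comp_apply]
    have hGc : ContDiff ℝ 2 G := by
      rw [contDiff_iff_contDiffAt]
      intro w
      by_cases hw : w ∈ K
      · obtain ⟨z, hz, rfl⟩ := hKU hw
        exact hinner z hz
      · exact hGfd w hw
    have hcs : HasCompactSupport G := by
      refine HasCompactSupport.intro (isCompact_closedBall 0 (max (2 * L) M)) fun w hw => ?_
      rw [mem_closedBall_zero_iff, not_le, max_lt_iff] at hw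
      have hwK : w ∉ K := fun h => by
        have := mem_closedBall_zero_iff.1 (hM (image_mono (closedBall_subset_closedBall h12.le) h))
        linarith
      rw [houter w hwK, infCut, Real.smoothTransition.zero_of_nonpos, Complex.ofReal_zero, zero_mul]
      rw [sub_nonpos, le_div_iff₀ (by positivity)]
      nlinarith
    obtain ⟨hJint, hJ0⟩ := integral_jac_eq_zero hGc hcs
    have hUm : MeasurableSet U := hUopen.measurableSet
    have hsplit := integral_add_compl hUm hJint
    rw [hJ0] at hsplit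
    have hjin : ∫ w in U, jac G w = ∫ z in ball (0 : ℂ) R₂, jac Ψ z := by
      rw [hU, integral_image_eq_integral_abs_det_fderiv_smul volume measurableSet_ball
        (fun z hz => (((hf.differentiableAt (isOpen_ball.mem_nhds (hsubU hz))).hasDerivAt.hasFDerivAt
          ).restrictScalars ℝ).hasFDerivWithinAt) (hinj.mono hsubU)]
      refine setIntegral_congr_fun measurableSet_ball fun z hz => ?_
      have hcomp : G ∘ f =ᶠ[𝓝 z] Ψ := by
        filter_upwards [isOpen_ball.mem_nhds hz] with v hv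
        simp only [Function.comp_apply, hG, if_pos (show f v ∈ U from ⟨v, hv, rfl⟩), hgf v hv]
      rw [abs_det_mul, smul_eq_mul, mul_comm, ← jac_comp ((hinner z hz).differentiableAt (by norm_num))
        (hf.differentiableAt (isOpen_ball.mem_nhds (hsubU hz)))]
      exact jac_congr hcomp
    set bd := (4 * Kτ * (‖p₁‖ + 2 * ‖p₂‖)) ^ 2 / L ^ 4 with hbd
    have hbd0 : 0 ≤ bd := by rw [hbd]; positivity
    have hout : ∀ w ∈ Uᶜ, -(closedBall (0 : ℂ) (2 * L)).indicator (fun _ => bd) w ≤ jac G w := by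
      intro w hw
      have hwK : w ∉ K := fun h => hw (hKU h)
      rw [jac_congr (hnearK w hwK)]
      refine le_trans ?_ (jac_infCut_mul (hPdiff w hwK))
      rw [neg_le_neg_iff]
      by_cases hz : deriv Real.smoothTransition (2 - ‖w‖ ^ 2 / L ^ 2) = 0
      · rw [hz]; simp only [zero_mul, zero_div, ne_eq, OfNat.ofNat_ne_zero, not_false_eq_true,
          zero_pow]
        exact indicator_nonneg (fun _ _ => hbd0) w
      have hs : 0 ≤ 2 - ‖w‖ ^ 2 / L ^ 2 ∧ 2 - ‖w‖ ^ 2 / L ^ 2 ≤ 1 := by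
        constructor
        · by_contra h
          rw [not_le] at h
          refine hz (HasDerivAt.deriv ((hasDerivAt_const _ (0 : ℝ)).congr_of_eventuallyEq ?_))
          filter_upwards [Iio_mem_nhds h] with s hs
          exact Real.smoothTransition.zero_of_nonpos (le_of_lt hs)
        · by_contra h
          rw [not_le] at h
          refine hz (HasDerivAt.deriv ((hasDerivAt_const _ (1 : ℝ)).congr_of_eventuallyEq ?_))
          filter_upwards [Ioi_mem_nhds h] with s hs
          exact Real.smoothTransition.one_of_one_le (le_of_lt hs)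
      have hwL : L ≤ ‖w‖ := by
        have := hs.2
        rw [sub_le_comm] at this
        have h' : L ^ 2 ≤ ‖w‖ ^ 2 := by
          rw [← div_self (by positivity : L ^ 2 ≠ 0)] at this
          have := (le_div_iff₀ (by positivity : (0 : ℝ) < L ^ 2)).1
            (show (1 : ℝ) ≤ ‖w‖ ^ 2 / L ^ 2 by linarith [hs.2])
          linarith
        exact le_of_sq_le_sq h' (norm_nonneg _)
      have hw2 : ‖w‖ ≤ 2 * L := by
        have h' : ‖w‖ ^ 2 ≤ 2 * L ^ 2 := (div_le_iff₀ (by positivity)).1 (by linarith [hs.1])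
        exact le_of_sq_le_sq (by nlinarith) (by linarith)
      rw [indicator_of_mem (mem_closedBall_zero_iff.2 hw2)]
      have hd : L / 2 ≤ ‖w - v₀‖ := by linarith [norm_sub_norm_le w (v₀)]
      have hd1 : 1 ≤ ‖w - v₀‖ := by linarith [norm_nonneg (v₀)]
      have hP : ‖P w‖ ≤ (‖p₁‖ + 2 * ‖p₂‖) * (2 / L) := by
        rw [hPdef]
        refine (norm_add_le _ _).trans ?_
        rw [norm_div, norm_div, norm_pow, add_mul]
        refine add_le_add ?_ ?_
        · rw [div_le_iff₀ (by linarith)]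
          calc ‖p₁‖ = ‖p₁‖ * (2 / L) * (L / 2) := by field_simp
            _ ≤ _ := by gcongr
        · calc ‖p₂‖ / ‖w - v₀‖ ^ 2 ≤ ‖p₂‖ / ‖w - v₀‖ :=
              div_le_div_of_nonneg_left (norm_nonneg _) (by linarith) (le_self_pow₀ hd1 (by norm_num))
            _ ≤ 2 * ‖p₂‖ * (2 / L) := by
              rw [div_le_iff₀ (by linarith)]
              calc ‖p₂‖ ≤ 2 * ‖p₂‖ * (2 / L) * (L / 2) := by
                    field_simp; linarith [norm_nonneg p₂]
                _ ≤ _ := by gcongr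
      calc (deriv Real.smoothTransition (2 - ‖w‖ ^ 2 / L ^ 2) * ‖w‖ / L ^ 2 * ‖P w‖) ^ 2
          = (|deriv Real.smoothTransition (2 - ‖w‖ ^ 2 / L ^ 2)| * ‖w‖ / L ^ 2 * ‖P w‖) ^ 2 := by
            simp only [mul_pow, div_pow, sq_abs]
        _ ≤ (Kτ * (2 * L) / L ^ 2 * ((‖p₁‖ + 2 * ‖p₂‖) * (2 / L))) ^ 2 := by
            have := (abs_nonneg _).trans (hKτ 0)
            gcongr
            exact hKτ _
        _ = bd := by rw [hbd]; field_simp; ring
    have hindi : Integrable ((closedBall (0 : ℂ) (2 * L)).indicator fun _ => bd) :=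
      IntegrableOn.integrable_indicator (integrableOn_const measure_closedBall_lt_top.ne)
        measurableSet_closedBall
    have hlow : -(bd * (π * (2 * L) ^ 2)) ≤ ∫ w in Uᶜ, jac G w := by
      have hm := setIntegral_mono_on hindi.neg.integrableOn hJint.integrableOn hUm.compl hout
      refine le_trans ?_ hm
      simp only [Pi.neg_apply]
      rw [integral_neg, neg_le_neg_iff]
      refine (setIntegral_le_integral hindi (Eventually.of_forall
        (indicator_nonneg fun _ _ => hbd0))).trans (le_of_eq ?_)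
      rw [integral_indicator measurableSet_closedBall, setIntegral_const, smul_eq_mul,
        measureReal_def, Complex.volume_closedBall]
      simp only [ENNReal.toReal_mul, ENNReal.toReal_pow, ENNReal.coe_toReal, NNReal.coe_real_pi,
        ENNReal.toReal_ofReal (by linarith : (0 : ℝ) ≤ 2 * L)]
      ring
    rw [← hjin]
    linarith
  have hzero : ∫ z in ball (0 : ℂ) R₂, jac Ψ z ≤ 0 := by
    refine ge_of_tendsto (f := fun L : ℝ => (4 * Kτ * (‖p₁‖ + 2 * ‖p₂‖)) ^ 2 / L ^ 4 * (π * (2 * L) ^ 2))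
      (x := atTop) ?_ ?_
    · have : (fun L : ℝ => (4 * Kτ * (‖p₁‖ + 2 * ‖p₂‖)) ^ 2 / L ^ 4 * (π * (2 * L) ^ 2)) =ᶠ[atTop]
          fun L => (4 * Kτ * (‖p₁‖ + 2 * ‖p₂‖)) ^ 2 * (4 * π) * (L ^ 2)⁻¹ := by
        filter_upwards [eventually_gt_atTop 0] with L hL
        field_simp
        ring
      refine Tendsto.congr' this.symm ?_
      have h := (tendsto_inv_atTop_zero.comp (tendsto_pow_atTop (α := ℝ) (n := 2) two_ne_zero)).const_mul
        ((4 * Kτ * (‖p₁‖ + 2 * ‖p₂‖)) ^ 2 * (4 * π))
      rw [mul_zero] at h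
      exact h
    · filter_upwards [eventually_gt_atTop (M + 1), eventually_gt_atTop (2 * ‖v₀‖ + 2)] with L a b
      exact key L a b
  exact hzero

lemma differentiableOn_Mfun {f : ℂ → ℂ} {R : ℝ} (hf : DifferentiableOn ℂ f (ball 0 R))
    (hinj : InjOn f (ball 0 R)) {z : ℂ} (hz : z ∈ ball (0 : ℂ) R) :
    DifferentiableOn ℂ (Mfun f z) (ball 0 R) := by
  have hU := (isOpen_ball (x := (0 : ℂ)) (ε := R)).mem_nhds hz
  set g := dslope f z with hg
  have hgd : DifferentiableOn ℂ g (ball 0 R) := (differentiableOn_dslope hU).2 hf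
  have hd : deriv f z ≠ 0 := deriv_ne_zero_of_injOn isOpen_ball hf hinj hz
  have hg0 : ∀ w ∈ ball (0 : ℂ) R, g w ≠ 0 := by
    intro w hw
    by_cases h : w = z
    · simpa [hg, h] using hd
    · rw [hg, dslope_of_ne _ h, slope_def_field]
      exact div_ne_zero (sub_ne_zero.2 fun e => h (hinj hw hz e)) (sub_ne_zero.2 h)
  have hga : ∀ w ∈ ball (0 : ℂ) R, AnalyticAt ℂ g w := fun w hw =>
    hgd.analyticAt (isOpen_ball.mem_nhds hw)
  have hfg : f = fun w => f z + (w - z) * g w := by
    funext w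
    have := sub_smul_dslope f z w
    rw [smul_eq_mul] at this
    rw [hg, this]; ring
  have hd1 : deriv f =ᶠ[𝓝 z] fun w => g w + (w - z) * deriv g w := by
    filter_upwards [hU] with w hw
    conv_lhs => rw [hfg]
    refine ((((hasDerivAt_id w).sub_const z).mul
      (hga w hw).differentiableAt.hasDerivAt).const_add (f z)).deriv.trans ?_
    simp
  have hd2 : deriv (deriv f) z = 2 * deriv g z := by
    rw [hd1.deriv_eq]
    refine ((hga z hz).differentiableAt.hasDerivAt.add (((hasDerivAt_id z).sub_const z).mul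
      (hga z hz).deriv.differentiableAt.hasDerivAt)).deriv.trans ?_
    simp; ring
  set q : ℂ → ℂ := fun w => deriv f z / g w with hq
  have hqd : DifferentiableOn ℂ q (ball 0 R) := (differentiableOn_const _).div hgd hg0
  refine ((differentiableOn_dslope hU).2 hqd).congr fun w hw => ?_
  by_cases h : w = z
  · subst h
    rw [dslope_same, Mfun, if_pos rfl, Jets.eta0, Jets.Lf, hd2, hq]
    rw [((hasDerivAt_const w (deriv f w)).fun_div (hga w hz).differentiableAt.hasDerivAt
      (hg0 w hz)).deriv]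
    simp only [hg, dslope_same]
    field_simp
    ring
  · rw [dslope_of_ne _ h, slope_def_field, Mfun, if_neg h, hq]
    simp only [hg, dslope_of_ne _ h, slope_def_field, dslope_same]
    have h1 : f w - f z ≠ 0 := sub_ne_zero.2 fun e => h (hinj hw hz e)
    have h2 : w - z ≠ 0 := sub_ne_zero.2 h
    field_simp

lemma circleAverage_conj_pow_mul {g : ℂ → ℂ} {R r : ℝ} (hg : DifferentiableOn ℂ g (ball 0 R))
    (hr : 0 < r) (hrR : r < R) (p : ℕ) :
    Real.circleAverage (fun w => conj w ^ p * g w) 0 r = ((r ^ (2 * p) : ℝ) : ℂ) * coef g p := by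
  rw [Real.circleAverage_eq_circleIntegral hr.ne']
  have hcongr : ∀ w ∈ sphere (0 : ℂ) r, (w - 0)⁻¹ • (conj w ^ p * g w) =
      ((r ^ (2 * p) : ℝ) : ℂ) • ((1 / (w - 0) ^ (p + 1)) • g w) := by
    intro w hw
    have hn : ‖w‖ = r := by simpa using hw
    have hw0 : w ≠ 0 := by rintro rfl; simp at hn; linarith
    have hmc : w * conj w = (r : ℂ) ^ 2 := by rw [Complex.mul_conj', hn]
    simp only [sub_zero, smul_eq_mul, Complex.ofReal_pow, pow_mul, ← hmc, mul_pow]
    field_simp
    ring
  rw [circleIntegral.integral_congr hr.le hcongr, circleIntegral.integral_smul,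
    (hg.mono (closedBall_subset_ball hrR)).circleIntegral_one_div_sub_center_pow_smul hr p, coef]
  simp only [smul_eq_mul]
  have := Real.pi_ne_zero
  field_simp

lemma setIntegral_conj_pow_mul {g : ℂ → ℂ} {R : ℝ} (hR : 1 < R)
    (hg : DifferentiableOn ℂ g (ball 0 R)) (p : ℕ) :
    ∫ w in closedBall (0 : ℂ) 1, conj w ^ p * g w = (π : ℂ) * coef g p / ((p : ℂ) + 1) := by
  rw [setIntegral_ball_polar (G := fun w => conj w ^ p * g w)
    ((Complex.continuous_conj.pow p).continuousOn.mul
    (hg.continuousOn.mono (closedBall_subset_ball hR)))]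
  have hc : ∀ r ∈ Ioc (0 : ℝ) 1, ((2 * π * r : ℝ) : ℂ) *
      Real.circleAverage (fun w => conj w ^ p * g w) 0 r =
      ((2 * π * r ^ (2 * p + 1) : ℝ) : ℂ) * coef g p := by
    intro r hr
    rw [circleAverage_conj_pow_mul hg hr.1 (hr.2.trans_lt hR) p]
    push_cast; ring
  rw [setIntegral_congr_fun measurableSet_Ioc hc, integral_mul_const, integral_complex_ofReal,
    ← intervalIntegral.integral_of_le (zero_le_one' ℝ), intervalIntegral.integral_const_mul,
    integral_pow, show ((2 * p + 1 : ℕ) : ℝ) + 1 = 2 * ((p : ℝ) + 1) by push_cast; ring]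
  push_cast
  have : ((p : ℂ) + 1) ≠ 0 := Nat.cast_add_one_ne_zero p
  simp only [one_pow, ne_eq, Nat.add_eq_zero_iff, one_ne_zero, and_false, not_false_eq_true,
    zero_pow, sub_zero]
  field_simp

lemma coef_poly (c : ℕ → ℂ) {N p : ℕ} (hp : p ∈ Finset.range N) :
    coef (fun w => ∑ i ∈ Finset.range N, c i * w ^ i) p = c p := by
  rw [coef, iteratedDeriv_fun_sum (fun i _ => (analyticAt_const.mul (analyticAt_id.pow i)).contDiffAt)]
  simp only [iteratedDeriv_const_mul_field, iteratedDeriv_fun_pow_zero, Nat.cast_ite, Nat.cast_zero,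
    mul_ite, mul_zero,
    Finset.sum_ite_eq, if_pos hp]
  field_simp [Nat.cast_ne_zero.2 p.factorial_ne_zero]

/-- Bessel's inequality for the powers in the disk. -/
lemma bessel {g : ℂ → ℂ} {R : ℝ} (hR : 1 < R) (hg : DifferentiableOn ℂ g (ball 0 R)) (N : ℕ) :
    π * ∑ p ∈ Finset.range N, ‖coef g p‖ ^ 2 / ((p : ℝ) + 1) ≤
      ∫ w in closedBall (0 : ℂ) 1, ‖g w‖ ^ 2 := by
  set c := fun p => coef g p with hc
  set P : ℂ → ℂ := fun w => ∑ i ∈ Finset.range N, c i * w ^ i with hP
  have hPd : DifferentiableOn ℂ P (ball 0 R) := by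
    simp only [hP]; fun_prop
  have hgc : ContinuousOn g (closedBall 0 1) := hg.continuousOn.mono (closedBall_subset_ball hR)
  have hPc : Continuous P := by simp only [hP]; fun_prop
  have hpt : ∀ w ∈ closedBall (0 : ℂ) 1,
      2 * (conj (P w) * g w).re - (conj (P w) * P w).re ≤ ‖g w‖ ^ 2 := by
    intro w _
    have h : ‖g w - P w‖ ^ 2 = ‖g w‖ ^ 2 - (2 * (conj (P w) * g w).re - (conj (P w) * P w).re) := by
      simp only [Complex.sq_norm, Complex.normSq_apply, Complex.sub_re, Complex.sub_im,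
        Complex.mul_re, Complex.conj_re, Complex.conj_im]
      ring
    linarith [sq_nonneg ‖g w - P w‖]
  have hi : ∀ h : ℂ → ℂ, DifferentiableOn ℂ h (ball 0 R) →
      IntegrableOn (fun w => conj (P w) * h w) (closedBall 0 1) ∧
      ∫ w in closedBall (0 : ℂ) 1, conj (P w) * h w =
        ∑ i ∈ Finset.range N, conj (c i) * ((π : ℂ) * coef h i / ((i : ℂ) + 1)) := by
    intro h hh
    have hhc : ContinuousOn h (closedBall 0 1) := hh.continuousOn.mono (closedBall_subset_ball hR)
    have hint : ∀ i : ℕ, IntegrableOn (fun w => conj (c i) * (conj w ^ i * h w)) (closedBall 0 1) :=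
      fun i => (continuousOn_const.mul ((Complex.continuous_conj.pow i).continuousOn.mul
        hhc)).integrableOn_compact (isCompact_closedBall _ _)
    have e : (fun w => conj (P w) * h w) =
        fun w => ∑ i ∈ Finset.range N, conj (c i) * (conj w ^ i * h w) := by
      funext w
      simp only [hP, map_sum, map_mul, map_pow, Finset.sum_mul, mul_assoc]
    rw [e]
    refine ⟨integrable_finsetSum _ fun i _ => hint i, ?_⟩
    rw [integral_finsetSum _ fun i _ => hint i]
    refine Finset.sum_congr rfl fun i _ => ?_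
    rw [integral_const_mul, setIntegral_conj_pow_mul hR hh]
  obtain ⟨ig, eg⟩ := hi g hg
  obtain ⟨iP, eP⟩ := hi P hPd
  have eP' : ∫ w in closedBall (0 : ℂ) 1, conj (P w) * P w =
      ∫ w in closedBall (0 : ℂ) 1, conj (P w) * g w := by
    rw [eP, eg]
    exact Finset.sum_congr rfl fun i hi => by rw [hP, coef_poly c hi]
  have hre : ∀ F : ℂ → ℂ, IntegrableOn F (closedBall 0 1) →
      ∫ w in closedBall (0 : ℂ) 1, (F w).re = (∫ w in closedBall (0 : ℂ) 1, F w).re := by
    intro F hF
    have h := integral_re (𝕜 := ℂ) hF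
    simp only [RCLike.re_to_complex] at h
    exact h
  have ig' : Integrable (fun w => (conj (P w) * g w).re) (volume.restrict (closedBall 0 1)) := ig.re
  have iP' : Integrable (fun w => (conj (P w) * P w).re) (volume.restrict (closedBall 0 1)) := iP.re
  refine le_trans (le_of_eq ?_) (setIntegral_mono_on ((ig'.const_mul 2).sub iP')
    ((hgc.norm.pow 2).integrableOn_compact (isCompact_closedBall _ _)) measurableSet_closedBall hpt)
  simp only [Pi.sub_apply]
  rw [integral_sub (ig'.const_mul 2) iP', integral_const_mul, hre _ ig, hre _ iP, eP', eg,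
    two_mul, add_sub_cancel_right, Complex.re_sum, Finset.mul_sum]
  refine Finset.sum_congr rfl fun i _ => ?_
  have e : conj (c i) * ((π : ℂ) * coef g i / ((i : ℂ) + 1)) =
      ((π * (‖coef g i‖ ^ 2 / ((i : ℝ) + 1)) : ℝ) : ℂ) := by
    simp only [hc]
    push_cast
    rw [← Complex.conj_mul']
    ring
  rw [e, Complex.ofReal_re]

/-- The derivative of `w / (T - conj z * w)` has Dirichlet integral at most that of the image disk. -/
lemma dirichlet_mobius {z : ℂ} {T : ℝ} (hT : 1 ≤ T) (hz : ‖z‖ < 1) :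
    ∫ w in ball (0 : ℂ) (√T), (T / ‖(T : ℂ) - z * conj w‖ ^ 2) ^ 2 ≤
      π / (1 - ‖z‖ ^ 2) ^ 2 := by
  set ρ := √T with hρ
  have hρ2 : ρ ^ 2 = T := Real.sq_sqrt (by linarith)
  have hρ1 : 1 ≤ ρ := by rw [hρ]; exact Real.one_le_sqrt.2 hT
  have ha : ‖z‖ ^ 2 < 1 := by nlinarith [norm_nonneg z]
  have hTa : 0 < T - ‖z‖ ^ 2 := by linarith
  set h : ℂ → ℂ := fun w => w / ((T : ℂ) - conj z * w) with hh
  have hden : ∀ w ∈ ball (0 : ℂ) ρ, (T : ℂ) - conj z * w ≠ 0 := by
    intro w hw e
    have hwn : ‖w‖ < ρ := by simpa using hw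
    have : ‖(T : ℂ)‖ = ‖conj z * w‖ := by rw [sub_eq_zero.1 e]
    rw [Complex.norm_real, Real.norm_of_nonneg (by linarith), norm_mul, Complex.norm_conj] at this
    nlinarith [norm_nonneg z, norm_nonneg w]
  have hhd : ∀ w ∈ ball (0 : ℂ) ρ, HasDerivAt h ((T : ℂ) / ((T : ℂ) - conj z * w) ^ 2) w := by
    intro w hw
    refine ((hasDerivAt_id w).fun_div (((hasDerivAt_id w).const_mul (conj z)).const_sub (T : ℂ))
      (hden w hw)).congr_deriv ?_
    simp only [id_eq]
    ring
  have hinj : InjOn h (ball 0 ρ) := by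
    intro a ha b hb e
    simp only [hh] at e
    rw [div_eq_div_iff (hden a ha) (hden b hb)] at e
    have hT0 : (T : ℂ) ≠ 0 := by exact_mod_cast (by linarith : T ≠ 0)
    exact mul_left_cancel₀ hT0 (by linear_combination e)
  have hsub : h '' ball 0 ρ ⊆ closedBall (z / ((T - ‖z‖ ^ 2 : ℝ) : ℂ)) (ρ / (T - ‖z‖ ^ 2)) := by
    rintro _ ⟨w, hw, rfl⟩
    have hD := hden w hw
    have hcz : ((T - ‖z‖ ^ 2 : ℝ) : ℂ) ≠ 0 := by exact_mod_cast hTa.ne'
    have e : h w - z / ((T - ‖z‖ ^ 2 : ℝ) : ℂ) =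
        (T : ℂ) * (w - z) / (((T : ℂ) - conj z * w) * ((T - ‖z‖ ^ 2 : ℝ) : ℂ)) := by
      simp only [hh]
      rw [div_sub_div _ _ hD hcz]
      congr 1
      push_cast
      rw [← Complex.mul_conj']
      ring
    rw [mem_closedBall_iff_norm, e, norm_div, norm_mul, norm_mul, Complex.norm_real,
      Complex.norm_real, Real.norm_of_nonneg hTa.le, Real.norm_of_nonneg (by linarith),
      div_mul_eq_div_div, div_le_div_iff_of_pos_right hTa, div_le_iff₀ (norm_pos_iff.2 hD),
      ← hρ2, pow_two, mul_assoc]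
    refine mul_le_mul_of_nonneg_left ?_ (by linarith)
    refine (sq_le_sq₀ (by positivity) (norm_nonneg _)).1 ?_
    have hwn : ‖w‖ < ρ := by simpa using hw
    have id1 : ‖((ρ * ρ : ℝ) : ℂ) - conj z * w‖ ^ 2 - (ρ * ‖w - z‖) ^ 2 =
        (ρ ^ 2 - ‖w‖ ^ 2) * (ρ ^ 2 - ‖z‖ ^ 2) := by
      simp only [mul_pow, Complex.sq_norm, Complex.normSq_apply, Complex.sub_re, Complex.sub_im,
        Complex.mul_re, Complex.mul_im, Complex.conj_re, Complex.conj_im, Complex.ofReal_re,
        Complex.ofReal_im]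
      ring
    have h4 : ‖w‖ ^ 2 ≤ ρ ^ 2 := by nlinarith [norm_nonneg w]
    nlinarith [mul_nonneg (sub_nonneg.2 h4) (show 0 ≤ ρ ^ 2 - ‖z‖ ^ 2 by linarith)]
  have hpt : ∀ w ∈ ball (0 : ℂ) ρ, (T / ‖(T : ℂ) - z * conj w‖ ^ 2) ^ 2 =
      |((ContinuousLinearMap.toSpanSingleton ℂ ((T : ℂ) / ((T : ℂ) - conj z * w) ^ 2)
        ).restrictScalars ℝ).det| • (1 : ℝ) := by
    intro w _
    rw [abs_det_mul, smul_eq_mul, mul_one, norm_div, norm_pow, Complex.norm_real,
      Real.norm_of_nonneg (by linarith),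
      show (T : ℂ) - z * conj w = conj ((T : ℂ) - conj z * w) by
        simp [map_sub, map_mul], Complex.norm_conj]
  rw [setIntegral_congr_fun measurableSet_ball hpt,
    ← integral_image_eq_integral_abs_det_fderiv_smul volume measurableSet_ball
      (fun w hw => ((hhd w hw).hasFDerivAt.restrictScalars ℝ).hasFDerivWithinAt) hinj
      (fun _ => (1 : ℝ)),
    setIntegral_const, smul_eq_mul, mul_one]
  refine (measureReal_mono hsub measure_closedBall_lt_top.ne).trans ?_
  rw [measureReal_def, Complex.volume_closedBall]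
  simp only [ENNReal.toReal_mul, ENNReal.toReal_pow, ENNReal.coe_toReal, NNReal.coe_real_pi,
    ENNReal.toReal_ofReal (show (0 : ℝ) ≤ ρ / (T - ‖z‖ ^ 2) by positivity)]
  rw [div_pow, hρ2, mul_comm, div_eq_mul_one_div π]
  refine mul_le_mul_of_nonneg_left ?_ Real.pi_pos.le
  rw [div_le_div_iff₀ (by positivity) (by nlinarith), one_mul]
  nlinarith [mul_nonneg (sub_nonneg.2 hT) (show (0 : ℝ) ≤ T - (‖z‖ ^ 2) ^ 2 by nlinarith)]

/-- `S t = a` for `t ≤ a` and `S t = t` for `t ≥ b`. -/
def glue (a b t : ℝ) : ℝ := a + (t - a) * Real.smoothTransition ((t - a) / (b - a))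

lemma contDiff_glue (a b : ℝ) : ContDiff ℝ 2 (glue a b) :=
  contDiff_const.add ((contDiff_id.sub contDiff_const).mul
    ((Real.smoothTransition.contDiff.of_le le_rfl).comp
      ((contDiff_id.sub contDiff_const).div_const _)))

lemma glue_left {a b t : ℝ} (hab : a < b) (h : t ≤ a) : glue a b t = a := by
  rw [glue, Real.smoothTransition.zero_of_nonpos
    (div_nonpos_of_nonpos_of_nonneg (by linarith) (by linarith)), mul_zero, add_zero]

lemma glue_right {a b t : ℝ} (hab : a < b) (h : b ≤ t) : glue a b t = t := by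
  rw [glue, Real.smoothTransition.one_of_one_le (by rw [le_div_iff₀ (by linarith)]; linarith)]
  ring

lemma glue_ge {a b : ℝ} (hab : a < b) (t : ℝ) : a ≤ glue a b t := by
  rcases le_total t a with h | h
  · rw [glue_left hab h]
  · have := mul_nonneg (sub_nonneg.2 h) (Real.smoothTransition.nonneg ((t - a) / (b - a)))
    rw [glue]; linarith

lemma glue_le {a b t : ℝ} (h : a ≤ t) : glue a b t ≤ t := by
  have := mul_le_mul_of_nonneg_left (Real.smoothTransition.le_one ((t - a) / (b - a)))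
    (sub_nonneg.2 h)
  rw [glue]; linarith

lemma exists_bound_deriv_transition :
    ∃ Kτ : ℝ, 0 ≤ Kτ ∧ ∀ u ∈ Icc (0 : ℝ) 1, |deriv Real.smoothTransition u| ≤ Kτ := by
  have hc : Continuous (deriv Real.smoothTransition) :=
    (Real.smoothTransition.contDiff (n := 1)).continuous_deriv le_rfl
  obtain ⟨b, hb⟩ := isCompact_Icc.exists_bound_of_continuousOn (s := Icc (0 : ℝ) 1) hc.continuousOn
  exact ⟨max b 0, le_max_right _ _, fun u hu => (hb u hu).trans (le_max_left _ _)⟩

lemma abs_deriv_glue {a b t Kτ : ℝ} (hab : a < b)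
    (hK : ∀ u ∈ Icc (0 : ℝ) 1, |deriv Real.smoothTransition u| ≤ Kτ) (ht : t ∈ Icc a b) :
    |deriv (glue a b) t| ≤ 1 + Kτ := by
  have hba : 0 < b - a := by linarith
  set u := (t - a) / (b - a) with hu
  have hu01 : u ∈ Icc (0 : ℝ) 1 :=
    ⟨div_nonneg (sub_nonneg.2 ht.1) hba.le, by rw [hu, div_le_one hba]; linarith [ht.2]⟩
  have hd : HasDerivAt (glue a b)
      (Real.smoothTransition u + u * deriv Real.smoothTransition u) t := by
    have h1 := ((hasDerivAt_id t).sub_const a).fun_mul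
      ((((Real.smoothTransition.contDiff (n := 1)).differentiable (by norm_num)) u).hasDerivAt.comp t
        (((hasDerivAt_id t).sub_const a).div_const (b - a)))
    refine (h1.const_add a).congr_deriv ?_
    simp only [hu, id_eq, Function.comp_apply]
    ring
  rw [hd.deriv]
  refine (abs_add_le _ _).trans (add_le_add ?_ ?_)
  · rw [abs_of_nonneg (Real.smoothTransition.nonneg _)]; exact Real.smoothTransition.le_one _
  · rw [abs_mul, abs_of_nonneg hu01.1]
    calc u * |deriv Real.smoothTransition u| ≤ 1 * Kτ :=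
          mul_le_mul hu01.2 (hK u hu01) (abs_nonneg _) zero_le_one
      _ = Kτ := one_mul _

/-- The antiholomorphic continuation of `1 / (w - z)` into the disk. -/
def inner' (a b : ℝ) (z w : ℂ) : ℂ :=
  conj w / ((glue a b (‖w‖ ^ 2) : ℂ) - z * conj w)

lemma jac_add_inner {a b : ℝ} {z w : ℂ} {M : ℂ → ℂ} (hM : DifferentiableAt ℂ M w)
    (hD : (glue a b (‖w‖ ^ 2) : ℂ) - z * conj w ≠ 0) :
    jac (fun v => M v + inner' a b z v) w =
      ‖deriv M w - ((deriv (glue a b) (‖w‖ ^ 2) : ℝ) : ℂ) * conj w ^ 2 /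
          ((glue a b (‖w‖ ^ 2) : ℂ) - z * conj w) ^ 2‖ ^ 2 -
        (|glue a b (‖w‖ ^ 2) - deriv (glue a b) (‖w‖ ^ 2) * ‖w‖ ^ 2| /
          ‖(glue a b (‖w‖ ^ 2) : ℂ) - z * conj w‖ ^ 2) ^ 2 := by
  set S := glue a b (‖w‖ ^ 2) with hS
  set S' := deriv (glue a b) (‖w‖ ^ 2) with hS'
  have hn : HasFDerivAt (fun v : ℂ => ‖v‖ ^ 2) ((2 : ℕ) • innerSL ℝ w) w :=
    (hasStrictFDerivAt_norm_sq w).hasFDerivAt
  have hSd := Complex.ofRealCLM.hasFDerivAt.comp w
    ((((contDiff_glue a b).differentiable (by norm_num)) (‖w‖ ^ 2)).hasDerivAt.comp_hasFDerivAt w hn)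
  have hcj : HasFDerivAt (fun v : ℂ => conj v) conjCLE.toContinuousLinearMap w :=
    conjCLE.toContinuousLinearMap.hasFDerivAt
  have hDd := hSd.fun_sub (hcj.const_mul z)
  have hinv := ((hasDerivAt_inv hD).hasFDerivAt.restrictScalars ℝ).comp w hDd
  have h := (hM.hasDerivAt.hasFDerivAt.restrictScalars ℝ).fun_add (hcj.fun_mul hinv)
  have hev : (fun v => M v + inner' a b z v) =ᶠ[𝓝 w] fun v => M v +
      conj v * ((fun x => x⁻¹) ∘ fun v => (glue a b (‖v‖ ^ 2) : ℂ) - z * conj v) v :=
    Eventually.of_forall fun v => by simp [inner', div_eq_mul_inv]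
  have hfd := h.congr_of_eventuallyEq hev
  have hnz : ((‖w‖ : ℂ)) ^ 2 = w * conj w := (Complex.mul_conj' w).symm
  rw [jac_eq_of_fderiv
    (p := deriv M w - (S' : ℂ) * conj w ^ 2 / ((S : ℂ) - z * conj w) ^ 2)
    (q := ((S : ℂ) - (S' : ℂ) * (‖w‖ : ℂ) ^ 2) / ((S : ℂ) - z * conj w) ^ 2)]
  · congr 2
    rw [norm_div, norm_pow, show (S : ℂ) - (S' : ℂ) * (‖w‖ : ℂ) ^ 2 =
      ((S - S' * ‖w‖ ^ 2 : ℝ) : ℂ) by push_cast; ring, Complex.norm_real, Real.norm_eq_abs]
  · rw [hfd.fderiv]
    simp [Complex.inner, ← hS, ← hS']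
    have h2 : (2 : ℂ) * (w.re : ℂ) = w + conj w := by rw [Complex.add_conj]; push_cast; ring
    field_simp
    linear_combination ((-(S' : ℂ) * conj w) * h2 + (S' : ℂ) * hnz) / ((S : ℂ) - z * conj w) ^ 2
  · rw [hfd.fderiv]
    simp [Complex.inner, ← hS, ← hS']
    have h2 : (2 : ℂ) * (w.im : ℂ) = -I * (w - conj w) := by
      rw [Complex.sub_conj]; push_cast
      linear_combination (2 * (w.im : ℂ)) * Complex.I_sq
    field_simp
    linear_combination ((-(S' : ℂ) * conj w) * h2 - I * (S' : ℂ) * hnz) / ((S : ℂ) - z * conj w) ^ 2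

/-- The area theorem for `U (z, ·)` with all coefficients. -/
theorem area_all : AreaStatement := by
  intro f R hR hf hinj z hz N
  have hz1 : ‖z‖ < 1 := by simpa using hz
  have hzR : z ∈ ball (0 : ℂ) R := ball_subset_ball hR.le hz
  set M := Mfun f z with hMdef
  have hM : DifferentiableOn ℂ M (ball 0 R) := differentiableOn_Mfun hf hinj hzR
  have hdM : DifferentiableOn ℂ (deriv M) (ball 0 R) := hM.deriv isOpen_ball
  set R₁ := (1 + R) / 2 with hR₁
  set R₂ := (R₁ + R) / 2 with hR₂
  have h1 : 1 < R₁ := by rw [hR₁]; linarith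
  have h12 : R₁ < R₂ := by rw [hR₂, hR₁]; linarith
  have h2R : R₂ < R := by rw [hR₂, hR₁]; linarith
  set T := R₁ ^ 2 with hT
  set T₀ := max 1 ((T + ‖z‖ * R₁) / 2) with hT₀
  have hT1 : 1 < T := by rw [hT]; nlinarith
  have hzT : ‖z‖ * R₁ < T := by rw [hT]; nlinarith [norm_nonneg z]
  have hT₀T : T₀ < T := max_lt hT1 (by linarith)
  set δ := T₀ - ‖z‖ * R₁ with hδ
  have hδ0 : 0 < δ := by rw [hδ]; linarith [le_max_right 1 ((T + ‖z‖ * R₁) / 2)]
  obtain ⟨Kτ, hK0, hK⟩ := exists_bound_deriv_transition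
  set C := ((T + (1 + Kτ) * T) / δ ^ 2) ^ 2 with hC
  have hsum : ∑ q ∈ Finset.range N, ‖coef (Ufun f z) q‖ ^ 2 / ((q : ℝ) + 1) =
      ∑ q ∈ Finset.range N, ‖coef (deriv M) q‖ ^ 2 / ((q : ℝ) + 1) := by
    refine Finset.sum_congr rfl fun q _ => ?_
    have hU : Ufun f z = fun w => -deriv M w := rfl
    simp only [coef, hU, iteratedDeriv_fun_neg, norm_div, norm_neg]
  have key : ∀ T' ∈ Ioo T₀ T, π * ∑ q ∈ Finset.range N, ‖coef (deriv M) q‖ ^ 2 / ((q : ℝ) + 1) ≤
      π / (1 - ‖z‖ ^ 2) ^ 2 + C * (π * (T - T')) := by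
    rintro T' ⟨hT'0, hT'T⟩
    have hT'1 : 1 < T' := (le_max_left _ _).trans_lt hT'0
    set Ψ : ℂ → ℂ := fun v => M v + inner' T' T z v with hΨ
    have hδle : ∀ w : ℂ, ‖w‖ ≤ R₁ → δ ≤ ‖(glue T' T (‖w‖ ^ 2) : ℂ) - z * conj w‖ := by
      intro w hw
      have hS := glue_ge hT'T (‖w‖ ^ 2)
      refine le_trans ?_ (norm_sub_norm_le _ _)
      rw [Complex.norm_real, Real.norm_of_nonneg (by linarith), norm_mul, Complex.norm_conj, hδ]
      have := mul_le_mul_of_nonneg_left hw (norm_nonneg z)
      linarith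
    have hD : ∀ w : ℂ, (glue T' T (‖w‖ ^ 2) : ℂ) - z * conj w ≠ 0 := by
      intro w e
      rcases le_or_gt ‖w‖ R₁ with h | h
      · have := hδle w h; rw [e, norm_zero] at this; linarith
      · have hTw : T ≤ ‖w‖ ^ 2 := by rw [hT]; exact pow_le_pow_left₀ (by linarith) h.le 2
        rw [glue_right hT'T hTw] at e
        have := congrArg norm (sub_eq_zero.1 e)
        rw [Complex.norm_real, Real.norm_of_nonneg (sq_nonneg _), norm_mul, Complex.norm_conj] at this
        nlinarith
    have hin : ∀ w : ℂ, ContDiffAt ℝ 2 (inner' T' T z) w := fun w => by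
      have hc : ContDiffAt ℝ 2 (fun v : ℂ => conj v) w :=
        conjCLE.toContinuousLinearMap.contDiff.contDiffAt
      have hS : ContDiffAt ℝ 2 (fun v : ℂ => (glue T' T (‖v‖ ^ 2) : ℂ)) w :=
        (Complex.ofRealCLM.contDiff.comp ((contDiff_glue T' T).comp (contDiff_norm_sq ℝ))).contDiffAt
      have h2 : ContDiffAt ℝ 2 (fun v : ℂ => ((glue T' T (‖v‖ ^ 2) : ℂ) - z * conj v)⁻¹) w :=
        ContDiffAt.inv (hS.sub (contDiffAt_const.mul hc)) (hD w)
      have e : inner' T' T z = fun v : ℂ =>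
          conj v * ((glue T' T (‖v‖ ^ 2) : ℂ) - z * conj v)⁻¹ := by
        funext v; exact div_eq_mul_inv _ _
      rw [e]
      exact hc.mul h2
    have hΨ2 : ∀ w ∈ ball (0 : ℂ) R, ContDiffAt ℝ 2 Ψ w := fun w hw =>
      ContDiffAt.add (((hM.contDiffOn isOpen_ball).restrict_scalars ℝ).contDiffAt
        (isOpen_ball.mem_nhds hw)) (hin w)
    have hnp : ∫ w in ball (0 : ℂ) R₂, jac Ψ w ≤ 0 := by
      refine integral_jac_nonpos (v₀ := f z) (p₁ := deriv f z) (p₂ := 0) h12 h2R hf hinj
        ⟨z, mem_closedBall_zero_iff.2 (hz1.trans h1).le, rfl⟩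
        (fun w hw => hΨ2 w (ball_subset_ball h2R.le hw)) fun w _ hw => ?_
      have hwz : w ≠ z := by rintro rfl; linarith
      have hw0 : w ≠ 0 := by rintro rfl; simp at hw; linarith
      have hTw : T ≤ ‖w‖ ^ 2 := by rw [hT]; exact pow_le_pow_left₀ (by linarith) hw.le 2
      have hwc : conj w ≠ 0 := by simpa using hw0
      have hsub : w - z ≠ 0 := sub_ne_zero.2 hwz
      have e : inner' T' T z w = 1 / (w - z) := by
        rw [inner', glue_right hT'T hTw, Complex.ofReal_pow, ← Complex.mul_conj', ← sub_mul]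
        field_simp
      simp only [hΨ, e, hMdef, Mfun, if_neg hwz]
      ring
    set ρ' := √T' with hρ'
    have hρsq : ρ' ^ 2 = T' := Real.sq_sqrt (by linarith)
    have hρ1 : 1 < ρ' := by rw [hρ']; exact Real.lt_sqrt_of_sq_lt (by linarith)
    have hρR : ρ' < R₁ := by
      refine lt_of_pow_lt_pow_left₀ 2 (by linarith) ?_
      rw [hρsq, ← hT]; exact hT'T
    set s := closedBall (0 : ℂ) R₁ \ ball (0 : ℂ) ρ' with hs
    have hsm : MeasurableSet s := measurableSet_closedBall.diff measurableSet_ball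
    have hsfin : volume s ≠ ⊤ :=
      ((measure_mono sdiff_subset).trans_lt measure_closedBall_lt_top).ne
    set F1 : ℂ → ℝ := fun w => ‖deriv M w‖ ^ 2 with hF1
    set F2 : ℂ → ℝ := fun w => (T' / ‖(T' : ℂ) - z * conj w‖ ^ 2) ^ 2 with hF2
    have hlow : ∀ w ∈ ball (0 : ℂ) R₂, (ball (0 : ℂ) ρ').indicator (fun w => F1 w - F2 w) w -
        s.indicator (fun _ => C) w ≤ jac Ψ w := by
      intro w hw
      have hwR : w ∈ ball (0 : ℂ) R := ball_subset_ball h2R.le hw
      rw [hΨ, jac_add_inner (hM.differentiableAt (isOpen_ball.mem_nhds hwR)) (hD w)]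
      by_cases hwρ : w ∈ ball (0 : ℂ) ρ'
      · rw [indicator_of_mem hwρ, indicator_of_notMem (fun h => h.2 hwρ), sub_zero]
        have ht : ‖w‖ ^ 2 < T' := by
          rw [← hρsq]; exact pow_lt_pow_left₀ (by simpa using hwρ) (norm_nonneg _) two_ne_zero
        have hd : deriv (glue T' T) (‖w‖ ^ 2) = 0 := by
          refine HasDerivAt.deriv ((hasDerivAt_const _ T').congr_of_eventuallyEq ?_)
          filter_upwards [Iio_mem_nhds ht] with t htt using glue_left hT'T (le_of_lt htt)
        simp only [hd, glue_left hT'T ht.le, Complex.ofReal_zero, zero_mul, zero_div, sub_zero,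
          abs_of_pos (by linarith : (0 : ℝ) < T'), hF1, hF2, le_refl]
      rw [indicator_of_notMem hwρ, zero_sub]
      have ht : T' ≤ ‖w‖ ^ 2 := by
        rw [← hρsq]; exact pow_le_pow_left₀ (by linarith) (by simpa using hwρ) 2
      have hsq : ∀ x y : ℂ, ∀ u : ℝ, u ≤ C → -C ≤ ‖x - y‖ ^ 2 - u := fun x y u hu => by
        linarith [sq_nonneg ‖x - y‖]
      by_cases hwR₁ : ‖w‖ ≤ R₁
      · rw [indicator_of_mem (show w ∈ s from ⟨mem_closedBall_zero_iff.2 hwR₁, hwρ⟩)]
        refine hsq _ _ _ ?_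
        rw [hC]
        have htT : ‖w‖ ^ 2 ≤ T := by rw [hT]; exact pow_le_pow_left₀ (norm_nonneg _) hwR₁ 2
        gcongr
        · refine (abs_sub _ _).trans (add_le_add ?_ ?_)
          · rw [abs_of_nonneg ((by linarith : (0 : ℝ) ≤ T').trans (glue_ge hT'T _))]
            exact (glue_le ht).trans htT
          · rw [abs_mul, abs_of_nonneg (sq_nonneg ‖w‖)]
            exact mul_le_mul (abs_deriv_glue hT'T hK ⟨ht, htT⟩) htT (sq_nonneg _) (by linarith)
        · exact hδle w hwR₁
      · rw [indicator_of_notMem (fun h => hwR₁ (mem_closedBall_zero_iff.1 h.1)), neg_zero]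
        have htT : T < ‖w‖ ^ 2 := by
          rw [hT]; exact pow_lt_pow_left₀ (not_le.1 hwR₁) (by linarith) two_ne_zero
        have hd : deriv (glue T' T) (‖w‖ ^ 2) = 1 := by
          refine HasDerivAt.deriv ((hasDerivAt_id _).congr_of_eventuallyEq ?_)
          filter_upwards [Ioi_mem_nhds htT] with t htt using glue_right hT'T (le_of_lt htt)
        rw [hd, glue_right hT'T htT.le, one_mul, sub_self, abs_zero, zero_div,
          zero_pow two_ne_zero, sub_zero]
        positivity
    have hc1 : ContinuousOn F1 (closedBall 0 ρ') :=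
      ((hdM.continuousOn.mono (closedBall_subset_ball (by linarith))).norm).pow 2
    have hc2 : ContinuousOn F2 (closedBall 0 ρ') := by
      refine (continuousOn_const.div ((Continuous.continuousOn (by fun_prop)).pow 2)
        fun w hw => ?_).pow 2
      have hwn : ‖w‖ ≤ R₁ := (mem_closedBall_zero_iff.1 hw).trans hρR.le
      have hg := glue_left hT'T (show ‖w‖ ^ 2 ≤ T' by
        rw [← hρsq]; exact pow_le_pow_left₀ (norm_nonneg _) (mem_closedBall_zero_iff.1 hw) 2)
      have := hδle w hwn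
      rw [hg] at this
      exact pow_ne_zero _ (by linarith)
    have hi1 : IntegrableOn F1 (ball 0 ρ') :=
      (hc1.integrableOn_compact (isCompact_closedBall _ _)).mono_set ball_subset_closedBall
    have hi2 : IntegrableOn F2 (ball 0 ρ') :=
      (hc2.integrableOn_compact (isCompact_closedBall _ _)).mono_set ball_subset_closedBall
    have hjc : ContinuousOn (fun w => jac Ψ w) (closedBall 0 R₂) := by
      intro w hw
      refine ContinuousAt.continuousWithinAt ?_
      have hm := (hΨ2 w (closedBall_subset_ball h2R hw)).fderiv_right (m := 1) (by norm_num)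
      have hca := hm.continuousAt
      unfold jac
      fun_prop
    have hiA : IntegrableOn ((ball (0 : ℂ) ρ').indicator fun w => F1 w - F2 w) (ball 0 R₂) :=
      ((hi1.sub hi2).integrable_indicator measurableSet_ball).integrableOn
    have hiB : IntegrableOn (s.indicator fun _ => C) (ball 0 R₂) :=
      ((integrableOn_const hsfin).integrable_indicator hsm).integrableOn
    have hm := setIntegral_mono_on (hiA.sub hiB)
      ((hjc.integrableOn_compact (isCompact_closedBall _ _)).mono_set ball_subset_closedBall)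
      measurableSet_ball hlow
    simp only [Pi.sub_apply] at hm
    rw [integral_sub hiA hiB, setIntegral_indicator measurableSet_ball,
      inter_eq_self_of_subset_right (ball_subset_ball (hρR.trans h12).le),
      integral_sub hi1 hi2, setIntegral_indicator hsm,
      inter_eq_self_of_subset_right (sdiff_subset.trans (closedBall_subset_ball h12)),
      setIntegral_const, smul_eq_mul] at hm
    have hvol : volume.real s = π * (T - T') := by
      rw [hs, measureReal_sdiff (ball_subset_closedBall.trans (closedBall_subset_closedBall hρR.le))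
        measurableSet_ball measure_closedBall_lt_top.ne, measureReal_def, measureReal_def,
        Complex.volume_closedBall, Complex.volume_ball]
      simp only [ENNReal.toReal_mul, ENNReal.toReal_pow, ENNReal.coe_toReal, NNReal.coe_real_pi,
        ENNReal.toReal_ofReal (by linarith : (0 : ℝ) ≤ ρ'),
        ENNReal.toReal_ofReal (by linarith : (0 : ℝ) ≤ R₁), hρsq, ← hT]
      ring
    rw [hvol] at hm
    have hb : π * ∑ q ∈ Finset.range N, ‖coef (deriv M) q‖ ^ 2 / ((q : ℝ) + 1) ≤
        ∫ w in ball (0 : ℂ) ρ', F1 w :=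
      (bessel hR hdM N).trans (setIntegral_mono_set hi1
        (Eventually.of_forall fun w => sq_nonneg _) (closedBall_subset_ball hρ1).eventuallyLE)
    have hmob : ∫ w in ball (0 : ℂ) ρ', F2 w ≤ π / (1 - ‖z‖ ^ 2) ^ 2 :=
      dirichlet_mobius hT'1.le hz1
    linarith
  have hlim : Tendsto (fun T' => π / (1 - ‖z‖ ^ 2) ^ 2 + C * (π * (T - T'))) (𝓝[<] T)
      (𝓝 (π / (1 - ‖z‖ ^ 2) ^ 2)) := by
    refine tendsto_nhdsWithin_of_tendsto_nhds ?_
    have : Continuous fun T' => π / (1 - ‖z‖ ^ 2) ^ 2 + C * (π * (T - T')) := by fun_prop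
    simpa using this.tendsto T
  have hfin := ge_of_tendsto hlim (Filter.mem_of_superset (Ioo_mem_nhdsLT hT₀T) key)
  rw [hsum]
  rw [div_eq_mul_inv] at hfin
  exact le_of_mul_le_mul_left hfin Real.pi_pos

end

end Vale.Agent.P142.Sharp.AreaAll

namespace Vale.Agent.P142.Sharp

/-- T0. -/
theorem area_all : AreaStatement := AreaAll.area_all

end Vale.Agent.P142.Sharp
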