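import Mathlib
import Vale.Agent.P142.Sharp.Defs

/-!
Orthogonality of powers for radial weights on the unit disc, arithmetic of the radial moments and
the asymptotics of power sums.
-/

namespace Vale.Agent.P142.Sharp

open Complex Metric Set Filter Topology MeasureTheory Finset ComplexConjugate
open scoped Real

noncomputable section

/-! ### Radial moments -/

lemma nu_continuous {g : ℝ} (hg : 0 ≤ g) (m : ℕ) :
    Continuous fun t : ℝ => t ^ m * (1 - t) ^ g :=
  (continuous_pow m).mul ((continuous_const.sub continuous_id).rpow_const fun _ => Or.inr hg)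

lemma nu_bounds {g : ℝ} (hg : 0 ≤ g) (m : ℕ) : 0 < nu g m ∧ nu g m ≤ 1 := by
  refine ⟨intervalIntegral.intervalIntegral_pos_of_pos_on
    ((nu_continuous hg m).intervalIntegrable _ _) (fun t ht => ?_) zero_lt_one, ?_⟩
  · exact mul_pos (pow_pos ht.1 m) (Real.rpow_pos_of_pos (by linarith [ht.2]) g)
  · have h := intervalIntegral.integral_mono_on (μ := volume) (zero_le_one (α := ℝ))
      ((nu_continuous hg m).intervalIntegrable _ _)
      ((continuous_const (y := (1 : ℝ))).intervalIntegrable _ _) fun t ht => ?_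
    · simpa [nu] using h
    · exact mul_le_one₀ (pow_le_one₀ ht.1 ht.2) (Real.rpow_nonneg (by linarith [ht.2]) g)
        (Real.rpow_le_one (by linarith [ht.2]) (by linarith [ht.1]) hg)

lemma nu_succ_exponent {g : ℝ} (hg : 0 ≤ g) (m : ℕ) :
    nu (g + 1) m = (g + 1) / ((m : ℝ) + g + 2) * nu g m := by
  have hg1 : 0 ≤ g + 1 := by linarith
  have hd : ∀ t ∈ uIcc (0 : ℝ) 1, HasDerivAt (fun t : ℝ => t ^ (m + 1) * (1 - t) ^ (g + 1))
      (((m : ℝ) + g + 2) * (t ^ m * (1 - t) ^ (g + 1)) - (g + 1) * (t ^ m * (1 - t) ^ g)) t := by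
    intro t ht
    rw [Set.uIcc_of_le zero_le_one] at ht
    have h2 := ((hasDerivAt_id t).const_sub 1).rpow_const (p := g + 1) (Or.inr (by linarith))
    refine ((hasDerivAt_pow (m + 1) t).mul h2).congr_deriv ?_
    have hsplit : (1 - t) ^ (g + 1) = (1 - t) ^ g * (1 - t) := by
      rw [Real.rpow_add_one' (by linarith [ht.2]) (by linarith)]
    rw [show g + 1 - 1 = g by ring]
    simp only [id, hsplit, Nat.cast_add, Nat.cast_one, add_tsub_cancel_right]
    ring
  have hc1 := ((nu_continuous hg1 m).const_mul ((m : ℝ) + g + 2))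
  have hc2 := ((nu_continuous hg m).const_mul (g + 1))
  have h := intervalIntegral.integral_eq_sub_of_hasDerivAt hd ((hc1.sub hc2).intervalIntegrable _ _)
  rw [intervalIntegral.integral_sub (hc1.intervalIntegrable _ _) (hc2.intervalIntegrable _ _),
    intervalIntegral.integral_const_mul, intervalIntegral.integral_const_mul] at h
  simp [Real.zero_rpow (by linarith : g + 1 ≠ 0)] at h
  rw [nu, nu, div_mul_eq_mul_div, eq_div_iff (by positivity)]
  linarith

lemma nu_succ {g : ℝ} (hg : 0 ≤ g) (m : ℕ) :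
    nu g (m + 1) = ((m : ℝ) + 1) / ((m : ℝ) + g + 2) * nu g m := by
  have hg1 : 0 ≤ g + 1 := by linarith
  have h : nu g (m + 1) = nu g m - nu (g + 1) m := by
    rw [nu, nu, nu, ← intervalIntegral.integral_sub ((nu_continuous hg m).intervalIntegrable _ _)
      ((nu_continuous hg1 m).intervalIntegrable _ _)]
    refine intervalIntegral.integral_congr fun t ht => ?_
    rw [Set.uIcc_of_le zero_le_one] at ht
    show t ^ (m + 1) * (1 - t) ^ g = t ^ m * (1 - t) ^ g - t ^ m * (1 - t) ^ (g + 1)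
    rw [Real.rpow_add_one' (by linarith [ht.2]) (by linarith)]
    ring
  rw [h, nu_succ_exponent hg m]
  field_simp
  ring

lemma nu_ratio {g : ℝ} (hg : 0 ≤ g) (hg1 : g ≤ 1) {p m : ℕ} (hpm : p ≤ m) :
    nu g m / nu g p ≤ (((p : ℝ) + 1) / (m + 1)) * (((p : ℝ) + 3) / (m + 3)) ^ g := by
  have hp := (nu_bounds hg p).1
  rw [div_le_iff₀ hp]
  induction m, hpm using Nat.le_induction with
  | base => simp [div_self (show ((p : ℝ) + 1) ≠ 0 by positivity),
      div_self (show ((p : ℝ) + 3) ≠ 0 by positivity)]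
  | succ m hm ih =>
    have hstep : ((m : ℝ) + 1) / ((m : ℝ) + g + 2) ≤
        ((m : ℝ) + 1) / (m + 2) * (((m : ℝ) + 3) / (m + 4)) ^ g := by
      have hb : (1 + 1 / ((m : ℝ) + 3)) ^ g ≤ 1 + g * (1 / ((m : ℝ) + 3)) := by
        refine rpow_one_add_le_one_add_mul_self ?_ hg hg1
        have : (0 : ℝ) ≤ 1 / ((m : ℝ) + 3) := by positivity
        linarith
      have hc : 1 + g * (1 / ((m : ℝ) + 3)) ≤ ((m : ℝ) + g + 2) / (m + 2) := by
        rw [show ((m : ℝ) + g + 2) / (m + 2) = 1 + g * (1 / ((m : ℝ) + 2)) by field_simp; ring]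
        gcongr
        linarith
      have e : ((m : ℝ) + 3) / (m + 4) = (1 + 1 / ((m : ℝ) + 3))⁻¹ := by
        field_simp
        ring
      rw [e, Real.inv_rpow (by positivity), ← div_eq_mul_inv, div_div]
      refine div_le_div_of_nonneg_left (by positivity) (by positivity) ?_
      calc ((m : ℝ) + 2) * (1 + 1 / ((m : ℝ) + 3)) ^ g
          ≤ ((m : ℝ) + 2) * (((m : ℝ) + g + 2) / (m + 2)) :=
            mul_le_mul_of_nonneg_left (hb.trans hc) (by positivity)
        _ = (m : ℝ) + g + 2 := by field_simp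
    rw [nu_succ hg m]
    calc ((m : ℝ) + 1) / ((m : ℝ) + g + 2) * nu g m
        ≤ ((m : ℝ) + 1) / (m + 2) * (((m : ℝ) + 3) / (m + 4)) ^ g *
          ((((p : ℝ) + 1) / (m + 1)) * (((p : ℝ) + 3) / (m + 3)) ^ g * nu g p) := by
          refine mul_le_mul hstep ih (nu_bounds hg m).1.le (by positivity)
      _ = (((p : ℝ) + 1) / ((m : ℝ) + 2)) *
          ((((m : ℝ) + 3) / (m + 4)) ^ g * (((p : ℝ) + 3) / (m + 3)) ^ g) * nu g p := by
          field_simp
      _ = _ := by
          rw [← Real.mul_rpow (by positivity) (by positivity),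
            show ((m : ℝ) + 3) / (m + 4) * (((p : ℝ) + 3) / (m + 3)) = ((p : ℝ) + 3) / (m + 4) by
              field_simp]
          push_cast
          ring_nf

theorem nu_facts : NuStatement := fun _ hg =>
  ⟨fun m => nu_bounds hg m, fun m => nu_succ_exponent hg m,
    fun hg1 _ _ hpm => nu_ratio hg hg1 hpm⟩

/-! ### Power sums -/

lemma sum_pow_bounds (k r : ℕ) :
    ((r : ℝ) ^ (k + 1) - ((k : ℝ) + 1) * (r : ℝ) ^ k ≤
        ((k : ℝ) + 1) * ∑ p ∈ range r, (p : ℝ) ^ k) ∧
      ((k : ℝ) + 1) * ∑ p ∈ range r, (p : ℝ) ^ k ≤ (r : ℝ) ^ (k + 1) := by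
  induction r with
  | zero =>
    rcases Nat.eq_zero_or_pos k with rfl | hk
    · simp
    · simp [zero_pow hk.ne']
  | succ r ih =>
    have hgs := geom_sum₂_mul ((r : ℝ) + 1) (r : ℝ) (k + 1)
    rw [add_sub_cancel_left, mul_one] at hgs
    have hlo : ((k : ℝ) + 1) * (r : ℝ) ^ k ≤ ((r : ℝ) + 1) ^ (k + 1) - (r : ℝ) ^ (k + 1) := by
      rw [← hgs]
      calc ((k : ℝ) + 1) * (r : ℝ) ^ k = ∑ _i ∈ range (k + 1), (r : ℝ) ^ k := by simp
        _ ≤ _ := by
          refine sum_le_sum fun i hi => ?_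
          rw [Finset.mem_range] at hi
          rw [show k + 1 - 1 - i = k - i by omega]
          calc (r : ℝ) ^ k = (r : ℝ) ^ i * (r : ℝ) ^ (k - i) := by
                rw [← pow_add, Nat.add_sub_cancel' (by omega)]
            _ ≤ _ := mul_le_mul_of_nonneg_right
                (pow_le_pow_left₀ (by positivity) (by linarith) i) (by positivity)
    have hhi : ((r : ℝ) + 1) ^ (k + 1) - (r : ℝ) ^ (k + 1) ≤ ((k : ℝ) + 1) * ((r : ℝ) + 1) ^ k := by
      rw [← hgs]
      calc _ ≤ ∑ _i ∈ range (k + 1), ((r : ℝ) + 1) ^ k := by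
            refine sum_le_sum fun i hi => ?_
            rw [Finset.mem_range] at hi
            rw [show k + 1 - 1 - i = k - i by omega]
            calc _ ≤ ((r : ℝ) + 1) ^ i * ((r : ℝ) + 1) ^ (k - i) := mul_le_mul_of_nonneg_left
                  (pow_le_pow_left₀ (by positivity) (by linarith) _) (by positivity)
              _ = _ := by rw [← pow_add, Nat.add_sub_cancel' (by omega)]
        _ = _ := by simp
    rw [sum_range_succ, mul_add]
    push_cast
    constructor <;> linarith [ih.1, ih.2]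

theorem powerSum : PowerSumStatement := by
  intro k r hr1 hr2
  have hz : Tendsto (fun N : ℕ => 1 / (N : ℝ)) atTop (𝓝 0) := tendsto_one_div_atTop_nhds_zero_nat
  have hhalf : Tendsto (fun N : ℕ => (r N : ℝ) / N) atTop (𝓝 (1 / 2)) := by
    refine tendsto_of_tendsto_of_tendsto_of_le_of_le'
      (g := fun N : ℕ => 1 / 2 - 1 / (N : ℝ)) (h := fun N : ℕ => 1 / 2 + 1 / (N : ℝ))
      (by simpa using tendsto_const_nhds.sub hz) (by simpa using tendsto_const_nhds.add hz) ?_ ?_
    · filter_upwards [eventually_gt_atTop 0] with N hN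
      have h : (N : ℝ) ≤ 2 * r N + 2 := by exact_mod_cast hr2 N
      have hN' : (0 : ℝ) < N := by exact_mod_cast hN
      rw [le_div_iff₀ hN', sub_mul, div_mul_cancel₀ _ hN'.ne']
      linarith
    · filter_upwards [eventually_gt_atTop 0] with N hN
      have h : 2 * (r N : ℝ) ≤ N + 2 := by exact_mod_cast hr1 N
      have hN' : (0 : ℝ) < N := by exact_mod_cast hN
      rw [div_le_iff₀ hN', add_mul, div_mul_cancel₀ _ hN'.ne']
      linarith
  have htop : Tendsto (fun N : ℕ => ((r N : ℝ) / N) ^ (k + 1) / ((k : ℝ) + 1)) atTop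
      (𝓝 (1 / (((k : ℝ) + 1) * 2 ^ (k + 1)))) := by
    have := (hhalf.pow (k + 1)).div_const ((k : ℝ) + 1)
    rwa [div_pow, one_pow, div_div, mul_comm ((2 : ℝ) ^ (k + 1))] at this
  refine tendsto_of_tendsto_of_tendsto_of_le_of_le
    (g := fun N : ℕ => ((r N : ℝ) / N) ^ (k + 1) / ((k : ℝ) + 1) -
      ((r N : ℝ) / N) ^ k * (1 / (N : ℝ)))
    (by simpa using htop.sub ((hhalf.pow k).mul hz)) htop (fun N => ?_) fun N => ?_
  · rcases Nat.eq_zero_or_pos N with rfl | hN
    · simp
    have hN' : (0 : ℝ) < N := by exact_mod_cast hN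
    calc _ = ((r N : ℝ) ^ (k + 1) - ((k : ℝ) + 1) * (r N : ℝ) ^ k) / ((k : ℝ) + 1) /
          (N : ℝ) ^ (k + 1) := by
          simp only [div_pow, pow_succ]
          field_simp
      _ ≤ _ := by
          gcongr
          rw [div_le_iff₀ (by positivity)]
          linarith [(sum_pow_bounds k (r N)).1]
  · rcases Nat.eq_zero_or_pos N with rfl | hN
    · simp
    calc (∑ p ∈ range (r N), (p : ℝ) ^ k) / (N : ℝ) ^ (k + 1)
        ≤ (r N : ℝ) ^ (k + 1) / ((k : ℝ) + 1) / (N : ℝ) ^ (k + 1) := by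
          gcongr
          rw [le_div_iff₀ (by positivity)]
          linarith [(sum_pow_bounds k (r N)).2]
      _ = _ := by rw [div_pow]; ring

/-! ### The expansion -/

lemma weight_continuous {g : ℝ} (hg : 0 ≤ g) :
    Continuous fun z : ℂ => (((1 - ‖z‖ ^ 2) ^ g : ℝ) : ℂ) :=
  continuous_ofReal.comp ((continuous_const.sub (continuous_norm.pow 2)).rpow_const
    fun _ => Or.inr hg)

lemma ball_eq_closedBall :
    volume.restrict (ball (0 : ℂ) 1) = volume.restrict (closedBall (0 : ℂ) 1) :=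
  Measure.restrict_congr_set (ae_eq_of_subset_of_measure_ge ball_subset_closedBall
    (Measure.addHaar_closedBall_eq_addHaar_ball volume 0 1).le
    measurableSet_ball.nullMeasurableSet measure_closedBall_lt_top.ne)

/-- The weight integral of a mixed power. -/
lemma integral_pow_conj_pow {g : ℝ} (hg : 0 ≤ g) (m n : ℕ) :
    ∫ z in ball (0 : ℂ) 1, (((1 - ‖z‖ ^ 2) ^ g : ℝ) : ℂ) * (z ^ m * conj z ^ n) =
      if m = n then (π : ℂ) * (nu g m : ℂ) else 0 := by
  rw [ball_eq_closedBall]
  have hφ : ∀ k : ℕ, Continuous fun t : ℝ => ((t ^ k * (1 - t) ^ g : ℝ) : ℂ) := fun k =>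
    continuous_ofReal.comp (nu_continuous hg k)
  have hmix : ∀ d k : ℕ, ∫ z in closedBall (0 : ℂ) 1,
      (((1 - ‖z‖ ^ 2) ^ g : ℝ) : ℂ) * (z ^ (k + (d + 1)) * conj z ^ k) = 0 := by
    intro d k
    refine Eq.trans ?_ (Area.setIntegral_ball_radial_mul (ρ := 1) (hφ k) one_lt_two
      ((differentiableOn_pow (d + 1)).congr fun _ _ => rfl : DifferentiableOn ℂ (fun z : ℂ => z ^ (d + 1)) (ball 0 2))
      (zero_pow d.succ_ne_zero))
    refine setIntegral_congr_fun measurableSet_closedBall fun z _ => ?_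
    have : z ^ k * conj z ^ k = ((‖z‖ ^ 2 : ℝ) : ℂ) ^ k := by
      rw [← mul_pow, Complex.mul_conj']; push_cast; rfl
    rw [pow_add]
    push_cast at this ⊢
    linear_combination (((1 - ‖z‖ ^ 2) ^ g : ℝ) : ℂ) * z ^ (d + 1) * this
  rcases lt_trichotomy m n with h | rfl | h
  · obtain ⟨d, rfl⟩ := Nat.exists_eq_add_of_lt h
    rw [if_neg (by omega)]
    have h' := congrArg conj (hmix d m)
    rw [← integral_conj, map_zero] at h'
    refine Eq.trans ?_ h'
    refine setIntegral_congr_fun measurableSet_closedBall fun z _ => ?_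
    simp [mul_comm, add_assoc]
  · rw [if_pos rfl]
    calc ∫ z in closedBall (0 : ℂ) 1, (((1 - ‖z‖ ^ 2) ^ g : ℝ) : ℂ) * (z ^ m * conj z ^ m)
        = ∫ z in closedBall (0 : ℂ) 1, (((‖z‖ ^ 2) ^ m * (1 - ‖z‖ ^ 2) ^ g : ℝ) : ℂ) := by
          refine setIntegral_congr_fun measurableSet_closedBall fun z _ => ?_
          rw [← mul_pow, Complex.mul_conj']
          push_cast
          ring
      _ = _ := by
          rw [Area.setIntegral_ball_radial (hφ m), ← intervalIntegral.integral_of_le zero_le_one]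
          have := intervalIntegral.integral_comp_mul_deriv (a := (0 : ℝ)) (b := 1)
            (f := fun r : ℝ => r ^ 2) (f' := fun r => 2 * r) (g := fun t => t ^ m * (1 - t) ^ g)
            (fun r _ => by simpa using hasDerivAt_pow 2 r) (by fun_prop) (nu_continuous hg m)
          simp only [Function.comp_apply, one_pow, ne_eq, OfNat.ofNat_ne_zero, not_false_eq_true,
            zero_pow] at this
          rw [nu, ← this, ← intervalIntegral.integral_ofReal, ← intervalIntegral.integral_const_mul]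
          refine intervalIntegral.integral_congr fun r _ => ?_
          push_cast
          ring
  · obtain ⟨d, rfl⟩ := Nat.exists_eq_add_of_lt h
    rw [if_neg (by omega)]
    exact hmix d n

lemma hasSum_coef {F : ℂ → ℂ} {R : ℝ} (hF : DifferentiableOn ℂ F (ball 0 R)) {z : ℂ}
    (hz : z ∈ ball (0 : ℂ) R) : HasSum (fun m => coef F m * z ^ m) (F z) := by
  refine (Complex.hasSum_taylorSeries_on_ball hF hz).congr_fun fun m => ?_
  simp only [coef, sub_zero, smul_eq_mul]
  ring

lemma hasSum_double {P Q : ℂ → ℂ} {R : ℝ} (hP : DifferentiableOn ℂ P (ball 0 R))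
    (hQ : DifferentiableOn ℂ Q (ball 0 R)) {z : ℂ} (hz : z ∈ ball (0 : ℂ) R) (w : ℂ) :
    HasSum (fun x : ℕ × ℕ => coef P x.1 * conj (coef Q x.2) * (w * (z ^ x.1 * conj z ^ x.2)))
      (w * (P z * conj (Q z))) := by
  have hp := hasSum_coef hP hz
  have hq : HasSum (fun n => conj (coef Q n) * conj z ^ n) (conj (Q z)) := by
    refine ((hasSum_coef hQ hz).map (starRingEnd ℂ) Complex.continuous_conj).congr_fun fun n => ?_
    simp
  have hs : Summable fun x : ℕ × ℕ =>
      (coef P x.1 * z ^ x.1) * (conj (coef Q x.2) * conj z ^ x.2) :=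
    summable_mul_of_summable_norm (f := fun m => coef P m * z ^ m)
      (g := fun n => conj (coef Q n) * conj z ^ n) hp.summable.norm hq.summable.norm
  exact ((hp.mul hq hs).mul_left w).congr_fun fun x => by ring

theorem expansion : ExpansionStatement := by
  intro P Q R g hR hg hP hQ
  have h1 : (1 : ℂ) ∈ ball (0 : ℂ) R := by simpa using hR
  have hsP : Summable fun m => ‖coef P m‖ := by
    simpa using ((hasSum_coef hP h1).summable.norm)
  have hsQ : Summable fun m => ‖coef Q m‖ := by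
    simpa using ((hasSum_coef hQ h1).summable.norm)
  set μ := volume.restrict (ball (0 : ℂ) 1) with hμ
  let T : ℕ × ℕ → ℂ → ℂ := fun x z => coef P x.1 * conj (coef Q x.2) *
    ((((1 - ‖z‖ ^ 2) ^ g : ℝ) : ℂ) * (z ^ x.1 * conj z ^ x.2))
  have hT : ∀ x, ∀ z ∈ ball (0 : ℂ) 1, ‖T x z‖ ≤ ‖coef P x.1‖ * ‖coef Q x.2‖ := by
    intro x z hz
    rw [mem_ball_zero_iff] at hz
    simp only [T, norm_mul, norm_pow, Complex.norm_conj, norm_real, Real.norm_eq_abs]
    have hw : |(1 - ‖z‖ ^ 2) ^ g| ≤ 1 := by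
      have : ‖z‖ ^ 2 ≤ 1 := pow_le_one₀ (norm_nonneg z) hz.le
      rw [abs_of_nonneg (Real.rpow_nonneg (by linarith) g)]
      exact Real.rpow_le_one (by linarith) (by linarith [sq_nonneg ‖z‖]) hg
    refine mul_le_of_le_one_right (by positivity) ?_
    exact mul_le_one₀ hw (by positivity)
      (mul_le_one₀ (pow_le_one₀ (norm_nonneg z) hz.le) (by positivity)
        (pow_le_one₀ (norm_nonneg z) hz.le))
  have hTi : ∀ x, Integrable (T x) μ := fun x =>
    (((continuous_const.mul ((weight_continuous hg).mul ((continuous_pow x.1).mul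
      (Complex.continuous_conj.pow x.2))))).continuousOn.integrableOn_compact
        (isCompact_closedBall 0 1)).mono_set ball_subset_closedBall
  have hsum : Summable fun x => ∫ z, ‖T x z‖ ∂μ := by
    refine Summable.of_nonneg_of_le (fun x => integral_nonneg fun _ => norm_nonneg _) (fun x => ?_)
      ((hsP.mul_of_nonneg hsQ (fun _ => norm_nonneg _) fun _ => norm_nonneg _).mul_left
        (μ.real univ))
    have hfin : IsFiniteMeasure μ := isFiniteMeasure_restrict.2 measure_ball_lt_top.ne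
    refine (integral_mono_ae (hTi x).norm (integrable_const _)
      ((ae_restrict_mem measurableSet_ball).mono (hT x))).trans_eq ?_
    rw [integral_const, smul_eq_mul]
  have hint : HasSum (fun x => ∫ z, T x z ∂μ)
      (∫ z, ((1 - ‖z‖ ^ 2) ^ g : ℝ) * (P z * conj (Q z)) ∂μ) := by
    have h := hasSum_integral_of_summable_integral_norm hTi hsum
    suffices heq : ∫ z, ((1 - ‖z‖ ^ 2) ^ g : ℝ) * (P z * conj (Q z)) ∂μ = ∫ z, ∑' x, T x z ∂μ by
      rw [heq]; exact h
    refine integral_congr_ae ((ae_restrict_mem measurableSet_ball).mono fun z hz => ?_)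
    exact (hasSum_double hP hQ (ball_subset_ball hR.le hz) _).tsum_eq.symm
  have hterm : ∀ x : ℕ × ℕ, ∫ z, T x z ∂μ =
      if x.1 = x.2 then (π : ℂ) * (coef P x.1 * conj (coef Q x.2) * (nu g x.1 : ℂ)) else 0 := by
    intro x
    simp only [T, hμ, integral_const_mul, integral_pow_conj_pow hg]
    split_ifs <;> ring
  simp only [hterm] at hint
  have hdiag : HasSum (fun m => (π : ℂ) * (coef P m * conj (coef Q m) * (nu g m : ℂ)))
      (∫ z, ((1 - ‖z‖ ^ 2) ^ g : ℝ) * (P z * conj (Q z)) ∂μ) := by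
    have hinj : Function.Injective fun m : ℕ => (m, m) := fun a b h => (Prod.ext_iff.1 h).1
    refine ((hinj.hasSum_iff fun x hx => ?_).2 hint).congr_fun fun m => ?_
    · exact if_neg fun h => hx ⟨x.1, Prod.ext rfl h⟩
    · simp
  have hs := hdiag.summable.mul_left (π : ℂ)⁻¹
  have hpi : (π : ℂ) ≠ 0 := ofReal_ne_zero.2 Real.pi_ne_zero
  simp only [← mul_assoc, inv_mul_cancel₀ hpi, one_mul] at hs
  exact ⟨hs, (hdiag.tsum_eq.symm.trans tsum_mul_left)⟩

end

end Vale.Agent.P142.Sharp
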