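import Mathlib
import Vale.Agent.P142.Sharp.Radial

/-!
Sums of powers against the reciprocals of the radial moments: closed form and limits.
-/

namespace Vale.Agent.P142.Sharp

open Filter Topology Finset

noncomputable section

variable {g : ℝ}

/-- Sums of falling factorials against reciprocal radial moments, in closed form. -/
lemma sum_descFactorial_div_nu (hg : 0 ≤ g) (j n : ℕ) :
    ∑ p ∈ Finset.range n, (p.descFactorial j : ℝ) / nu g p =
      (n.descFactorial (j + 1) : ℝ) / ((g + 2 + j) * nu g n) := by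
  induction n with
  | zero => simp
  | succ n ih =>
    have hn := (nu_bounds hg n).1.ne'
    have hd : (0 : ℝ) < g + 2 + j := by positivity
    have hdf : (n.descFactorial (j + 1) : ℝ) = ((n : ℝ) - j) * (n.descFactorial j : ℝ) := by
      rw [Nat.descFactorial_succ, Nat.cast_mul]
      rcases le_or_gt j n with h | h
      · rw [Nat.cast_sub h]
      · rw [Nat.descFactorial_eq_zero_iff_lt.2 h]; simp
    rw [Finset.sum_range_succ, ih, nu_succ hg n, Nat.succ_descFactorial_succ, Nat.cast_mul, hdf]
    push_cast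
    field_simp
    ring

/-- Neighbouring indices have asymptotically equal moments. -/
lemma tendsto_nu_shift (hg : 0 ≤ g) (c : ℕ) :
    Tendsto (fun N : ℕ => nu g (N + c) / nu g N) atTop (𝓝 1) := by
  induction c with
  | zero => exact tendsto_const_nhds.congr fun N => (div_self (nu_bounds hg _).1.ne').symm
  | succ c ih =>
    have h1 : Tendsto (fun N : ℕ => (((N + c : ℕ) : ℝ) + g + 2)) atTop atTop :=
      tendsto_atTop_add_const_right _ 2 (tendsto_atTop_add_const_right _ g
        (tendsto_natCast_atTop_atTop.comp (tendsto_add_atTop_nat c)))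
    have h2 : Tendsto (fun N : ℕ => 1 - (g + 1) / (((N + c : ℕ) : ℝ) + g + 2)) atTop (𝓝 1) := by
      simpa using tendsto_const_nhds.sub (h1.const_div_atTop (g + 1))
    have h3 := h2.mul ih
    rw [one_mul] at h3
    refine h3.congr fun N => ?_
    rw [← add_assoc N c 1, nu_succ hg (N + c)]
    have : (0 : ℝ) < ((N + c : ℕ) : ℝ) + g + 2 := by positivity
    rw [one_sub_div this.ne', mul_comm, mul_div_assoc]
    ring

lemma tendsto_natCast_add_div (c : ℝ) :
    Tendsto (fun N : ℕ => ((N : ℝ) + c) / N) atTop (𝓝 1) := by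
  have h : Tendsto (fun N : ℕ => (1 : ℝ) + c * (1 / (N : ℝ))) atTop (𝓝 1) := by
    simpa using tendsto_const_nhds.add (tendsto_one_div_atTop_nhds_zero_nat.const_mul c)
  refine h.congr' ?_
  filter_upwards [eventually_gt_atTop 0] with N hN
  field_simp

/-- Raising the exponent by an integer. -/
lemma tendsto_nu_raise (hg : 0 ≤ g) (a : ℕ) :
    Tendsto (fun N : ℕ => nu (g + a) N * (N : ℝ) ^ a / nu g N) atTop
      (𝓝 (∏ i ∈ Finset.range a, (g + 1 + i))) := by
  induction a with
  | zero => simpa using tendsto_const_nhds.congr fun N => (div_self (nu_bounds hg N).1.ne').symm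
  | succ a ih =>
    have hga : 0 ≤ g + a := by positivity
    have h1 : Tendsto (fun N : ℕ => (g + 1 + a) * (((N : ℝ) + (g + a + 2)) / N)⁻¹) atTop
        (𝓝 (g + 1 + a)) := by
      simpa using ((tendsto_natCast_add_div (g + a + 2)).inv₀ one_ne_zero).const_mul (g + 1 + a)
    rw [Finset.prod_range_succ]
    refine (ih.mul h1).congr' ?_
    filter_upwards [eventually_gt_atTop 0] with N hN
    have h2 := (nu_bounds hg N).1.ne'
    have h3 : (0 : ℝ) < (N : ℝ) + g + a + 2 := by positivity
    rw [show g + ((a + 1 : ℕ) : ℝ) = g + a + 1 by push_cast; ring, nu_succ_exponent hga N]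
    field_simp
    ring

lemma sub_descFactorial_bounds (j p : ℕ) :
    (p.descFactorial j : ℝ) ≤ (p : ℝ) ^ j ∧
      (p : ℝ) ^ (j + 1) - p.descFactorial (j + 1) ≤ ((j : ℝ) + 1) ^ 2 * (p : ℝ) ^ j := by
  have hle : ∀ k : ℕ, (p.descFactorial k : ℝ) ≤ (p : ℝ) ^ k := fun k => by
    exact_mod_cast p.descFactorial_le_pow k
  refine ⟨hle j, ?_⟩
  induction j with
  | zero => simp
  | succ j ih =>
    have hd : ((p : ℝ) - (j + 1)) * (p.descFactorial (j + 1) : ℝ) ≤ p.descFactorial (j + 1 + 1) := by
      rw [Nat.descFactorial_succ p (j + 1), Nat.cast_mul]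
      refine mul_le_mul_of_nonneg_right ?_ (Nat.cast_nonneg _)
      have : p ≤ (p - (j + 1)) + (j + 1) := le_tsub_add
      have : (p : ℝ) ≤ ((p - (j + 1) : ℕ) : ℝ) + ((j + 1 : ℕ) : ℝ) := by exact_mod_cast this
      push_cast at this
      linarith
    have h1 := mul_le_mul_of_nonneg_left ih (Nat.cast_nonneg p : (0 : ℝ) ≤ p)
    have h2 := mul_le_mul_of_nonneg_left (hle (j + 1)) (by positivity : (0 : ℝ) ≤ (j : ℝ) + 1)
    have e : (p : ℝ) * (p : ℝ) ^ j = (p : ℝ) ^ (j + 1) := (pow_succ' _ _).symm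
    have h4 : 0 ≤ ((j : ℝ) + 2) * (p : ℝ) ^ (j + 1) := by positivity
    rw [pow_succ' (p : ℝ) (j + 1)]
    push_cast
    nlinarith [hd, h1, h2, h4, e]

lemma tendsto_descFactorial_div_pow (k : ℕ) :
    Tendsto (fun n : ℕ => (n.descFactorial k : ℝ) / (n : ℝ) ^ k) atTop (𝓝 1) := by
  cases k with
  | zero => simp
  | succ k =>
    have hlo : Tendsto (fun n : ℕ => 1 - ((k : ℝ) + 1) ^ 2 * (1 / (n : ℝ))) atTop (𝓝 1) := by
      have h := (tendsto_const_nhds (x := (1 : ℝ)) (f := atTop (α := ℕ))).sub
        (tendsto_one_div_atTop_nhds_zero_nat.const_mul (((k : ℝ) + 1) ^ 2))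
      rw [mul_zero, sub_zero] at h
      exact h
    refine tendsto_of_tendsto_of_tendsto_of_le_of_le' hlo tendsto_const_nhds ?_ ?_
    · filter_upwards [eventually_gt_atTop 0] with n hn
      have hp : (0 : ℝ) < (n : ℝ) ^ (k + 1) := by positivity
      rw [le_div_iff₀ hp]
      have h := (sub_descFactorial_bounds k n).2
      have e : (1 - ((k : ℝ) + 1) ^ 2 * (1 / (n : ℝ))) * (n : ℝ) ^ (k + 1) =
          (n : ℝ) ^ (k + 1) - ((k : ℝ) + 1) ^ 2 * (n : ℝ) ^ k := by
        field_simp
        ring
      linarith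
    · filter_upwards [eventually_gt_atTop 0] with n hn
      rw [div_le_one (by positivity)]
      exact (sub_descFactorial_bounds (k + 1) n).1

lemma tendsto_moment_desc (hg : 0 ≤ g) (j : ℕ) :
    Tendsto (fun N : ℕ => (∑ p ∈ Finset.range (N + 1), (p.descFactorial j : ℝ) / nu g p) *
      nu g N / (N : ℝ) ^ (j + 1)) atTop (𝓝 (1 / (g + 2 + j))) := by
  have h1 := (tendsto_descFactorial_div_pow (j + 1)).comp (tendsto_add_atTop_nat 1)
  have h2 := (tendsto_natCast_add_div 1).pow (j + 1)
  have h3 := (tendsto_nu_shift hg 1).inv₀ one_ne_zero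
  have h := ((h1.mul h2).mul h3).const_mul (1 / (g + 2 + j))
  simp only [one_pow, inv_one, mul_one] at h
  refine h.congr' ?_
  filter_upwards [eventually_gt_atTop 0] with N hN
  have ha := (nu_bounds hg N).1.ne'
  have hb := (nu_bounds hg (N + 1)).1.ne'
  have hc : (g + 2 + j : ℝ) ≠ 0 := by positivity
  simp only [Function.comp_apply, sum_descFactorial_div_nu hg, div_pow, inv_div]
  push_cast
  field_simp

/-- Moments of `p / N` against the reciprocal radial moments. -/
theorem tendsto_moment (hg : 0 ≤ g) (j : ℕ) :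
    Tendsto (fun N : ℕ => (∑ p ∈ Finset.range (N + 1), ((p : ℝ) / N) ^ j * (nu g N / nu g p)) / N)
      atTop (𝓝 (1 / (g + 2 + j))) := by
  have key : ∀ j : ℕ, Tendsto (fun N : ℕ => (∑ p ∈ Finset.range (N + 1), (p : ℝ) ^ j / nu g p) *
      nu g N / (N : ℝ) ^ (j + 1)) atTop (𝓝 (1 / (g + 2 + j))) := by
    intro j
    induction j with
    | zero => simpa using tendsto_moment_desc hg 0
    | succ j ih =>
      have hz : Tendsto (fun N : ℕ => ((j : ℝ) + 1) ^ 2 *
          ((∑ p ∈ Finset.range (N + 1), (p : ℝ) ^ j / nu g p) * nu g N / (N : ℝ) ^ (j + 1)) *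
            (1 / (N : ℝ))) atTop (𝓝 0) := by
        simpa using (ih.const_mul (((j : ℝ) + 1) ^ 2)).mul tendsto_one_div_atTop_nhds_zero_nat
      have hup := (tendsto_moment_desc hg (j + 1)).add hz
      rw [add_zero] at hup
      refine tendsto_of_tendsto_of_tendsto_of_le_of_le (tendsto_moment_desc hg (j + 1)) hup
        (fun N => ?_) fun N => ?_
      · refine div_le_div_of_nonneg_right (mul_le_mul_of_nonneg_right (Finset.sum_le_sum fun p _ =>
          div_le_div_of_nonneg_right (sub_descFactorial_bounds (j + 1) p).1 (nu_bounds hg p).1.le)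
            (nu_bounds hg N).1.le) (by positivity)
      · have e : ∀ S : ℝ, ((j : ℝ) + 1) ^ 2 * (S * nu g N / (N : ℝ) ^ (j + 1)) * (1 / (N : ℝ)) =
            (((j : ℝ) + 1) ^ 2 * S) * nu g N / (N : ℝ) ^ (j + 1 + 1) := fun S => by
          rw [pow_succ _ (j + 1)]; ring
        rw [e, ← add_div, ← add_mul, Finset.mul_sum, ← Finset.sum_add_distrib]
        refine div_le_div_of_nonneg_right (mul_le_mul_of_nonneg_right (Finset.sum_le_sum fun p _ => ?_)
          (nu_bounds hg N).1.le) (by positivity)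
        rw [mul_div_assoc', ← add_div]
        refine div_le_div_of_nonneg_right ?_ (nu_bounds hg p).1.le
        linarith [(sub_descFactorial_bounds j p).2]
  refine (key j).congr fun N => ?_
  rw [Finset.sum_mul, Finset.sum_div, Finset.sum_div]
  refine Finset.sum_congr rfl fun p _ => ?_
  rw [div_pow, pow_succ]
  ring

/-- The same moments against `(q + 1) / nu g p`, with `p + q = N`. -/
theorem tendsto_moment_tail (hg : 0 ≤ g) (j : ℕ) :
    Tendsto (fun N : ℕ => (∑ p ∈ Finset.range (N + 1),
        ((p : ℝ) / N) ^ j * ((((N - p : ℕ) : ℝ) + 1) / N) * (nu g N / nu g p)) / N)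
      atTop (𝓝 (1 / (g + 2 + j) - 1 / (g + 3 + j))) := by
  have h := (((tendsto_natCast_add_div 1).mul (tendsto_moment hg j))).sub (tendsto_moment hg (j + 1))
  rw [one_mul] at h
  push_cast at h
  rw [show g + 2 + ((j : ℝ) + 1) = g + 3 + j by ring] at h
  refine h.congr' ?_
  filter_upwards [eventually_gt_atTop 0] with N hN
  rw [mul_div_assoc', Finset.mul_sum, ← sub_div, ← Finset.sum_sub_distrib]
  congr 1
  refine Finset.sum_congr rfl fun p hp => ?_
  rw [Nat.cast_sub (by have := Finset.mem_range.1 hp; omega), div_pow, div_pow, pow_succ, pow_succ]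
  field_simp
  ring

end

end Vale.Agent.P142.Sharp
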