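import Mathlib
import Vale.Agent.P142.Main
import Vale.Agent.P142.Sharp.AreaAll
import Vale.Agent.P142.Sharp.Radial

/-!
From a bound for the Taylor coefficients of `1 / f'` to the integral means and the integrability
exponents, for a general exponent.
-/

namespace Vale.Agent.P142.Sharp.Endgame

open Complex Metric Set Filter Topology MeasureTheory ComplexConjugate
open scoped Real ENNReal
open Vale.Agent.P142.Main (continuousOn_inv_deriv norm_rpow_neg_two lintegral_le_of_forall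
  lintegral_dist_rpow circle_mean_mono)

noncomputable section

/-- Bound for the weighted sums of the coefficients of `1 / f'`, uniform in the dilations. -/
def CoefBound (e : ℝ) : Prop :=
  ∀ f : ℂ → ℂ, DifferentiableOn ℂ f (ball 0 1) → InjOn f (ball 0 1) →
    ∃ C : ℝ, ∀ σ : ℝ, 1 / 2 ≤ σ → σ < 1 → ∀ N : ℕ,
      ∑ m ∈ Finset.range N, ‖coef (Hfun (fun w => f ((σ : ℂ) * w)) 0) m‖ ^ 2 * nu e m ≤ C

/-- The dilation of a univalent map of the unit disc. -/
lemma dilate {f : ℂ → ℂ} (hf : DifferentiableOn ℂ f (ball 0 1)) (hinj : InjOn f (ball 0 1))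
    {σ : ℝ} (h0 : 0 < σ) (h1 : σ < 1) :
    1 < σ⁻¹ ∧ DifferentiableOn ℂ (fun w => f ((σ : ℂ) * w)) (ball 0 σ⁻¹) ∧
      InjOn (fun w => f ((σ : ℂ) * w)) (ball 0 σ⁻¹) ∧
      ∀ w ∈ ball (0 : ℂ) σ⁻¹, (σ : ℂ) * w ∈ ball (0 : ℂ) 1 ∧
        deriv (fun w => f ((σ : ℂ) * w)) w = (σ : ℂ) * deriv f ((σ : ℂ) * w) := by
  have hm : ∀ w ∈ ball (0 : ℂ) σ⁻¹, (σ : ℂ) * w ∈ ball (0 : ℂ) 1 := by
    intro w hw
    rw [mem_ball_zero_iff] at hw ⊢
    rw [norm_mul, Complex.norm_real, Real.norm_of_nonneg h0.le]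
    calc σ * ‖w‖ < σ * σ⁻¹ := mul_lt_mul_of_pos_left hw h0
      _ = 1 := mul_inv_cancel₀ h0.ne'
  refine ⟨(one_lt_inv₀ h0).2 h1, ?_, ?_, fun w hw => ⟨hm w hw, ?_⟩⟩
  · exact hf.comp (by fun_prop) hm
  · intro a ha b hb h
    exact mul_left_cancel₀ (by exact_mod_cast h0.ne') (hinj (hm a ha) (hm b hb) h)
  · refine (((hf.differentiableAt (isOpen_ball.mem_nhds (hm w hw))).hasDerivAt).comp w
      ((hasDerivAt_id' w).const_mul (σ : ℂ))).deriv.trans ?_
    ring

/-- Scaling of integrals over discs. -/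
lemma setIntegral_ball_scale {σ : ℝ} (h0 : 0 < σ) (G : ℂ → ℝ) :
    ∫ z in ball (0 : ℂ) σ, G z = σ ^ 2 * ∫ w in ball (0 : ℂ) 1, G ((σ : ℂ) * w) := by
  have himg : (fun w : ℂ => (σ : ℂ) * w) '' ball 0 1 = ball 0 σ := by
    ext z
    simp only [mem_image, mem_ball_zero_iff]
    constructor
    · rintro ⟨w, hw, rfl⟩
      rw [norm_mul, Complex.norm_real, Real.norm_of_nonneg h0.le]
      exact mul_lt_of_lt_one_right h0 hw
    · intro hz
      refine ⟨z / σ, ?_, mul_div_cancel₀ _ (by exact_mod_cast h0.ne')⟩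
      rw [norm_div, Complex.norm_real, Real.norm_of_nonneg h0.le, div_lt_one h0]
      exact hz
  rw [← himg, integral_image_eq_integral_abs_det_fderiv_smul volume measurableSet_ball
    (f' := fun _ => (ContinuousLinearMap.toSpanSingleton ℂ (σ : ℂ)).restrictScalars ℝ)
    (fun w _ => ((((hasDerivAt_id' w).const_mul (σ : ℂ)).congr_deriv (mul_one _)).hasFDerivAt.restrictScalars ℝ
      ).hasFDerivWithinAt)
    (fun a _ b _ h => mul_left_cancel₀ (by exact_mod_cast h0.ne') h) G]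
  rw [← integral_const_mul]
  refine integral_congr_ae (Eventually.of_forall fun w => ?_)
  simp only [Area.abs_det_mul, smul_eq_mul, Complex.norm_real, Real.norm_eq_abs, sq_abs]

variable {f : ℂ → ℂ} {e : ℝ}

lemma continuousOn_weight (he0 : 0 ≤ e)
    (hf : DifferentiableOn ℂ f (ball 0 1)) (hinj : InjOn f (ball 0 1))
    {s : Set ℂ} (hs : s ⊆ ball 0 1) :
    ContinuousOn (fun z => (1 - ‖z‖ ^ 2) ^ e * ‖(deriv f z)⁻¹‖ ^ 2) s := by
  refine ContinuousOn.mul ?_ (((continuousOn_inv_deriv hf hinj).mono hs).norm.pow 2)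
  exact (Continuous.rpow_const (by fun_prop) fun _ => Or.inr he0).continuousOn

/-- The weighted integral over the discs inside the unit disc is bounded. -/
lemma weight_bound (he0 : 0 ≤ e) (he1 : e ≤ 1) (hc : CoefBound e)
    (hf : DifferentiableOn ℂ f (ball 0 1)) (hinj : InjOn f (ball 0 1)) :
    ∃ C : ℝ, 0 ≤ C ∧ ∀ ρ : ℝ, 1 / 2 ≤ ρ → ρ < 1 →
      IntegrableOn (fun z => (1 - ‖z‖ ^ 2) ^ e * ‖(deriv f z)⁻¹‖ ^ 2) (ball 0 ρ) ∧
      ∫ z in ball (0 : ℂ) ρ, (1 - ‖z‖ ^ 2) ^ e * ‖(deriv f z)⁻¹‖ ^ 2 ≤ C := by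
  obtain ⟨C₀, hC₀⟩ := hc f hf hinj
  refine ⟨2 * (π * max C₀ 0), by positivity, fun ρ hρ2 hρ1 => ?_⟩
  have hint : IntegrableOn (fun z => (1 - ‖z‖ ^ 2) ^ e * ‖(deriv f z)⁻¹‖ ^ 2) (ball (0 : ℂ) ρ) :=
    ((continuousOn_weight he0 hf hinj (closedBall_subset_ball hρ1)).integrableOn_compact
      (isCompact_closedBall _ _)).mono_set ball_subset_closedBall
  refine ⟨hint, ?_⟩
  set σ := Real.sqrt ((1 + ρ ^ 2) / 2) with hσ
  have hσsq : σ ^ 2 = (1 + ρ ^ 2) / 2 := Real.sq_sqrt (by positivity)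
  have hρlt : ρ ^ 2 < 1 := by nlinarith
  have hσ1 : σ < 1 := by rw [hσ, Real.sqrt_lt' one_pos]; linarith
  have hρσ : ρ ≤ σ := Real.le_sqrt_of_sq_le (by linarith)
  have hσ0 : 0 < σ := by linarith
  obtain ⟨hR, hgd, hginj, hmap⟩ := dilate hf hinj hσ0 hσ1
  set g : ℂ → ℂ := fun w => f ((σ : ℂ) * w) with hg
  have hHd : DifferentiableOn ℂ (Hfun g 0) (ball 0 σ⁻¹) := by
    have h := ((hgd.analyticOnNhd isOpen_ball).deriv.differentiableOn).fun_inv fun w hw =>
      Area.deriv_ne_zero_of_injOn isOpen_ball hgd hginj hw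
    exact h.congr fun w _ => by simp [Hfun]
  obtain ⟨hsum, hval⟩ := expansion (Hfun g 0) (Hfun g 0) σ⁻¹ e hR he0 hHd hHd
  have hnu : ∀ m, 0 ≤ ‖coef (Hfun g 0) m‖ ^ 2 * nu e m := fun m =>
    mul_nonneg (sq_nonneg _) ((nu_facts e he0).1 m).1.le
  have hterm : ∀ m, coef (Hfun g 0) m * (starRingEnd ℂ) (coef (Hfun g 0) m) * (nu e m : ℂ) =
      ((‖coef (Hfun g 0) m‖ ^ 2 * nu e m : ℝ) : ℂ) := fun m => by
    rw [Complex.mul_conj']; push_cast; ring
  simp only [← Complex.ofReal_tsum, ← Complex.ofReal_mul, Complex.mul_conj',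
    ← Complex.ofReal_pow, integral_complex_ofReal, Complex.ofReal_inj] at hval
  have hle : ∫ w in ball (0 : ℂ) 1, (1 - ‖w‖ ^ 2) ^ e * ‖Hfun g 0 w‖ ^ 2 ≤ π * max C₀ 0 := by
    rw [hval]
    refine mul_le_mul_of_nonneg_left ?_ Real.pi_pos.le
    exact Real.tsum_le_of_sum_range_le hnu fun N =>
      (hC₀ σ (le_trans hρ2 hρσ) hσ1 N).trans (le_max_left _ _)
  have hscale := setIntegral_ball_scale hσ0
    ((ball (0 : ℂ) ρ).indicator fun z => (1 - ‖z‖ ^ 2) ^ e * ‖(deriv f z)⁻¹‖ ^ 2)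
  rw [setIntegral_indicator measurableSet_ball,
    inter_eq_self_of_subset_right (ball_subset_ball hρσ)] at hscale
  rw [hscale]
  have hpt : ∀ w ∈ ball (0 : ℂ) 1,
      σ ^ 2 * (ball (0 : ℂ) ρ).indicator (fun z => (1 - ‖z‖ ^ 2) ^ e * ‖(deriv f z)⁻¹‖ ^ 2)
          ((σ : ℂ) * w) ≤ 2 * ((1 - ‖w‖ ^ 2) ^ e * ‖Hfun g 0 w‖ ^ 2) := by
    intro w hw
    have hwR : w ∈ ball (0 : ℂ) σ⁻¹ := ball_subset_ball hR.le hw
    rw [mem_ball_zero_iff] at hw
    have hw2 : 0 ≤ 1 - ‖w‖ ^ 2 := by nlinarith [norm_nonneg w]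
    have hnn : 0 ≤ 2 * ((1 - ‖w‖ ^ 2) ^ e * ‖Hfun g 0 w‖ ^ 2) :=
      mul_nonneg two_pos.le (mul_nonneg (Real.rpow_nonneg hw2 _) (sq_nonneg _))
    by_cases hm : (σ : ℂ) * w ∈ ball (0 : ℂ) ρ
    · rw [indicator_of_mem hm]
      rw [mem_ball_zero_iff, norm_mul, Complex.norm_real, Real.norm_of_nonneg hσ0.le] at hm
      have hz : ‖(σ : ℂ) * w‖ = σ * ‖w‖ := by
        rw [norm_mul, Complex.norm_real, Real.norm_of_nonneg hσ0.le]
      have hm2 : (σ * ‖w‖) ^ 2 ≤ ρ ^ 2 := pow_le_pow_left₀ (by positivity) hm.le 2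
      have hX : 1 - (σ * ‖w‖) ^ 2 ≤ 2 * (1 - ‖w‖ ^ 2) := by nlinarith
      have hH : ‖Hfun g 0 w‖ ^ 2 * σ ^ 2 = ‖(deriv f ((σ : ℂ) * w))⁻¹‖ ^ 2 := by
        have e0 : Hfun g 0 w = (deriv g w)⁻¹ := by simp [Hfun]
        rw [e0, hg, (hmap w hwR).2, mul_inv, norm_mul, mul_pow, norm_inv (σ : ℂ), Complex.norm_real,
          Real.norm_of_nonneg hσ0.le]
        field_simp
      have hE : (1 - (σ * ‖w‖) ^ 2) ^ e ≤ 2 * (1 - ‖w‖ ^ 2) ^ e := by
        refine (Real.rpow_le_rpow (by nlinarith) hX he0).trans ?_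
        rw [Real.mul_rpow two_pos.le hw2]
        refine mul_le_mul_of_nonneg_right ?_ (Real.rpow_nonneg hw2 _)
        exact (Real.rpow_le_rpow_of_exponent_le one_le_two he1).trans (Real.rpow_one 2).le
      rw [hz, ← hH]
      calc σ ^ 2 * ((1 - (σ * ‖w‖) ^ 2) ^ e * (‖Hfun g 0 w‖ ^ 2 * σ ^ 2))
          ≤ 1 * (2 * (1 - ‖w‖ ^ 2) ^ e * (‖Hfun g 0 w‖ ^ 2 * 1)) := by
            gcongr
            · exact mul_nonneg (Real.rpow_nonneg (by nlinarith) _) (by positivity)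
            · exact pow_le_one₀ hσ0.le hσ1.le
            · exact pow_le_one₀ hσ0.le hσ1.le
        _ = _ := by ring
    · rw [indicator_of_notMem hm, mul_zero]; exact hnn
  have hHc : ContinuousOn (fun w => 2 * ((1 - ‖w‖ ^ 2) ^ e * ‖Hfun g 0 w‖ ^ 2)) (closedBall 0 1) :=
    continuousOn_const.mul ((Continuous.rpow_const (by fun_prop) fun _ => Or.inr he0).continuousOn.mul
      ((hHd.continuousOn.mono (closedBall_subset_ball hR)).norm.pow 2))
  rw [← integral_const_mul]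
  refine (integral_mono_of_nonneg ?_ ((hHc.integrableOn_compact
    (isCompact_closedBall _ _)).mono_set ball_subset_closedBall) ?_).trans ?_
  · refine (ae_restrict_mem measurableSet_ball).mono fun w _ => mul_nonneg (sq_nonneg σ) ?_
    refine indicator_nonneg (fun z hz => ?_) _
    rw [mem_ball_zero_iff] at hz
    exact mul_nonneg (Real.rpow_nonneg (by nlinarith [norm_nonneg z]) _) (sq_nonneg _)
  · exact (ae_restrict_mem measurableSet_ball).mono hpt
  · rw [integral_const_mul]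
    exact mul_le_mul_of_nonneg_left hle two_pos.le

/-- The main integral bound. -/
theorem lintegral_weighted (he0 : 0 ≤ e) (he1 : e ≤ 1) (hc : CoefBound e)
    (hf : DifferentiableOn ℂ f (ball 0 1)) (hinj : InjOn f (ball 0 1)) :
    ∫⁻ z in ball (0 : ℂ) 1,
      ENNReal.ofReal (‖deriv f z‖ ^ (-2 : ℝ) * (1 - ‖z‖ ^ 2) ^ e) < ⊤ := by
  obtain ⟨C, -, hC⟩ := weight_bound he0 he1 hc hf hinj
  refine lt_of_le_of_lt (le_trans (le_of_eq ?_) (lintegral_le_of_forall (fun z hz => ?_) hC))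
    ENNReal.ofReal_lt_top
  · simp only [norm_rpow_neg_two]
    simp only [mul_comm]
  · rw [mem_ball_zero_iff] at hz
    exact mul_nonneg (Real.rpow_nonneg (by nlinarith [norm_nonneg z]) _) (sq_nonneg _)

/-- All exponents down to `-200/109`. -/
theorem lintegral_rpow (he0 : 0 ≤ e) (he1 : e ≤ 1) (hc : CoefBound e)
    (hf : DifferentiableOn ℂ f (ball 0 1)) (hinj : InjOn f (ball 0 1))
    {t : ℝ} (ht : -2 / (1 + e) < t) (ht0 : t ≤ 0) :
    ∫⁻ z in ball (0 : ℂ) 1, ENNReal.ofReal (‖deriv f z‖ ^ t) < ⊤ := by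
  set p := -t with hp
  have hp0 : 0 ≤ p := by linarith
  have hp2 : p < 2 / (1 + e) := by rw [hp]; rw [neg_div] at ht; linarith
  have hp2' : p * (1 + e) < 2 := (lt_div_iff₀ (by linarith)).1 hp2
  have h2p : 0 < 2 - p := by nlinarith [mul_nonneg hp0 he0]
  set q := e * p / (2 - p) with hq
  have hq0 : 0 ≤ q := by rw [hq]; positivity
  have hq1 : q < 1 := by rw [hq, div_lt_one h2p]; linarith
  have hpt : ∀ z ∈ ball (0 : ℂ) 1, ENNReal.ofReal (‖deriv f z‖ ^ t) ≤
      ENNReal.ofReal (‖deriv f z‖ ^ (-2 : ℝ) * (1 - ‖z‖ ^ 2) ^ e) +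
        ENNReal.ofReal ((1 - ‖z‖ ^ 2) ^ (-q)) := by
    intro z hz
    have hd : 0 < ‖deriv f z‖ := norm_pos_iff.2 (Area.deriv_ne_zero_of_injOn isOpen_ball hf hinj hz)
    rw [mem_ball_zero_iff] at hz
    have hx : 0 < 1 - ‖z‖ ^ 2 := by nlinarith [norm_nonneg z]
    rw [← ENNReal.ofReal_add (by positivity) (by positivity)]
    refine ENNReal.ofReal_le_ofReal ?_
    set A := ‖deriv f z‖ ^ (-2 : ℝ) * (1 - ‖z‖ ^ 2) ^ e with hA
    set B := (1 - ‖z‖ ^ 2) ^ (-q) with hB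
    have hA0 : 0 ≤ A := by positivity
    have hB0 : 0 ≤ B := by positivity
    have h := Real.geom_mean_le_arith_mean2_weighted (w₁ := p / 2) (w₂ := 1 - p / 2) (p₁ := A) (p₂ := B)
      (by linarith) (by linarith) hA0 hB0 (by ring)
    have he : A ^ (p / 2) * B ^ (1 - p / 2) = ‖deriv f z‖ ^ t := by
      rw [hA, hB, Real.mul_rpow (by positivity) (by positivity), ← Real.rpow_mul hd.le,
        ← Real.rpow_mul hx.le, ← Real.rpow_mul hx.le, mul_assoc, ← Real.rpow_add hx]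
      rw [show e * (p / 2) + -q * (1 - p / 2) = 0 by rw [hq]; field_simp; ring,
        Real.rpow_zero, mul_one, show -2 * (p / 2) = t by rw [hp]; ring]
    rw [he] at h
    nlinarith
  refine lt_of_le_of_lt (setLIntegral_mono' measurableSet_ball hpt) ?_
  have hm : AEMeasurable (fun z : ℂ => ENNReal.ofReal ((1 - ‖z‖ ^ 2) ^ (-q)))
      (volume.restrict (ball 0 1)) := by fun_prop
  rw [lintegral_add_right' _ hm]
  exact ENNReal.add_lt_top.2 ⟨lintegral_weighted he0 he1 hc hf hinj, lintegral_dist_rpow hq0 hq1⟩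

/-- The integrals of `|φ'| ^ s` for conformal maps onto the disc. -/
theorem lintegral_image (he0 : 0 ≤ e) (he1 : e ≤ 1) (hc : CoefBound e) {W : Set ℂ} {φ : ℂ → ℂ} (hW : IsOpen W) (hφ : DifferentiableOn ℂ φ W)
    (hbij : BijOn φ W (ball 0 1)) {s : ℝ} (hs : 2 ≤ s) (hs' : s < 2 + 2 / (1 + e)) :
    ∫⁻ w in W, ENNReal.ofReal (‖deriv φ w‖ ^ s) < ⊤ := by
  set f := Function.invFunOn φ W with hf
  have hfW : ∀ z ∈ ball (0 : ℂ) 1, f z ∈ W ∧ φ (f z) = z := fun z hz => by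
    obtain ⟨w, hw, hwz⟩ := hbij.surjOn hz
    exact ⟨Function.invFunOn_mem ⟨w, hw, hwz⟩, Function.invFunOn_eq ⟨w, hw, hwz⟩⟩
  have hleft : ∀ w ∈ W, f (φ w) = w := fun w hw => hbij.injOn.leftInvOn_invFunOn hw
  have hne : ∀ w ∈ W, deriv φ w ≠ 0 := fun w hw =>
    Area.deriv_ne_zero_of_injOn hW hφ hbij.injOn hw
  have hder : ∀ z ∈ ball (0 : ℂ) 1, HasDerivAt f (deriv φ (f z))⁻¹ z := by
    intro z hz
    obtain ⟨hw, hwz⟩ := hfW z hz
    have hstr : HasStrictDerivAt φ (deriv φ (f z)) (f z) :=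
      (hφ.analyticAt (hW.mem_nhds hw)).hasStrictDerivAt
    have hcont : ContinuousAt f z := by
      intro U hU
      rw [Filter.mem_map]
      have h1 : φ '' (U ∩ W) ∈ 𝓝 z := by
        rw [← hwz, ← hstr.map_nhds_eq (hne _ hw)]
        exact image_mem_map (inter_mem hU (hW.mem_nhds hw))
      refine mem_of_superset h1 ?_
      rintro _ ⟨w, ⟨hwU, hwW⟩, rfl⟩
      show f (φ w) ∈ U
      rw [hleft w hwW]
      exact hwU
    refine HasDerivAt.of_local_left_inverse hcont hstr.hasDerivAt (hne _ hw) ?_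
    filter_upwards [isOpen_ball.mem_nhds hz] with y hy
    exact (hfW y hy).2
  have hfd : DifferentiableOn ℂ f (ball 0 1) := fun z hz =>
    (hder z hz).differentiableAt.differentiableWithinAt
  have hfinj : InjOn f (ball 0 1) := fun a ha b hb h => by
    rw [← (hfW a ha).2, ← (hfW b hb).2, h]
  have himg : f '' ball 0 1 = W := by
    refine Subset.antisymm (image_subset_iff.2 fun z hz => (hfW z hz).1) fun w hw => ?_
    exact ⟨φ w, hbij.mapsTo hw, hleft w hw⟩
  rw [← himg, lintegral_image_eq_lintegral_abs_det_fderiv_mul volume measurableSet_ball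
    (f' := fun z => (ContinuousLinearMap.toSpanSingleton ℂ (deriv f z)).restrictScalars ℝ)
    (fun z hz => (((hder z hz).differentiableAt.hasDerivAt.hasFDerivAt).restrictScalars ℝ).hasFDerivWithinAt)
    hfinj]
  refine lt_of_eq_of_lt (setLIntegral_congr_fun measurableSet_ball fun z hz => ?_)
    (lintegral_rpow he0 he1 hc hfd hfinj (t := 2 - s) (by rw [neg_div]; linarith) (by linarith))
  rw [Area.abs_det_mul, ← ENNReal.ofReal_mul (sq_nonneg _)]
  congr 1
  have hd : deriv f z = (deriv φ (f z))⁻¹ := (hder z hz).deriv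
  have hpos : 0 < ‖deriv f z‖ :=
    norm_pos_iff.2 (Area.deriv_ne_zero_of_injOn isOpen_ball hfd hfinj hz)
  rw [show deriv φ (f z) = (deriv f z)⁻¹ by rw [hd, inv_inv], norm_inv, Real.inv_rpow hpos.le,
    Real.rpow_sub hpos, ← Real.rpow_natCast, Nat.cast_ofNat, div_eq_mul_inv]

/-- The circular mean of `|f'| ^ (-2)`. -/
theorem mean_bound (he0 : 0 ≤ e) (he1 : e ≤ 1) (hc : CoefBound e)
    (hf : DifferentiableOn ℂ f (ball 0 1)) (hinj : InjOn f (ball 0 1)) :
    ∃ C : ℝ, ∀ r : ℝ, 0 ≤ r → r < 1 →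
      (2 * π)⁻¹ * ∫ θ in (-π)..π, ‖deriv f (circleMap 0 r θ)‖ ^ (-2 : ℝ) ≤
        C * (1 / (1 - r)) ^ (1 + e) := by
  set g : ℂ → ℂ := fun z => (deriv f z)⁻¹ with hg
  have hgd : DifferentiableOn ℂ g (ball 0 1) :=
    ((hf.analyticOnNhd isOpen_ball).deriv.differentiableOn).fun_inv fun z hz =>
      Area.deriv_ne_zero_of_injOn isOpen_ball hf hinj hz
  simp only [norm_rpow_neg_two]
  obtain ⟨C, hC0, hC⟩ := weight_bound he0 he1 hc hf hinj
  set I : ℝ → ℝ := fun r => ∫ θ in (-π)..π, ‖g (circleMap 0 r θ)‖ ^ 2 with hI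
  have hI0 : ∀ r, 0 ≤ I r := fun r =>
    intervalIntegral.integral_nonneg (by linarith [Real.pi_pos]) fun θ _ => sq_nonneg _
  have hlarge : ∀ r : ℝ, 1 / 2 ≤ r → r < 1 →
      r * I r * ((1 - r) / 2) ^ e * ((1 - r) / 2) ≤ C := by
    intro r hr hr1
    set R := (1 + r) / 2 with hR
    have hR1 : R < 1 := by rw [hR]; linarith
    have hrR : r ≤ R := by rw [hR]; linarith
    set G : ℂ → ℝ := fun z => (1 - ‖z‖ ^ 2) ^ e * ‖(deriv f z)⁻¹‖ ^ 2 with hG
    have hGc : ContinuousOn G (closedBall 0 R) :=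
      continuousOn_weight he0 hf hinj (closedBall_subset_ball hR1)
    have hGnn : ∀ z : ℂ, ‖z‖ ≤ 1 → 0 ≤ G z := fun z hz =>
      mul_nonneg (Real.rpow_nonneg (by nlinarith [norm_nonneg z]) _) (sq_nonneg _)
    have hpol := Area.setIntegral_ball_polar (G := fun z => (G z : ℂ))
      (Complex.continuous_ofReal.comp_continuousOn hGc)
    have hav : ∀ t ∈ Ioc 0 R, ((2 * π * t : ℝ) : ℂ) * Real.circleAverage (fun z => (G z : ℂ)) 0 t =
        ((t * ((1 - t ^ 2) ^ e * I t) : ℝ) : ℂ) := by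
      intro t ht
      rw [Real.circleAverage_def]
      rw [intervalIntegral.integral_ofReal, Complex.real_smul, ← Complex.ofReal_mul,
        ← Complex.ofReal_mul]
      congr 1
      have hper : Function.Periodic (fun θ => G (circleMap 0 t θ)) (2 * π) := fun θ => by
        simp only [periodic_circleMap (0 : ℂ) t θ]
      have := hper.intervalIntegral_add_eq 0 (-π)
      rw [zero_add, show -π + 2 * π = π by ring] at this
      rw [this]
      simp only [hG, Area.norm_circleMap_zero' ht.1.le, intervalIntegral.integral_const_mul, hI, hg]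
      field_simp
    rw [setIntegral_congr_fun measurableSet_Ioc hav, integral_complex_ofReal,
      integral_complex_ofReal, Complex.ofReal_inj] at hpol
    -- continuity of the radial integrand
    set J : ℝ → ℝ := fun t => t * ((1 - t ^ 2) ^ e * I t) with hJ
    have hJc : ContinuousOn J (Icc 0 R) := by
      refine continuousOn_id.mul (ContinuousOn.mul ?_ ?_)
      · exact (Continuous.rpow_const (by fun_prop) fun _ => Or.inr he0).continuousOn
      · simp only [hI]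
        rw [continuousOn_iff_continuous_domRestrict]
        refine intervalIntegral.continuous_parametric_intervalIntegral_of_continuous' ?_ _ _
        have hc2 : Continuous fun p : Icc (0 : ℝ) R × ℝ => circleMap 0 (p.1 : ℝ) p.2 := by
          simp only [circleMap]; fun_prop
        refine (hgd.continuousOn.comp_continuous hc2 fun p => ?_).norm.pow 2
        rw [mem_ball_zero_iff, Area.norm_circleMap_zero' p.1.2.1]
        exact lt_of_le_of_lt p.1.2.2 hR1
    have hJi : IntegrableOn J (Ioc 0 R) :=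
      (hJc.integrableOn_compact isCompact_Icc).mono_set Ioc_subset_Icc_self
    have hlow : ∀ t ∈ Ioc r R, r * ((1 - r) / 2) ^ e * I r ≤ J t := by
      intro t ht
      have h1 : (1 - r) / 2 ≤ 1 - t ^ 2 := by
        have : t ^ 2 ≤ t := by nlinarith [ht.1, ht.2]
        have := ht.2
        rw [hR] at this
        linarith
      have h2 := Real.rpow_le_rpow (by linarith) h1 he0
      have h3 : I r ≤ I t := circle_mean_mono hgd (by linarith) ht.1.le (lt_of_le_of_lt ht.2 hR1)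
      simp only [hJ]
      rw [mul_assoc]
      refine mul_le_mul ht.1.le (mul_le_mul h2 h3 (hI0 r) ?_) ?_ (by linarith [ht.1])
      · exact Real.rpow_nonneg (by linarith) _
      · exact mul_nonneg (Real.rpow_nonneg (by linarith) _) (hI0 r)
    have hJnn : ∀ t ∈ Ioc (0 : ℝ) R, 0 ≤ J t := fun t ht =>
      mul_nonneg ht.1.le (mul_nonneg (Real.rpow_nonneg (by nlinarith [ht.1, ht.2]) _) (hI0 t))
    have hsub : Ioc r R ⊆ Ioc 0 R := Ioc_subset_Ioc_left (by linarith)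
    have h4 : (R - r) * (r * ((1 - r) / 2) ^ e * I r) ≤ ∫ t in Ioc 0 R, J t := by
      refine le_trans ?_ (setIntegral_mono_set hJi ?_ (HasSubset.Subset.eventuallyLE hsub))
      · have := setIntegral_ge_of_const_le_real measurableSet_Ioc measure_Ioc_lt_top.ne hlow
          (hJi.mono_set hsub)
        rw [Real.volume_real_Ioc_of_le hrR] at this
        linarith
      · filter_upwards [ae_restrict_mem measurableSet_Ioc] with t ht
        exact hJnn t ht
    have h5 : ∫ z in closedBall (0 : ℂ) R, G z ≤ C := by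
      obtain ⟨-, hle⟩ := hC R (by linarith) hR1
      have hae : (closedBall (0 : ℂ) R : Set ℂ) =ᵐ[volume] ball (0 : ℂ) R := by
        refine (ae_eq_set.2 ⟨?_, ?_⟩)
        · rw [closedBall_diff_ball]; exact Measure.addHaar_sphere _ _ _
        · rw [diff_eq_empty.2 ball_subset_closedBall]; simp
      rwa [setIntegral_congr_set hae]
    rw [hpol] at h5
    have h6 : R - r = (1 - r) / 2 := by rw [hR]; ring
    rw [h6] at h4
    linarith
  refine ⟨max (16 * C) (I (1 / 2)), fun r hr0 hr1 => ?_⟩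
  have hone : 1 ≤ (1 / (1 - r)) ^ (1 + e) := by
    refine Real.one_le_rpow ?_ (by linarith)
    rw [le_div_iff₀ (by linarith)]; linarith
  have hpi : (2 * π)⁻¹ ≤ 1 := by
    refine inv_le_one_of_one_le₀ ?_
    linarith [Real.two_le_pi]
  have hmax0 : 0 ≤ max (16 * C) (I (1 / 2)) := le_max_of_le_right (hI0 _)
  refine le_trans (mul_le_of_le_one_left (hI0 r) hpi) ?_
  rcases le_or_gt (1 / 2) r with h | h
  · set x := (1 - r) / 2 with hx
    have hx0 : 0 < x := by rw [hx]; linarith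
    have hxp : x ^ e * x = x ^ (1 + e) := by
      rw [show (1 + e) = e + 1 by ring, Real.rpow_add hx0, Real.rpow_one]
    have h1 : r * I r * x ^ (1 + e) ≤ C := by
      rw [← hxp, ← mul_assoc]; exact hlarge r h hr1
    have h2 : I r ≤ 2 * C * (x ^ (1 + e))⁻¹ := by
      rw [← div_eq_mul_inv, le_div_iff₀ (Real.rpow_pos_of_pos hx0 _)]
      nlinarith [mul_nonneg (hI0 r) (Real.rpow_nonneg hx0.le (1 + e))]
    have h3 : (x ^ (1 + e))⁻¹ ≤ 4 * (1 / (1 - r)) ^ (1 + e) := by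
      rw [← Real.inv_rpow hx0.le, show x⁻¹ = 2 * (1 / (1 - r)) by rw [hx]; field_simp,
        Real.mul_rpow (by norm_num) (by positivity)]
      refine mul_le_mul_of_nonneg_right ?_ (by positivity)
      calc (2 : ℝ) ^ (1 + e) ≤ (2 : ℝ) ^ (2 : ℝ) :=
            Real.rpow_le_rpow_of_exponent_le (by norm_num) (by linarith)
        _ = 4 := by rw [show (2 : ℝ) ^ (2 : ℝ) = 2 ^ (2 : ℕ) from Real.rpow_natCast 2 2]; norm_num
    have h4 : I r ≤ 8 * C * (1 / (1 - r)) ^ (1 + e) := by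
      refine h2.trans ?_
      have := mul_le_mul_of_nonneg_left h3 (by positivity : (0 : ℝ) ≤ 2 * C)
      linarith
    refine h4.trans (mul_le_mul_of_nonneg_right ?_ (by positivity))
    linarith [le_max_left (16 * C) (I (1 / 2))]
  · calc I r ≤ I (1 / 2) := circle_mean_mono hgd hr0 h.le (by norm_num)
      _ ≤ max (16 * C) (I (1 / 2)) * 1 := by rw [mul_one]; exact le_max_right _ _
      _ ≤ _ := mul_le_mul_of_nonneg_left hone hmax0

/-- The integral-means exponent at `-2`. -/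
theorem spectrum_le (he0 : 0 ≤ e) (he1 : e ≤ 1) (hc : CoefBound e)
    (hf : DifferentiableOn ℂ f (ball 0 1)) (hinj : InjOn f (ball 0 1)) :
    limsup (fun r : ℝ => ((Real.log ((2 * π)⁻¹ * ∫ θ in (-π)..π,
        ‖deriv f (circleMap 0 r θ)‖ ^ (-2 : ℝ)) / Real.log (1 / (1 - r)) : ℝ) : EReal))
      (𝓝[<] 1) ≤ ((1 + e : ℝ) : EReal) := by
  obtain ⟨C, hC⟩ := mean_bound he0 he1 hc hf hinj
  set C' := max C 1 with hC'
  have hlog : Tendsto (fun r : ℝ => Real.log (1 / (1 - r))) (𝓝[<] 1) atTop := by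
    refine Real.tendsto_log_atTop.comp ?_
    simp only [one_div]
    refine tendsto_inv_nhdsGT_zero.comp ?_
    refine tendsto_nhdsWithin_iff.2 ⟨?_, ?_⟩
    · have : Tendsto (fun r : ℝ => 1 - r) (𝓝 1) (𝓝 (1 - 1)) :=
        (continuous_const.sub continuous_id).tendsto 1
      rw [sub_self] at this
      exact this.mono_left nhdsWithin_le_nhds
    · filter_upwards [self_mem_nhdsWithin] with r hr
      exact sub_pos.2 (mem_Iio.1 hr)
  have hlim : Tendsto (fun r : ℝ => (((1 + e) + Real.log C' / Real.log (1 / (1 - r)) : ℝ) : EReal))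
      (𝓝[<] 1) (𝓝 ((1 + e : ℝ) : EReal)) := by
    refine EReal.tendsto_coe.2 ?_
    simpa using (tendsto_const_nhds (x := (1 + e))).add (tendsto_const_nhds.div_atTop hlog)
  rw [← hlim.limsup_eq]
  refine limsup_le_limsup ?_
  filter_upwards [Ioo_mem_nhdsLT (by norm_num : (0 : ℝ) < 1)] with r hr
  refine EReal.coe_le_coe_iff.2 ?_
  have hx : 1 < 1 / (1 - r) := by
    rw [lt_div_iff₀ (by linarith [hr.2])]; linarith [hr.1]
  have hl : 0 < Real.log (1 / (1 - r)) := Real.log_pos hx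
  rw [div_le_iff₀ hl, add_mul, div_mul_cancel₀ _ hl.ne']
  have hpos : 0 < (2 * π)⁻¹ * ∫ θ in (-π)..π, ‖deriv f (circleMap 0 r θ)‖ ^ (-2 : ℝ) := by
    refine mul_pos (by positivity) ?_
    have hin : ∀ θ, circleMap 0 r θ ∈ ball (0 : ℂ) 1 := fun θ => by
      rw [mem_ball_zero_iff, Area.norm_circleMap_zero' hr.1.le]; exact hr.2
    have hd : ∀ θ, 0 < ‖deriv f (circleMap 0 r θ)‖ := fun θ =>
      norm_pos_iff.2 (Area.deriv_ne_zero_of_injOn isOpen_ball hf hinj (hin θ))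
    refine intervalIntegral.intervalIntegral_pos_of_pos ?_ (fun θ => Real.rpow_pos_of_pos (hd θ) _)
      (by linarith [Real.pi_pos])
    refine (Continuous.rpow_const ?_ fun θ => Or.inl (hd θ).ne').intervalIntegrable _ _
    exact ((hf.analyticOnNhd isOpen_ball).deriv.continuousOn.comp_continuous
      (continuous_circleMap 0 r) hin).norm
  have hle := (hC r hr.1.le hr.2).trans
    (mul_le_mul_of_nonneg_right (le_max_left C 1) (Real.rpow_nonneg (by linarith) _))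
  refine (Real.log_le_log hpos hle).trans (le_of_eq ?_)
  rw [Real.log_mul (by positivity) (by positivity), Real.log_rpow (by linarith)]
  ring

/-- All the consequences of a coefficient bound. -/
theorem result_of_coefBound {e : ℝ} (he0 : 0 ≤ e) (he1 : e ≤ 1) (hc : CoefBound e) :
    (∀ f : ℂ → ℂ, DifferentiableOn ℂ f (ball 0 1) → InjOn f (ball 0 1) →
      limsup (fun r : ℝ => ((Real.log ((2 * π)⁻¹ * ∫ θ in (-π)..π,
          ‖deriv f (circleMap 0 r θ)‖ ^ (-2 : ℝ)) / Real.log (1 / (1 - r)) : ℝ) : EReal))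
        (𝓝[<] 1) ≤ ((1 + e : ℝ) : EReal) ∧
      (∃ C : ℝ, ∀ r : ℝ, 0 ≤ r → r < 1 →
        (2 * π)⁻¹ * ∫ θ in (-π)..π, ‖deriv f (circleMap 0 r θ)‖ ^ (-2 : ℝ) ≤
          C * (1 / (1 - r)) ^ (1 + e)) ∧
      ∫⁻ z in ball (0 : ℂ) 1,
          ENNReal.ofReal (‖deriv f z‖ ^ (-2 : ℝ) * (1 - ‖z‖ ^ 2) ^ e) < ⊤ ∧
      ∀ t : ℝ, -2 / (1 + e) < t → t ≤ 0 →
        ∫⁻ z in ball (0 : ℂ) 1, ENNReal.ofReal (‖deriv f z‖ ^ t) < ⊤) ∧
    (∀ (W : Set ℂ) (φ : ℂ → ℂ), IsOpen W → DifferentiableOn ℂ φ W → BijOn φ W (ball 0 1) →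
      ∀ s : ℝ, 2 ≤ s → s < 2 + 2 / (1 + e) →
        ∫⁻ w in W, ENNReal.ofReal (‖deriv φ w‖ ^ s) < ⊤) :=
  ⟨fun _ hf hinj =>
    ⟨spectrum_le he0 he1 hc hf hinj, mean_bound he0 he1 hc hf hinj,
      lintegral_weighted he0 he1 hc hf hinj,
      fun _ ht ht0 => lintegral_rpow he0 he1 hc hf hinj ht ht0⟩,
    fun _ _ hW hφ hbij _ hs hs' => lintegral_image he0 he1 hc hW hφ hbij hs hs'⟩

end

end Vale.Agent.P142.Sharp.Endgame
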