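import Mathlib
import Vale.Agent.P142.Sharp.AreaAll
import Vale.Agent.P142.Sharp.Radial

/-!
T1: the Taylor coefficients of `z ^ i h^(i)(z) U(z, w)` and their identities.
-/

namespace Vale.Agent.P142.Sharp.RowsProof

open Complex MeasureTheory Metric Set Filter Topology ComplexConjugate Finset
open scoped Real

noncomputable section

/-! ### Taylor coefficients at the origin -/

lemma hasSum_coef {g : ℂ → ℂ} {r : ℝ} (hg : DifferentiableOn ℂ g (ball 0 r)) {z : ℂ}
    (hz : z ∈ ball (0 : ℂ) r) : HasSum (fun n => coef g n * z ^ n) (g z) := by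
  have h := Complex.hasSum_taylorSeries_on_ball hg hz
  simp only [sub_zero, smul_eq_mul] at h
  refine h.congr_fun fun n => ?_
  simp only [coef]
  ring

lemma coef_of_hasSum {g : ℂ → ℂ} {c : ℕ → ℂ}
    (h : ∀ᶠ z in 𝓝 (0 : ℂ), HasSum (fun n => c n * z ^ n) (g z)) :
    AnalyticAt ℂ g 0 ∧ ∀ n, coef g n = c n := by
  have hp : HasFPowerSeriesAt g (FormalMultilinearSeries.ofScalars ℂ c) 0 := by
    rw [hasFPowerSeriesAt_iff]
    filter_upwards [h] with z hz
    simpa [FormalMultilinearSeries.coeff_ofScalars, mul_comm] using hz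
  refine ⟨hp.analyticAt, fun n => ?_⟩
  have he := hp.eq_formalMultilinearSeries hp.analyticAt.hasFPowerSeriesAt
  have := congrArg (fun p : FormalMultilinearSeries ℂ ℂ ℂ => p.coeff n) he
  simpa [FormalMultilinearSeries.coeff_ofScalars, coef] using this.symm

lemma coef_congr {f g : ℂ → ℂ} (h : f =ᶠ[𝓝 0] g) (n : ℕ) : coef f n = coef g n := by
  simp only [coef, h.iteratedDeriv_eq]

lemma coef_add {f g : ℂ → ℂ} (hf : AnalyticAt ℂ f 0) (hg : AnalyticAt ℂ g 0) (n : ℕ) :
    coef (fun w => f w + g w) n = coef f n + coef g n := by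
  simp only [coef, iteratedDeriv_fun_add hf.contDiffAt hg.contDiffAt, add_div]

lemma coef_sub {f g : ℂ → ℂ} (hf : AnalyticAt ℂ f 0) (hg : AnalyticAt ℂ g 0) (n : ℕ) :
    coef (fun w => f w - g w) n = coef f n - coef g n := by
  simp only [coef, iteratedDeriv_fun_sub hf.contDiffAt hg.contDiffAt, sub_div]

lemma coef_neg (f : ℂ → ℂ) (n : ℕ) : coef (fun w => -f w) n = -coef f n := by
  simp only [coef, iteratedDeriv_fun_neg, neg_div]

lemma coef_const_mul (a : ℂ) (f : ℂ → ℂ) (n : ℕ) : coef (fun w => a * f w) n = a * coef f n := by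
  simp only [coef, iteratedDeriv_const_mul_field]
  ring

lemma coef_deriv (f : ℂ → ℂ) (n : ℕ) : coef (deriv f) n = ((n : ℂ) + 1) * coef f (n + 1) := by
  simp only [coef, ← iteratedDeriv_succ', Nat.factorial_succ, Nat.cast_mul]
  push_cast
  field_simp [Nat.cast_add_one_ne_zero n, Nat.cast_ne_zero.2 n.factorial_ne_zero]

lemma coef_iteratedDeriv (f : ℂ → ℂ) (j n : ℕ) :
    coef (iteratedDeriv j f) n = ((n + j).descFactorial j : ℂ) * coef f (n + j) := by
  have h : iteratedDeriv n (iteratedDeriv j f) = iteratedDeriv (n + j) f := by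
    rw [iteratedDeriv_eq_iterate, iteratedDeriv_eq_iterate, iteratedDeriv_eq_iterate,
      Function.iterate_add_apply]
  have h1 : ((n.factorial : ℂ)) * ((n + j).descFactorial j : ℂ) = ((n + j).factorial : ℂ) := by
    have h2 := Nat.factorial_mul_descFactorial (Nat.le_add_left j n)
    rw [Nat.add_sub_cancel] at h2
    exact_mod_cast h2
  simp only [coef, h]
  rw [← h1]
  field_simp [Nat.cast_ne_zero.2 n.factorial_ne_zero,
    Nat.cast_ne_zero.2 (Nat.descFactorial_pos.2 (Nat.le_add_left j n)).ne']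

lemma coef_mul {f g : ℂ → ℂ} (hf : AnalyticAt ℂ f 0) (hg : AnalyticAt ℂ g 0) (n : ℕ) :
    coef (fun w => f w * g w) n = ∑ m ∈ range (n + 1), coef f m * coef g (n - m) := by
  simp only [coef, iteratedDeriv_fun_mul hf.contDiffAt hg.contDiffAt, Finset.sum_div]
  refine Finset.sum_congr rfl fun m hm => ?_
  have hm := Finset.mem_range.1 hm
  have h1 : (n.choose m : ℂ) * (m.factorial : ℂ) * ((n - m).factorial : ℂ) = (n.factorial : ℂ) := by
    exact_mod_cast Nat.choose_mul_factorial_mul_factorial (by omega)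
  rw [← h1]
  field_simp [Nat.cast_ne_zero.2 (Nat.choose_pos (show m ≤ n by omega)).ne',
    Nat.cast_ne_zero.2 m.factorial_ne_zero, Nat.cast_ne_zero.2 (n - m).factorial_ne_zero]

lemma coef_pow (k n : ℕ) : coef (fun w => w ^ k) n = if n = k then 1 else 0 := by
  simp only [coef, iteratedDeriv_fun_pow_zero]
  split_ifs with h
  · subst h; field_simp [Nat.cast_ne_zero.2 n.factorial_ne_zero]
  · simp

lemma coef_pow_mul {g : ℂ → ℂ} (hg : AnalyticAt ℂ g 0) (k n : ℕ) :
    coef (fun w => w ^ k * g w) n = if k ≤ n then coef g (n - k) else 0 := by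
  rw [coef_mul (f := fun w => w ^ k) (analyticAt_id.pow k) hg]
  simp only [coef_pow, ite_mul, one_mul, zero_mul, Finset.sum_ite_eq', Finset.mem_range,
    Nat.lt_succ_iff]

/-- Derivatives of the series at the evaluation point. -/
lemma hasSum_desc {g : ℂ → ℂ} {r : ℝ} (hg : DifferentiableOn ℂ g (ball 0 r)) {z : ℂ}
    (hz : z ∈ ball (0 : ℂ) r) (j : ℕ) :
    HasSum (fun n => (n.descFactorial j : ℂ) * coef g n * z ^ n) (z ^ j * iteratedDeriv j g z) := by
  have hd : DifferentiableOn ℂ (iteratedDeriv j g) (ball 0 r) := fun w hw => by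
    have := ((hg.analyticAt (isOpen_ball.mem_nhds hw)).iterated_deriv j).differentiableAt
    rw [iteratedDeriv_eq_iterate]
    exact this.differentiableWithinAt
  have h := (hasSum_coef hd hz).mul_left (z ^ j)
  have h2 : HasSum (fun n => ((n + j).descFactorial j : ℂ) * coef g (n + j) * z ^ (n + j))
      (z ^ j * iteratedDeriv j g z) := by
    refine h.congr_fun fun n => ?_
    rw [coef_iteratedDeriv, pow_add]
    ring
  refine (hasSum_nat_add_iff' (f := fun n => (n.descFactorial j : ℂ) * coef g n * z ^ n) j).1 ?_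
  rw [Finset.sum_eq_zero (fun n hn => by
    simp [Nat.descFactorial_eq_zero_iff_lt.2 (Finset.mem_range.1 hn)]), sub_zero]
  exact h2

lemma coef_inv_sub {z : ℂ} (hz : z ≠ 0) :
    (∀ n, coef (fun w => (z - w)⁻¹) n = (z ^ (n + 1))⁻¹) ∧
    (∀ n, coef (fun w => ((z - w) ^ 2)⁻¹) n = ((n : ℂ) + 1) / z ^ (n + 2)) ∧
    (∀ n, coef (fun w => ((z - w) ^ 3)⁻¹) n = ((n : ℂ) + 2) * ((n : ℂ) + 1) / 2 / z ^ (n + 3)) := by
  have h1 : ∀ n, coef (fun w => (z - w)⁻¹) n = (z ^ (n + 1))⁻¹ := by
    refine (coef_of_hasSum ?_).2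
    filter_upwards [ball_mem_nhds (0 : ℂ) (norm_pos_iff.2 hz)] with w hw
    have hq : ‖w / z‖ < 1 := by
      rw [norm_div, div_lt_one (norm_pos_iff.2 hz)]; simpa using hw
    have h := (hasSum_geometric_of_norm_lt_one hq).mul_left z⁻¹
    rw [show z⁻¹ * (1 - w / z)⁻¹ = (z - w)⁻¹ by
      rw [← mul_inv, mul_sub, mul_one, mul_div_cancel₀ _ hz]] at h
    refine h.congr_fun fun n => ?_
    rw [div_pow, pow_succ, mul_inv]
    ring
  have hne : ∀ᶠ w in 𝓝 (0 : ℂ), z - w ≠ 0 := by
    filter_upwards [ball_mem_nhds (0 : ℂ) (norm_pos_iff.2 hz)] with w hw e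
    rw [sub_eq_zero] at e
    subst e
    simp at hw
  have e2 : deriv (fun w => (z - w)⁻¹) =ᶠ[𝓝 0] fun w => ((z - w) ^ 2)⁻¹ := by
    filter_upwards [hne] with w hw
    exact ((((hasDerivAt_id' w).const_sub z).fun_inv hw).congr_deriv (by simp)).deriv
  have h2 : ∀ n, coef (fun w => ((z - w) ^ 2)⁻¹) n = ((n : ℂ) + 1) / z ^ (n + 2) := fun n => by
    rw [← coef_congr e2 n, coef_deriv, h1, div_eq_mul_inv]
  have e3 : deriv (fun w => ((z - w) ^ 2)⁻¹) =ᶠ[𝓝 0] fun w => 2 * ((z - w) ^ 3)⁻¹ := by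
    filter_upwards [hne] with w hw
    refine ((((hasDerivAt_id' w).const_sub z).fun_pow 2).fun_inv (pow_ne_zero _ hw)).congr_deriv ?_
      |>.deriv
    field_simp
    push_cast
    ring
  refine ⟨h1, h2, fun n => ?_⟩
  have h3 := coef_congr e3 n
  rw [coef_deriv, h2, coef_const_mul] at h3
  push_cast at h3 ⊢
  linear_combination (-(1 : ℂ) / 2) * h3

/-! ### The kernel -/

section

variable {f : ℂ → ℂ} {R : ℝ}

/-- `1/f'`. -/
def hfun (f : ℂ → ℂ) (z : ℂ) : ℂ := (deriv f z)⁻¹

/-- Coefficient of `w ^ q` of `U (z, w)`. -/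
def b (f : ℂ → ℂ) (q : ℕ) (z : ℂ) : ℂ := coef (Ufun f z) q

/-- Coefficient of `z ^ a w ^ q` of `U (z, w)`. -/
def v (f : ℂ → ℂ) (a q : ℕ) : ℂ := coef (b f q) a

/-- Coefficient of `z ^ p w ^ q` of `z ^ i h^(i)(z) U (z, w)`. -/
def u (f : ℂ → ℂ) (i p q : ℕ) : ℂ := coef (fun z => Hfun f i z * b f q z) p

/-- `∂ U (z, w) / ∂ z` off the diagonal. -/
def dU (f : ℂ → ℂ) (z w : ℂ) : ℂ :=
  deriv (deriv f) z * deriv f w / (f w - f z) ^ 2 +
    2 * deriv f z ^ 2 * deriv f w / (f w - f z) ^ 3 - 2 / (w - z) ^ 3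

variable (hf : DifferentiableOn ℂ f (ball 0 R)) (hinj : InjOn f (ball 0 R))
include hf hinj

omit hinj in
lemma analyticAt_f {z : ℂ} (hz : z ∈ ball (0 : ℂ) R) : AnalyticAt ℂ f z :=
  hf.analyticAt (isOpen_ball.mem_nhds hz)

lemma dne {z : ℂ} (hz : z ∈ ball (0 : ℂ) R) : deriv f z ≠ 0 :=
  Area.deriv_ne_zero_of_injOn isOpen_ball hf hinj hz

lemma analyticAt_hfun {z : ℂ} (hz : z ∈ ball (0 : ℂ) R) : AnalyticAt ℂ (hfun f) z :=
  (analyticAt_f hf hz).deriv.inv (dne hf hinj hz)

lemma analyticAt_iterH (i : ℕ) {z : ℂ} (hz : z ∈ ball (0 : ℂ) R) :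
    AnalyticAt ℂ (iteratedDeriv i (hfun f)) z := by
  rw [iteratedDeriv_eq_iterate]
  exact (analyticAt_hfun hf hinj hz).iterated_deriv i

lemma differentiableOn_Hfun (i : ℕ) : DifferentiableOn ℂ (Hfun f i) (ball 0 R) := fun _ hz =>
  ((analyticAt_id.pow i).mul (analyticAt_iterH hf hinj i hz)).differentiableAt.differentiableWithinAt

lemma differentiableOn_U {z : ℂ} (hz : z ∈ ball (0 : ℂ) R) :
    DifferentiableOn ℂ (Ufun f z) (ball 0 R) :=
  ((AreaAll.differentiableOn_Mfun hf hinj hz).deriv isOpen_ball).fun_neg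

lemma Ufun_eq {z w : ℂ} (hz : z ∈ ball (0 : ℂ) R) (hw : w ∈ ball (0 : ℂ) R) (h : w ≠ z) :
    Ufun f z w = deriv f z * deriv f w / (f w - f z) ^ 2 - 1 / (w - z) ^ 2 := by
  have h1 : f w - f z ≠ 0 := sub_ne_zero.2 fun e => h (hinj hw hz e)
  have hM : Mfun f z =ᶠ[𝓝 w] fun x => deriv f z / (f x - f z) - 1 / (x - z) := by
    filter_upwards [isOpen_ne.mem_nhds h] with x hx
    rw [Mfun, if_neg hx]
  have h2 := (((hasDerivAt_const w (deriv f z)).fun_div
    ((analyticAt_f hf hw).differentiableAt.hasDerivAt.sub_const (f z)) h1).fun_sub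
    ((hasDerivAt_const w (1 : ℂ)).fun_div ((hasDerivAt_id' w).sub_const z) (sub_ne_zero.2 h)))
  rw [Ufun, hM.deriv_eq, h2.deriv]
  ring

lemma Ufun_symm {z w : ℂ} (hz : z ∈ ball (0 : ℂ) R) (hw : w ∈ ball (0 : ℂ) R) :
    Ufun f z w = Ufun f w z := by
  by_cases h : w = z
  · rw [h]
  rw [Ufun_eq hf hinj hz hw h, Ufun_eq hf hinj hw hz (Ne.symm h), ← neg_sub (f z) (f w),
    ← neg_sub z w, neg_sq, neg_sq, mul_comm (deriv f z)]

lemma hasDerivAt_Ufun {z w : ℂ} (hz : z ∈ ball (0 : ℂ) R) (hw : w ∈ ball (0 : ℂ) R) (h : w ≠ z) :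
    HasDerivAt (fun x => Ufun f x w) (dU f z w) z := by
  have h1 : f w - f z ≠ 0 := sub_ne_zero.2 fun e => h (hinj hw hz e)
  have h2 : w - z ≠ 0 := sub_ne_zero.2 h
  have hd := ((((analyticAt_f hf hz).deriv.differentiableAt.hasDerivAt.mul_const (deriv f w)).fun_div
    (((analyticAt_f hf hz).differentiableAt.hasDerivAt.const_sub (f w)).fun_pow 2)
      (pow_ne_zero _ h1)).fun_sub
    ((hasDerivAt_const z (1 : ℂ)).fun_div (((hasDerivAt_id' z).const_sub w).fun_pow 2)
      (pow_ne_zero _ h2)))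
  refine (hd.congr_of_eventuallyEq ?_).congr_deriv ?_
  · filter_upwards [isOpen_ball.mem_nhds hz, isOpen_ne.mem_nhds (Ne.symm h)] with x hx hxw
    exact Ufun_eq hf hinj hx hw (Ne.symm hxw)
  · simp only [dU]
    push_cast
    field_simp
    ring

omit hf hinj in
lemma coef_eq_circle {g : ℂ → ℂ} {r : ℝ} (hr : 0 < r)
    (hg : DifferentiableOn ℂ g (closedBall 0 r)) (q : ℕ) :
    coef g q = (2 * π * I)⁻¹ * ∮ w in C(0, r), (w ^ (q + 1))⁻¹ * g w := by
  have h := hg.circleIntegral_one_div_sub_center_pow_smul hr q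
  simp only [sub_zero, smul_eq_mul, one_div] at h
  rw [h, coef]
  field_simp [Real.pi_ne_zero, Complex.I_ne_zero]

omit hf hinj in
lemma hasDerivAt_circle {G G' : ℂ → ℂ → ℂ} {V : Set ℂ} {z₀ : ℂ} {r : ℝ} (hV : IsOpen V)
    (hr : 0 < r) (hz₀ : z₀ ∈ V) (hG : ∀ z ∈ V, ContinuousOn (G z) (sphere 0 r))
    (hG' : ContinuousOn (Function.uncurry G') (V ×ˢ sphere 0 r))
    (hd : ∀ z ∈ V, ∀ w ∈ sphere (0 : ℂ) r, HasDerivAt (fun x => G x w) (G' z w) z) (q : ℕ) :
    HasDerivAt (fun z => ∮ w in C(0, r), (w ^ (q + 1))⁻¹ * G z w)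
      (∮ w in C(0, r), (w ^ (q + 1))⁻¹ * G' z₀ w) z₀ := by
  obtain ⟨δ, hδ, hsub⟩ := Metric.nhds_basis_closedBall.mem_iff.1 (hV.mem_nhds hz₀)
  obtain ⟨C, hC⟩ := ((isCompact_closedBall z₀ δ).prod (isCompact_sphere (0 : ℂ) r))
    |>.exists_bound_of_continuousOn (hG'.mono (Set.prod_mono hsub subset_rfl))
  set k : ℝ → ℂ := fun θ => deriv (circleMap 0 r) θ * (circleMap 0 r θ ^ (q + 1))⁻¹ with hk
  have hkc : Continuous k := by
    simp only [hk, deriv_circleMap]
    exact ((continuous_circleMap 0 r).mul continuous_const).mul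
      (((continuous_circleMap 0 r).pow _).inv₀ fun θ => pow_ne_zero _ (circleMap_ne_center hr.ne'))
  have hms : ∀ θ, circleMap (0 : ℂ) r θ ∈ sphere (0 : ℂ) r := fun θ => circleMap_mem_sphere 0 hr.le θ
  have hGc : ∀ z ∈ V, Continuous fun θ => k θ * G z (circleMap 0 r θ) := fun z hz =>
    hkc.mul ((hG z hz).comp_continuous (continuous_circleMap 0 r) hms)
  have hG'c : Continuous fun θ => k θ * G' z₀ (circleMap 0 r θ) :=
    hkc.mul (hG'.comp_continuous (continuous_const.prodMk (continuous_circleMap 0 r))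
      fun θ => ⟨hz₀, hms θ⟩)
  have key := intervalIntegral.hasDerivAt_integral_of_dominated_loc_of_deriv_le (μ := volume)
    (F := fun z θ => k θ * G z (circleMap 0 r θ)) (F' := fun z θ => k θ * G' z (circleMap 0 r θ))
    (bound := fun θ => ‖k θ‖ * C) (a := 0) (b := 2 * π) (closedBall_mem_nhds z₀ hδ)
    (by filter_upwards [hV.mem_nhds hz₀] with z hz using (hGc z hz).aestronglyMeasurable)
    ((hGc z₀ hz₀).intervalIntegrable _ _) hG'c.aestronglyMeasurable
    (Eventually.of_forall fun θ _ x hx => by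
      rw [norm_mul]
      exact mul_le_mul_of_nonneg_left (hC (x, circleMap 0 r θ) ⟨hx, hms θ⟩) (norm_nonneg _))
    ((hkc.norm.mul continuous_const).intervalIntegrable _ _)
    (Eventually.of_forall fun θ _ x hx => (hd x (hsub hx) _ (hms θ)).const_mul (k θ))
  simpa only [circleIntegral, smul_eq_mul, hk, mul_assoc] using key.2

lemma hasDerivAt_b {z₀ : ℂ} {r : ℝ} (hr : 0 < r) (hrR : r < R) (hz₀ : z₀ ∈ ball (0 : ℂ) R)
    (hne : ‖z₀‖ ≠ r) (q : ℕ) :
    HasDerivAt (b f q) ((2 * π * I)⁻¹ * ∮ w in C(0, r), (w ^ (q + 1))⁻¹ * dU f z₀ w) z₀ := by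
  set V : Set ℂ := ball 0 R ∩ {z | ‖z‖ ≠ r} with hVdef
  have hV : IsOpen V := isOpen_ball.inter (isOpen_ne_fun continuous_norm continuous_const)
  have hs : sphere (0 : ℂ) r ⊆ ball 0 R := fun w hw => by
    rw [mem_sphere_zero_iff_norm] at hw; rw [mem_ball_zero_iff, hw]; exact hrR
  have hne' : ∀ z ∈ V, ∀ w ∈ sphere (0 : ℂ) r, w ≠ z := fun z hz w hw e =>
    hz.2 (e ▸ mem_sphere_zero_iff_norm.1 hw)
  have h1 : ContinuousOn (deriv f) (ball 0 R) := (hf.deriv isOpen_ball).continuousOn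
  have h2 : ContinuousOn (deriv (deriv f)) (ball 0 R) :=
    ((hf.deriv isOpen_ball).deriv isOpen_ball).continuousOn
  have hc : ContinuousOn (Function.uncurry (dU f)) (V ×ˢ sphere 0 r) := by
    have m1 : MapsTo (Prod.fst : ℂ × ℂ → ℂ) (V ×ˢ sphere 0 r) (ball 0 R) := fun p hp => hp.1.1
    have m2 : MapsTo (Prod.snd : ℂ × ℂ → ℂ) (V ×ˢ sphere 0 r) (ball 0 R) := fun p hp => hs hp.2
    have a1 := h1.comp continuousOn_fst m1
    have a2 := h2.comp continuousOn_fst m1
    have a3 := h1.comp continuousOn_snd m2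
    have a4 := (hf.continuousOn.comp continuousOn_snd m2).sub (hf.continuousOn.comp continuousOn_fst m1)
    refine (((a2.mul a3).div (a4.pow 2) ?_).add
      (((continuousOn_const.mul (a1.pow 2)).mul a3).div (a4.pow 3) ?_)).sub
      (continuousOn_const.div ((continuousOn_snd.sub continuousOn_fst).pow 3) ?_)
    all_goals
      intro p hp
      refine pow_ne_zero _ (sub_ne_zero.2 ?_)
    · exact fun e => hne' _ hp.1 _ hp.2 (hinj (m2 hp) (m1 hp) e)
    · exact fun e => hne' _ hp.1 _ hp.2 (hinj (m2 hp) (m1 hp) e)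
    · exact hne' _ hp.1 _ hp.2
  have hd := (hasDerivAt_circle (G := Ufun f) (G' := dU f) hV hr ⟨hz₀, hne⟩
    (fun z hz => (differentiableOn_U hf hinj hz.1).continuousOn.mono hs) hc
    (fun z hz w hw => hasDerivAt_Ufun hf hinj hz.1 (hs hw) (hne' z hz w hw)) q).const_mul
      (2 * π * I)⁻¹
  refine hd.congr_of_eventuallyEq ?_
  filter_upwards [isOpen_ball.mem_nhds hz₀] with z hz
  exact coef_eq_circle hr
    ((differentiableOn_U hf hinj hz).mono (closedBall_subset_ball hrR)) q

lemma differentiableOn_b (hR : 0 < R) (q : ℕ) : DifferentiableOn ℂ (b f q) (ball 0 R) := by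
  intro z hz
  have hz' : ‖z‖ < R := by simpa using hz
  exact (hasDerivAt_b hf hinj (r := (‖z‖ + R) / 2) (by linarith [norm_nonneg z]) (by linarith) hz
    (by linarith) q).differentiableAt.differentiableWithinAt

/-! ### The double series -/

variable (hR : 1 < R)
include hR

lemma exists_bound : ∃ M : ℝ, 0 ≤ M ∧ ∀ a q : ℕ, ‖v f a q‖ ≤ M * 4 ^ a * 4 ^ q := by
  have hK : IsCompact (closedBall (0 : ℂ) (1 / 4) ×ˢ sphere (0 : ℂ) (1 / 2)) :=
    (isCompact_closedBall _ _).prod (isCompact_sphere _ _)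
  have m1 : MapsTo (Prod.fst : ℂ × ℂ → ℂ) (closedBall (0 : ℂ) (1 / 4) ×ˢ sphere (0 : ℂ) (1 / 2))
      (ball 0 R) := fun p hp => mem_ball_zero_iff.2 (by
    have := mem_closedBall_zero_iff.1 hp.1; linarith)
  have m2 : MapsTo (Prod.snd : ℂ × ℂ → ℂ) (closedBall (0 : ℂ) (1 / 4) ×ˢ sphere (0 : ℂ) (1 / 2))
      (ball 0 R) := fun p hp => mem_ball_zero_iff.2 (by
    have := mem_sphere_zero_iff_norm.1 hp.2; linarith)
  have hne : ∀ p ∈ closedBall (0 : ℂ) (1 / 4) ×ˢ sphere (0 : ℂ) (1 / 2), p.2 ≠ p.1 := by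
    intro p hp e
    have h1 := mem_closedBall_zero_iff.1 hp.1
    have h2 := mem_sphere_zero_iff_norm.1 hp.2
    rw [e] at h2
    linarith
  have hc : ContinuousOn (Function.uncurry (Ufun f))
      (closedBall (0 : ℂ) (1 / 4) ×ˢ sphere (0 : ℂ) (1 / 2)) := by
    have h1 : ContinuousOn (deriv f) (ball 0 R) := (hf.deriv isOpen_ball).continuousOn
    have a4 := (hf.continuousOn.comp continuousOn_snd m2).sub
      (hf.continuousOn.comp continuousOn_fst m1)
    refine ContinuousOn.congr ((((h1.comp continuousOn_fst m1).mul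
      (h1.comp continuousOn_snd m2)).div (a4.pow 2) ?_).sub
      (continuousOn_const.div ((continuousOn_snd.sub continuousOn_fst).pow 2) ?_))
      fun p hp => Ufun_eq hf hinj (m1 hp) (m2 hp) (hne p hp)
    · exact fun p hp => pow_ne_zero _ (sub_ne_zero.2 fun e => hne p hp (hinj (m2 hp) (m1 hp) e))
    · exact fun p hp => pow_ne_zero _ (sub_ne_zero.2 (hne p hp))
  obtain ⟨M, hM⟩ := hK.exists_bound_of_continuousOn hc
  refine ⟨max M 0, le_max_right _ _, fun a q => ?_⟩
  have hb : ∀ z ∈ sphere (0 : ℂ) (1 / 4), ‖b f q z‖ ≤ max M 0 * 2 ^ q := by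
    intro z hz
    have hzR : z ∈ ball (0 : ℂ) R := mem_ball_zero_iff.2 (by
      have := mem_sphere_zero_iff_norm.1 hz; linarith)
    have h := Complex.norm_iteratedDeriv_le_of_forall_mem_sphere_norm_le (C := max M 0) q
      (by norm_num : (0 : ℝ) < 1 / 2)
      ((differentiableOn_U hf hinj hzR).mono (closure_ball_subset_closedBall.trans
        (closedBall_subset_ball (by linarith)))).diffContOnCl
      fun w hw => (hM (z, w) ⟨sphere_subset_closedBall hz, hw⟩).trans (le_max_left _ _)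
    rw [b, coef, norm_div, Complex.norm_natCast, div_le_iff₀ (by positivity)]
    refine h.trans (le_of_eq ?_)
    rw [one_div, inv_pow, div_inv_eq_mul]
    ring
  have h := Complex.norm_iteratedDeriv_le_of_forall_mem_sphere_norm_le a
    (by norm_num : (0 : ℝ) < 1 / 4)
    ((differentiableOn_b hf hinj (by linarith) q).mono (closure_ball_subset_closedBall.trans
      (closedBall_subset_ball (by linarith)))).diffContOnCl hb
  rw [v, coef, norm_div, Complex.norm_natCast, div_le_iff₀ (by positivity)]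
  refine h.trans ?_
  rw [one_div_pow]
  have : (2 : ℝ) ^ q ≤ 4 ^ q := pow_le_pow_left₀ (by norm_num) (by norm_num) q
  calc (a.factorial : ℝ) * (max M 0 * 2 ^ q) / (1 / 4 ^ a)
      = max M 0 * 4 ^ a * 2 ^ q * (a.factorial : ℝ) := by field_simp
    _ ≤ max M 0 * 4 ^ a * 4 ^ q * (a.factorial : ℝ) := by gcongr

lemma hasSum_double {z w : ℂ} (hz : ‖z‖ < 1 / 4) (hw : ‖w‖ < 1 / 4) (j : ℕ) :
    HasSum (fun p : ℕ × ℕ => (p.1.descFactorial j : ℂ) * v f p.2 p.1 * z ^ p.2 * w ^ p.1)
      (w ^ j * iteratedDeriv j (Ufun f z) w) := by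
  obtain ⟨M, hM0, hM⟩ := exists_bound hf hinj hR
  have hzR : z ∈ ball (0 : ℂ) R := mem_ball_zero_iff.2 (by linarith)
  have hwR : w ∈ ball (0 : ℂ) R := mem_ball_zero_iff.2 (by linarith)
  have hsum : Summable fun p : ℕ × ℕ => ‖(p.1.descFactorial j : ℂ) * v f p.2 p.1 * z ^ p.2 * w ^ p.1‖ := by
    have hq : Summable fun q : ℕ => (q : ℝ) ^ j * (4 * ‖w‖) ^ q := by
      refine summable_pow_mul_geometric_of_norm_lt_one j ?_
      rw [Real.norm_of_nonneg (by positivity)]; linarith
    have ha : Summable fun a : ℕ => M * (4 * ‖z‖) ^ a :=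
      (summable_geometric_of_lt_one (by positivity) (by linarith)).mul_left M
    refine (hq.mul_of_nonneg ha (fun q => by positivity) (fun a => by positivity)).of_nonneg_of_le
      (fun p => norm_nonneg _) fun p => ?_
    rw [norm_mul, norm_mul, norm_mul, norm_pow, norm_pow, Complex.norm_natCast, mul_pow, mul_pow]
    calc (p.1.descFactorial j : ℝ) * ‖v f p.2 p.1‖ * ‖z‖ ^ p.2 * ‖w‖ ^ p.1
        ≤ (p.1 : ℝ) ^ j * (M * 4 ^ p.2 * 4 ^ p.1) * ‖z‖ ^ p.2 * ‖w‖ ^ p.1 := by
          gcongr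
          · exact_mod_cast Nat.descFactorial_le_pow p.1 j
          · exact hM _ _
      _ = _ := by ring
  obtain ⟨x, hx⟩ := (Summable.of_norm hsum)
  suffices e : w ^ j * iteratedDeriv j (Ufun f z) w = x by rw [e]; exact hx
  refine (hasSum_desc (differentiableOn_U hf hinj hzR) hwR j).unique ?_
  refine hx.prod_fiberwise fun q => ?_
  have h := ((hasSum_coef (differentiableOn_b hf hinj (by linarith) q) hzR).mul_left
    ((q.descFactorial j : ℂ) * w ^ q))
  rw [show (q.descFactorial j : ℂ) * coef (Ufun f z) q * w ^ q =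
    (q.descFactorial j : ℂ) * w ^ q * b f q z by rw [b]; ring]
  exact h.congr_fun fun a => by rw [v]; ring

lemma v_symm (a q : ℕ) : v f a q = v f q a := by
  have hball : ∀ᶠ z in 𝓝 (0 : ℂ), ‖z‖ < 1 / 4 := by
    filter_upwards [ball_mem_nhds (0 : ℂ) (by norm_num : (0 : ℝ) < 1 / 4)] with z hz
    simpa using hz
  refine (coef_of_hasSum (g := b f q) ?_).2 a
  filter_upwards [hball] with z hz
  have hzR : z ∈ ball (0 : ℂ) R := mem_ball_zero_iff.2 (by linarith)
  have hS : Summable fun a : ℕ => v f q a * z ^ a := by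
    obtain ⟨M, hM0, hM⟩ := exists_bound hf hinj hR
    refine Summable.of_norm_bounded (g := fun a => M * 4 ^ q * (4 * ‖z‖) ^ a)
      ((summable_geometric_of_lt_one (by positivity) (by linarith)).mul_left _) fun a => ?_
    rw [norm_mul, norm_pow, mul_pow, ← mul_assoc]
    exact mul_le_mul_of_nonneg_right (hM q a) (by positivity)
  suffices hE : ∀ n, b f n z = ∑' a, v f n a * z ^ a by
    rw [hE q]; exact hS.hasSum
  refine (coef_of_hasSum (g := Ufun f z) ?_).2
  filter_upwards [hball] with w hw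
  have hwR : w ∈ ball (0 : ℂ) R := mem_ball_zero_iff.2 (by linarith)
  have h := (hasSum_double hf hinj hR hw hz 0)
  simp only [pow_zero, one_mul, iteratedDeriv_zero, Nat.descFactorial_zero, Nat.cast_one] at h
  rw [Ufun_symm hf hinj hwR hzR] at h
  have h' : HasSum (fun p : ℕ × ℕ => v f p.1 p.2 * z ^ p.2 * w ^ p.1) (Ufun f z w) :=
    ((Equiv.prodComm ℕ ℕ).hasSum_iff.2 h).congr_fun fun p => by
      simp only [Function.comp_apply, Equiv.prodComm_apply, Prod.fst_swap, Prod.snd_swap]; ring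
  refine h'.prod_fiberwise fun n => ?_
  have hn : Summable fun a : ℕ => v f n a * z ^ a * w ^ n := h'.summable.prod_factor n
  rw [← tsum_mul_right]
  exact hn.hasSum

lemma iteratedDeriv_U_diag {z : ℂ} (hz : ‖z‖ < 1) {j : ℕ} (hj : j ≤ 6) :
    iteratedDeriv j (Ufun f z) z = (j.factorial : ℂ) * U0 f j z := by
  have hsub : ball (0 : ℂ) 1 ⊆ ball 0 R := ball_subset_ball hR.le
  have hz1 : z ∈ ball (0 : ℂ) 1 := by simpa using hz
  obtain ⟨E, hE, hev⟩ := Jets.expansion (hf.mono hsub) (hinj.mono hsub) hz1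
  set s := fun k => iteratedDeriv k (Jets.sig f) z
  have hM : (fun x => Mfun f z (z + x)) =ᶠ[𝓝 0] fun x => Jets.eta0 f z +
      ((∑ k ∈ Finset.range 7, Jets.gam s (k + 1) * x ^ (k + 1)) + x ^ 8 * E x) := by
    filter_upwards [hev] with x hx
    by_cases hx0 : x = 0
    · subst hx0
      simp [Mfun]
    · have h := hx hx0
      rw [Mfun, if_neg (by simpa using hx0), add_sub_cancel_left]
      linear_combination h
  have hS : AnalyticAt ℂ (fun x : ℂ => ∑ k ∈ Finset.range 7, Jets.gam s (k + 1) * x ^ (k + 1)) 0 :=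
    Finset.analyticAt_fun_sum _ fun k _ => analyticAt_const.mul (analyticAt_id.pow _)
  have h8 : AnalyticAt ℂ (fun x : ℂ => x ^ 8 * E x) 0 := (analyticAt_id.pow 8).mul hE
  have key : coef (fun x => Mfun f z (z + x)) (j + 1) = Jets.gam s (j + 1) := by
    rw [coef_congr hM, coef_add analyticAt_const (hS.fun_add h8), coef_add hS h8,
      coef_pow_mul hE, if_neg (by omega)]
    have hc : coef (fun _ : ℂ => Jets.eta0 f z) (j + 1) = 0 := by simp [coef, iteratedDeriv_const]
    rw [hc, zero_add, add_zero, coef,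
      iteratedDeriv_fun_sum (fun k _ => (analyticAt_const.mul (analyticAt_id.pow _)).contDiffAt),
      Finset.sum_div]
    have : ∀ k ∈ Finset.range 7, iteratedDeriv (j + 1) (fun x : ℂ => Jets.gam s (k + 1) * x ^ (k + 1)) 0
        / ((j + 1).factorial : ℂ) = if j = k then Jets.gam s (k + 1) else 0 := by
      intro k _
      have := coef_const_mul (Jets.gam s (k + 1)) (fun x : ℂ => x ^ (k + 1)) (j + 1)
      rw [coef_pow, coef] at this
      simp only [this, add_left_inj, mul_ite, mul_one, mul_zero]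
    rw [Finset.sum_congr rfl this, Finset.sum_ite_eq, if_pos (Finset.mem_range.2 (by omega))]
  rw [coef, iteratedDeriv_comp_const_add] at key
  simp only [add_zero] at key
  rw [div_eq_iff (Nat.cast_ne_zero.2 (j + 1).factorial_ne_zero)] at key
  have hU : Ufun f z = fun w => -deriv (Mfun f z) w := rfl
  rw [hU, iteratedDeriv_fun_neg, ← iteratedDeriv_succ', key, U0, Nat.factorial_succ]
  push_cast
  ring

lemma coef_diag {j : ℕ} (hj : j ≤ 6) :
    AnalyticAt ℂ (fun z => z ^ j * ((j.factorial : ℂ) * U0 f j z)) 0 ∧ ∀ K,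
      coef (fun z => z ^ j * ((j.factorial : ℂ) * U0 f j z)) K =
        ∑ q ∈ range (K + 1), (q.descFactorial j : ℂ) * v f (K - q) q := by
  refine coef_of_hasSum ?_
  filter_upwards [ball_mem_nhds (0 : ℂ) (by norm_num : (0 : ℝ) < 1 / 4)] with z hz
  rw [mem_ball_zero_iff] at hz
  have h := hasSum_double hf hinj hR hz hz j
  rw [iteratedDeriv_U_diag hf hinj hR (by linarith) hj] at h
  refine ((Finset.HasAntidiagonal.sigmaAntidiagonalEquivProd.hasSum_iff).2 h).sigma fun K => ?_
  rw [Finset.sum_mul]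
  have e : ∑ q ∈ range (K + 1), (q.descFactorial j : ℂ) * v f (K - q) q * z ^ K =
      ∑ p ∈ Finset.HasAntidiagonal.antidiagonal K, (p.1.descFactorial j : ℂ) * v f p.2 p.1 * z ^ p.2 * z ^ p.1 := by
    rw [Finset.Nat.sum_antidiagonal_eq_sum_range_succ_mk]
    refine Finset.sum_congr rfl fun q hq => ?_
    have hq := Finset.mem_range.1 hq
    rw [mul_assoc _ (z ^ (K - q)), ← pow_add, Nat.sub_add_cancel (by omega)]
  rw [e, ← Finset.sum_coe_sort]
  exact hasSum_fintype _

end

/-! ### The identities -/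

section

lemma poch_succ (k : ℕ) (y : ℤ) :
    (descPochhammer ℤ (k + 1)).eval y = y * (descPochhammer ℤ k).eval (y - 1) := by
  simp [descPochhammer_succ_left]

lemma poch_conv (j : ℕ) : ∀ x a : ℤ, ∑ l ∈ range (j + 1), (j.choose l : ℤ) * (-1) ^ l *
    ((descPochhammer ℤ (j - l)).eval (x + a - l) * (descPochhammer ℤ l).eval x) =
      (descPochhammer ℤ j).eval a := by
  induction j with
  | zero => intro x a; simp
  | succ j ih =>
    intro x a
    set T := fun l : ℕ => (-1 : ℤ) ^ l *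
      ((descPochhammer ℤ (j + 1 - l)).eval (x + a - l) * (descPochhammer ℤ l).eval x) with hT
    have hp : ∀ g : ℕ → ℤ, ∑ l ∈ range (j + 2), ((j + 1).choose l : ℤ) * g l =
        ∑ l ∈ range (j + 1), (j.choose l : ℤ) * (g l + g (l + 1)) := by
      intro g
      rw [Finset.sum_range_succ' _ (j + 1)]
      simp only [Nat.choose_succ_succ', Nat.cast_add, add_mul, Finset.sum_add_distrib, mul_add]
      have h := Finset.sum_range_succ' (fun l => (j.choose l : ℤ) * g l) (j + 1)
      rw [Finset.sum_range_succ] at h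
      simp only [Nat.choose_succ_self, Nat.cast_zero, zero_mul, add_zero, Nat.choose_zero_right,
        Nat.cast_one, one_mul] at h ⊢
      linarith
    rw [show ∑ l ∈ range (j + 1 + 1), ((j + 1).choose l : ℤ) * (-1) ^ l *
      ((descPochhammer ℤ (j + 1 - l)).eval (x + a - l) * (descPochhammer ℤ l).eval x) =
      ∑ l ∈ range (j + 2), ((j + 1).choose l : ℤ) * T l from
        Finset.sum_congr rfl fun l _ => by simp only [hT]; ring, hp, poch_succ j a, ← ih x (a - 1),
      Finset.mul_sum]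
    refine Finset.sum_congr rfl fun l hl => ?_
    have hl := Finset.mem_range.1 hl
    simp only [hT]
    rw [show j + 1 - l = (j - l) + 1 by omega, poch_succ, show j + 1 - (l + 1) = j - l by omega,
      descPochhammer_succ_eval, pow_succ,
      show x + a - ((l + 1 : ℕ) : ℤ) = x + a - (l : ℤ) - 1 by push_cast; ring,
      show x + (a - 1) - (l : ℤ) = x + a - (l : ℤ) - 1 by ring]
    ring

/-- The combinatorial core of the symmetry identity. -/
lemma core (i j m a : ℕ) : ∑ l ∈ range (j + 1), (j.choose l : ℤ) * (-1) ^ l *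
    ((descPochhammer ℤ (j - l)).eval ((m : ℤ) + a - i - l) * (m.descFactorial (i + l) : ℤ)) =
      (m.descFactorial i : ℤ) * (a.descFactorial j : ℤ) := by
  rcases lt_or_ge m i with h | h
  · rw [Nat.descFactorial_eq_zero_iff_lt.2 h, Nat.cast_zero, zero_mul]
    refine Finset.sum_eq_zero fun l _ => ?_
    rw [Nat.descFactorial_eq_zero_iff_lt.2 (by omega : m < i + l)]
    simp
  · rw [← descPochhammer_eval_eq_descFactorial ℤ a j, ← poch_conv j ((m : ℤ) - i) a,
      Finset.mul_sum]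
    refine Finset.sum_congr rfl fun l _ => ?_
    rw [← Nat.descFactorial_mul_descFactorial (n := m) (Nat.le_add_right i l), Nat.add_sub_cancel_left,
      Nat.cast_mul, ← descPochhammer_eval_eq_descFactorial ℤ (m - i) l, Nat.cast_sub h,
      show (m : ℤ) + a - i - l = (m : ℤ) - i + a - l by ring]
    ring

variable {f : ℂ → ℂ} {R : ℝ} (hf : DifferentiableOn ℂ f (ball 0 R)) (hinj : InjOn f (ball 0 R))
  (hR : 1 < R)
include hf hinj hR

lemma coef_Hfun (i m : ℕ) : coef (Hfun f i) m = (m.descFactorial i : ℂ) * coef (hfun f) m := by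
  have h0 : (0 : ℂ) ∈ ball (0 : ℂ) R := mem_ball_self (by linarith)
  rw [show Hfun f i = fun z => z ^ i * iteratedDeriv i (hfun f) z from rfl,
    coef_pow_mul (analyticAt_iterH hf hinj i h0)]
  split_ifs with h
  · rw [coef_iteratedDeriv, Nat.sub_add_cancel h]
  · rw [Nat.descFactorial_eq_zero_iff_lt.2 (by omega)]
    simp

lemma u_eq (i p q : ℕ) : u f i p q =
    ∑ m ∈ range (p + 1), (m.descFactorial i : ℂ) * coef (hfun f) m * v f (p - m) q := by
  have h0 : (0 : ℂ) ∈ ball (0 : ℂ) R := mem_ball_self (by linarith)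
  rw [u, coef_mul ((differentiableOn_Hfun hf hinj i).analyticAt (isOpen_ball.mem_nhds h0))
    ((differentiableOn_b hf hinj (by linarith) q).analyticAt (isOpen_ball.mem_nhds h0))]
  exact Finset.sum_congr rfl fun m _ => by rw [coef_Hfun hf hinj hR, v]

lemma row_sum (i N : ℕ) (g : ℕ → ℂ) : ∑ q ∈ range (N + 1), g q * u f i (N - q) q =
    ∑ m ∈ range (N + 1), ∑ q ∈ range (N - m + 1),
      g q * ((m.descFactorial i : ℂ) * coef (hfun f) m * v f (N - m - q) q) := by
  simp only [u_eq hf hinj hR, Finset.mul_sum]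
  rw [Finset.sum_comm' (s' := fun m => range (N - m + 1)) (t' := range (N + 1))
    (fun q m => by simp only [Finset.mem_range]; omega)]
  refine Finset.sum_congr rfl fun m hm => Finset.sum_congr rfl fun q hq => ?_
  rw [show N - q - m = N - m - q by omega]

lemma jets_eq (i j N : ℕ) (hj : j ≤ 6) :
    ∑ q ∈ range (N + 1), (q.descFactorial j : ℂ) * u f i (N - q) q =
      (j.factorial : ℂ) * coef (fun z => z ^ (j + 2) * Hfun f i z * U0 f j z) (N + 2) := by
  have h0 : (0 : ℂ) ∈ ball (0 : ℂ) R := mem_ball_self (by linarith)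
  have hH := (differentiableOn_Hfun hf hinj i).analyticAt (isOpen_ball.mem_nhds h0)
  obtain ⟨hD, hDc⟩ := coef_diag hf hinj hR hj
  rw [← coef_const_mul, show (fun z => (j.factorial : ℂ) * (z ^ (j + 2) * Hfun f i z * U0 f j z)) =
    fun z => z ^ 2 * (Hfun f i z * (z ^ j * ((j.factorial : ℂ) * U0 f j z))) by
      funext z; ring,
    coef_pow_mul (hH.fun_mul hD), if_pos (by omega), Nat.add_sub_cancel, coef_mul hH hD,
    row_sum hf hinj hR]
  refine Finset.sum_congr rfl fun m _ => ?_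
  rw [hDc, coef_Hfun hf hinj hR, Finset.mul_sum]
  exact Finset.sum_congr rfl fun q _ => by ring

lemma symm_eq (i j N : ℕ) :
    ∑ q ∈ range (N + 1), (q.descFactorial j : ℂ) * u f i (N - q) q =
      ∑ l ∈ range (j + 1), (j.choose l : ℂ) * (-1) ^ l *
        ∑ q ∈ range (N + 1),
          (((descPochhammer ℤ (j - l)).eval (((N - q : ℕ) : ℤ) - (i : ℤ) - (l : ℤ)) : ℤ) : ℂ) *
            u f (i + l) (N - q) q := by
  simp only [row_sum hf hinj hR, Finset.mul_sum]
  rw [Finset.sum_comm (s := range (j + 1))]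
  refine Finset.sum_congr rfl fun m hm => ?_
  have hm := Finset.mem_range.1 hm
  rw [Finset.sum_comm (s := range (j + 1))]
  trans ∑ q ∈ range (N - m + 1),
      (((N - m - q).descFactorial j : ℕ) : ℂ) *
        ((m.descFactorial i : ℂ) * coef (hfun f) m * v f (N - m - q) q)
  · rw [← Finset.sum_range_reflect _ (N - m + 1)]
    refine Finset.sum_congr rfl fun q hq => ?_
    have hq := Finset.mem_range.1 hq
    rw [show N - m + 1 - 1 - q = N - m - q by omega, show N - m - (N - m - q) = q by omega,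
      v_symm hf hinj hR q]
  · refine Finset.sum_congr rfl fun q hq => ?_
    have hq := Finset.mem_range.1 hq
    have hc := congrArg (Int.cast : ℤ → ℂ) (core i j m (N - m - q))
    simp only [Int.cast_sum, Int.cast_mul, Int.cast_natCast, Int.cast_pow, Int.cast_neg, Int.cast_one]
      at hc
    rw [show ((N - q : ℕ) : ℤ) = (m : ℤ) + ((N - m - q : ℕ) : ℤ) by omega]
    rw [show (((N - m - q).descFactorial j : ℕ) : ℂ) *
        ((m.descFactorial i : ℂ) * coef (hfun f) m * v f (N - m - q) q) =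
        ((m.descFactorial i : ℂ) * ((N - m - q).descFactorial j : ℂ)) *
          (coef (hfun f) m * v f (N - m - q) q) by ring, ← hc, Finset.sum_mul]
    exact Finset.sum_congr rfl fun l _ => by ring

lemma lie_eq (p q : ℕ) :
    ((p : ℂ) + 1) * u f 0 (p + 1) q + ((q : ℂ) + 1) * u f 0 (q + 1) p =
      -(((p : ℂ) + 1) * ((q : ℂ) + 1)) * coef (Hfun f 0) (p + q + 3) := by
  have h0 : (0 : ℂ) ∈ ball (0 : ℂ) R := mem_ball_self (by linarith)
  have hH0 : Hfun f 0 = hfun f := by funext z; simp [Hfun, hfun]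
  set h := hfun f with hh
  set c := fun m => coef h m with hc
  have hha : AnalyticAt ℂ h 0 := analyticAt_hfun hf hinj h0
  have hb : ∀ n, AnalyticAt ℂ (b f n) 0 := fun n =>
    (differentiableOn_b hf hinj (by linarith) n).analyticAt (isOpen_ball.mem_nhds h0)
  -- the identity at points off the origin
  have key : ∀ᶠ z in 𝓝[≠] (0 : ℂ), z ^ (q + 3) * deriv (fun x => h x * b f q x) z =
      -((q : ℂ) + 1) * (z ^ (q + 3) * ∑ m ∈ range (q + 2), c m * b f (q + 1 - m) z) -
        (((q : ℂ) + 1) * (z * deriv h z) +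
          ∑ l ∈ range (q + 1), ((l : ℂ) + 1) * c (l + 1) * (((q - l : ℕ) : ℂ) + 1) * z ^ (l + 1)) +
        (((q : ℂ) + 2) * ((q : ℂ) + 1) * h z -
          ∑ l ∈ range (q + 1), c l * (((q - l : ℕ) : ℂ) + 2) * (((q - l : ℕ) : ℂ) + 1) * z ^ l) := by
    filter_upwards [self_mem_nhdsWithin, nhdsWithin_le_nhds (ball_mem_nhds (0 : ℂ) one_pos)]
      with z hz0 hz1
    have hz0 : z ≠ 0 := hz0
    rw [mem_ball_zero_iff] at hz1
    have hzn : 0 < ‖z‖ := norm_pos_iff.2 hz0
    set r := ‖z‖ / 2 with hr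
    have hzR : z ∈ ball (0 : ℂ) R := mem_ball_zero_iff.2 (by linarith)
    have hsub : closedBall (0 : ℂ) r ⊆ ball 0 R := closedBall_subset_ball (by linarith)
    have hne : ∀ w ∈ closedBall (0 : ℂ) r, w ≠ z := fun w hw e => by
      rw [mem_closedBall_zero_iff, e] at hw; linarith
    have hfd : ∀ w ∈ ball (0 : ℂ) R, DifferentiableAt ℂ f w := fun w hw =>
      (analyticAt_f hf hw).differentiableAt
    have hdU : DifferentiableOn ℂ (dU f z) (closedBall 0 r) := by
      intro w hw
      have h1 : f w - f z ≠ 0 := sub_ne_zero.2 fun e => hne w hw (hinj (hsub hw) hzR e)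
      have h2 : w - z ≠ 0 := sub_ne_zero.2 (hne w hw)
      have h3 := (analyticAt_f hf (hsub hw)).deriv.differentiableAt
      have h4 := hfd w (hsub hw)
      refine DifferentiableAt.differentiableWithinAt ?_
      unfold dU
      exact (((h3.const_mul _).div ((h4.sub_const _).pow 2) (pow_ne_zero _ h1)).add
        ((h3.const_mul _).div ((h4.sub_const _).pow 3) (pow_ne_zero _ h1))).sub
        ((differentiableAt_const _).div ((differentiableAt_id.sub_const _).pow 3) (pow_ne_zero _ h2))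
    have hdb := hasDerivAt_b hf hinj (r := r) (by linarith) (by linarith) hzR (by linarith) q
    rw [← coef_eq_circle (by linarith : 0 < r) hdU q] at hdb
    have hdh := (analyticAt_hfun hf hinj hzR).differentiableAt.hasDerivAt
    have hUa : AnalyticAt ℂ (Ufun f z) 0 :=
      (differentiableOn_U hf hinj hzR).analyticAt (isOpen_ball.mem_nhds h0)
    have hnhd : closedBall (0 : ℂ) r ∈ 𝓝 (0 : ℂ) := closedBall_mem_nhds _ (by linarith)
    have hdUa : AnalyticAt ℂ (dU f z) 0 := hdU.analyticAt hnhd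
    have hhU : AnalyticAt ℂ (fun w => h w * Ufun f z w) 0 := hha.fun_mul hUa
    -- pointwise in `w`
    have heq : (fun w => deriv h z * Ufun f z w + h z * dU f z w) =ᶠ[𝓝 0] fun w =>
        (-deriv (fun x => h x * Ufun f z x) w) -
          ((deriv h z * ((z - w) ^ 2)⁻¹ + deriv h w * ((z - w) ^ 2)⁻¹) -
            (2 * h z * ((z - w) ^ 3)⁻¹ - 2 * (h w * ((z - w) ^ 3)⁻¹))) := by
      filter_upwards [interior_mem_nhds.2 hnhd] with w hw
      have hw' := interior_subset hw
      have hwR := hsub hw'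
      have h2 : w - z ≠ 0 := sub_ne_zero.2 (hne w hw')
      have h2' : z - w ≠ 0 := sub_ne_zero.2 (Ne.symm (hne w hw'))
      have h1 : f w - f z ≠ 0 := sub_ne_zero.2 fun e => hne w hw' (hinj hwR hzR e)
      have hdw := (analyticAt_f hf hwR).deriv.differentiableAt.hasDerivAt
      have dh : ∀ x ∈ ball (0 : ℂ) R,
          HasDerivAt h (-deriv (deriv f) x / deriv f x ^ 2) x := fun x hx =>
        ((analyticAt_f hf hx).deriv.differentiableAt.hasDerivAt.fun_inv (dne hf hinj hx))
      have hU' : HasDerivAt (Ufun f z) (deriv f z * deriv (deriv f) w / (f w - f z) ^ 2 -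
          2 * deriv f z * deriv f w ^ 2 / (f w - f z) ^ 3 + 2 / (w - z) ^ 3) w := by
        have hd := (((hdw.const_mul (deriv f z)).fun_div
          (((hfd w hwR).hasDerivAt.sub_const (f z)).fun_pow 2) (pow_ne_zero _ h1)).fun_sub
          ((hasDerivAt_const w (1 : ℂ)).fun_div (((hasDerivAt_id' w).sub_const z).fun_pow 2)
            (pow_ne_zero _ h2)))
        refine (hd.congr_of_eventuallyEq ?_).congr_deriv ?_
        · filter_upwards [isOpen_ball.mem_nhds hwR, isOpen_ne.mem_nhds (hne w hw')] with x hx hxz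
          exact Ufun_eq hf hinj hzR hx hxz
        · push_cast
          field_simp
          ring
      rw [((dh w hwR).fun_mul hU').deriv, (dh w hwR).deriv, (dh z hzR).deriv,
        Ufun_eq hf hinj hzR hwR (hne w hw'), dU, ← neg_sub w z]
      simp only [hh, hfun]
      have := dne hf hinj hzR
      have := dne hf hinj hwR
      field_simp
      ring
    have hs2 : AnalyticAt ℂ (fun w : ℂ => ((z - w) ^ 2)⁻¹) 0 := by fun_prop (disch := simpa using hz0)
    have hs3 : AnalyticAt ℂ (fun w : ℂ => ((z - w) ^ 3)⁻¹) 0 := by fun_prop (disch := simpa using hz0)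
    obtain ⟨-, c2, c3⟩ := coef_inv_sub hz0
    have E := coef_congr heq q
    rw [coef_add (analyticAt_const.fun_mul hUa) (analyticAt_const.fun_mul hdUa), coef_const_mul,
      coef_const_mul,
      coef_sub hhU.deriv.fun_neg (((analyticAt_const.fun_mul hs2).fun_add (hha.deriv.fun_mul hs2)).fun_sub
        ((analyticAt_const.fun_mul hs3).fun_sub (analyticAt_const.fun_mul (hha.fun_mul hs3)))),
      coef_neg, coef_deriv,
      coef_sub ((analyticAt_const.fun_mul hs2).fun_add (hha.deriv.fun_mul hs2))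
        ((analyticAt_const.fun_mul hs3).fun_sub (analyticAt_const.fun_mul (hha.fun_mul hs3))),
      coef_add (analyticAt_const.fun_mul hs2) (hha.deriv.fun_mul hs2),
      coef_sub (analyticAt_const.fun_mul hs3) (analyticAt_const.fun_mul (hha.fun_mul hs3)),
      coef_const_mul, coef_const_mul, coef_const_mul, coef_mul hha hUa, coef_mul hha.deriv hs2,
      coef_mul hha hs3] at E
    simp only [c2, c3, coef_deriv] at E
    rw [(hdh.fun_mul hdb).deriv]
    simp only [b] at *
    rw [E]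
    have A1 : z ^ (q + 3) * ∑ l ∈ range (q + 1), ((l : ℂ) + 1) * c (l + 1) *
          ((((q - l : ℕ) : ℂ) + 1) / z ^ (q - l + 2)) =
        ∑ l ∈ range (q + 1), ((l : ℂ) + 1) * c (l + 1) * (((q - l : ℕ) : ℂ) + 1) * z ^ (l + 1) := by
      rw [Finset.mul_sum]
      refine Finset.sum_congr rfl fun l hl => ?_
      have hl := Finset.mem_range.1 hl
      rw [show q + 3 = q - l + 2 + (l + 1) by omega, pow_add]
      field_simp
    have A2 : z ^ (q + 3) * (2 * ∑ l ∈ range (q + 1), c l *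
          ((((q - l : ℕ) : ℂ) + 2) * (((q - l : ℕ) : ℂ) + 1) / 2 / z ^ (q - l + 3))) =
        ∑ l ∈ range (q + 1), c l * (((q - l : ℕ) : ℂ) + 2) * (((q - l : ℕ) : ℂ) + 1) * z ^ l := by
      rw [Finset.mul_sum, Finset.mul_sum]
      refine Finset.sum_congr rfl fun l hl => ?_
      have hl := Finset.mem_range.1 hl
      rw [show q + 3 = q - l + 3 + l by omega, pow_add]
      field_simp
    rw [← A1, ← A2]
    simp only [hc, show q + 3 = (q + 2) + 1 from rfl, pow_succ _ (q + 2)]
    field_simp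
    ring
  -- compare the coefficients
  set n := p + q + 3 with hn
  have hzh : AnalyticAt ℂ (fun z : ℂ => z * deriv h z) 0 := analyticAt_id.fun_mul hha.deriv
  have hsum : AnalyticAt ℂ (fun z : ℂ => ∑ m ∈ range (q + 2), c m * b f (q + 1 - m) z) 0 :=
    Finset.analyticAt_fun_sum _ fun m _ => analyticAt_const.fun_mul (hb _)
  have hp1 : ∀ e : ℕ → ℂ, AnalyticAt ℂ (fun z : ℂ => ∑ l ∈ range (q + 1), e l * z ^ (l + 1)) 0 :=
    fun e => Finset.analyticAt_fun_sum _ fun l _ => analyticAt_const.fun_mul (analyticAt_id.pow _)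
  have hp2 : ∀ e : ℕ → ℂ, AnalyticAt ℂ (fun z : ℂ => ∑ l ∈ range (q + 1), e l * z ^ l) 0 :=
    fun e => Finset.analyticAt_fun_sum _ fun l _ => analyticAt_const.fun_mul (analyticAt_id.pow _)
  have hL : AnalyticAt ℂ (fun z => z ^ (q + 3) * deriv (fun x => h x * b f q x) z) 0 :=
    (analyticAt_id.pow _).fun_mul (hha.fun_mul (hb q)).deriv
  have hk : ∀ a : ℂ, AnalyticAt ℂ (fun _ : ℂ => a) 0 := fun a => analyticAt_const
  have hpw : AnalyticAt ℂ (fun z : ℂ => z ^ (q + 3)) 0 := analyticAt_id.pow _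
  have hR1 := (hk (-((q : ℂ) + 1))).fun_mul (hpw.fun_mul hsum)
  have hR2 := ((hk ((q : ℂ) + 1)).fun_mul hzh).fun_add
    (hp1 fun l => ((l : ℂ) + 1) * c (l + 1) * (((q - l : ℕ) : ℂ) + 1))
  have hR3 := ((hk (((q : ℂ) + 2) * ((q : ℂ) + 1))).fun_mul hha).fun_sub
    (hp2 fun l => c l * (((q - l : ℕ) : ℂ) + 2) * (((q - l : ℕ) : ℂ) + 1))
  have hev := (AnalyticAt.frequently_eq_iff_eventually_eq hL
    ((hR1.fun_sub hR2).fun_add hR3)).1 key.frequently
  have E := coef_congr hev n
  rw [coef_add (hR1.fun_sub hR2) hR3, coef_sub hR1 hR2,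
    coef_add (analyticAt_const.fun_mul hzh) (hp1 _), coef_sub (analyticAt_const.fun_mul hha) (hp2 _),
    coef_const_mul, coef_const_mul, coef_const_mul, coef_pow_mul (hha.fun_mul (hb q)).deriv,
    coef_pow_mul hsum, if_pos (by omega), if_pos (by omega), show n - (q + 3) = p by omega,
    coef_deriv] at E
  have z1 : ∀ e : ℕ → ℂ, coef (fun z : ℂ => ∑ l ∈ range (q + 1), e l * z ^ (l + 1)) n = 0 := by
    intro e
    rw [coef, iteratedDeriv_fun_sum (fun l _ =>
      (analyticAt_const.fun_mul (analyticAt_id.pow _)).contDiffAt), Finset.sum_div]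
    refine Finset.sum_eq_zero fun l hl => ?_
    have := coef_const_mul (e l) (fun z : ℂ => z ^ (l + 1)) n
    rw [coef_pow, if_neg (by have := Finset.mem_range.1 hl; omega), mul_zero, coef] at this
    exact this
  have z2 : ∀ e : ℕ → ℂ, coef (fun z : ℂ => ∑ l ∈ range (q + 1), e l * z ^ l) n = 0 := by
    intro e
    rw [coef, iteratedDeriv_fun_sum (fun l _ =>
      (analyticAt_const.fun_mul (analyticAt_id.pow _)).contDiffAt), Finset.sum_div]
    refine Finset.sum_eq_zero fun l hl => ?_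
    have := coef_const_mul (e l) (fun z : ℂ => z ^ l) n
    rw [coef_pow, if_neg (by have := Finset.mem_range.1 hl; omega), mul_zero, coef] at this
    exact this
  have z3 : coef (fun z : ℂ => z * deriv h z) n = (n : ℂ) * c n := by
    have := coef_pow_mul hha.deriv 1 n
    simp only [pow_one] at this
    rw [this, if_pos (by omega), coef_deriv, Nat.sub_add_cancel (by omega),
      Nat.cast_sub (by omega : 1 ≤ n)]
    simp [hc]
  have z4 : coef (fun z : ℂ => ∑ m ∈ range (q + 2), c m * b f (q + 1 - m) z) p = u f 0 (q + 1) p := by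
    rw [coef, iteratedDeriv_fun_sum (fun m _ => (analyticAt_const.fun_mul (hb _)).contDiffAt),
      Finset.sum_div, u_eq hf hinj hR]
    refine Finset.sum_congr rfl fun m _ => ?_
    have := coef_const_mul (c m) (b f (q + 1 - m)) p
    rw [coef] at this
    rw [this, Nat.descFactorial_zero, Nat.cast_one, one_mul, v_symm hf hinj hR (q + 1 - m), v]
  rw [z1, z2, z3, z4] at E
  simp only [u, hH0] at E ⊢
  simp only [hc] at E
  rw [show (n : ℂ) = p + q + 3 by rw [hn]; push_cast; ring] at E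
  linear_combination E

lemma area_eq (hA : AreaStatement) (hE : ExpansionStatement) (i : ℕ) (g : ℝ) (hg : 2 ≤ g) (N : ℕ) :
    ∑ p ∈ range N, ∑ q ∈ range N, ‖u f i p q‖ ^ 2 / ((q : ℝ) + 1) * nu g p ≤
      ∑' m, ‖coef (Hfun f i) m‖ ^ 2 * nu (g - 2) m := by
  have hpar : ∀ (P : ℂ → ℂ) (s : ℝ), 0 ≤ s → DifferentiableOn ℂ P (ball 0 R) →
      Summable (fun m => ‖coef P m‖ ^ 2 * nu s m) ∧
      ∫ z in ball (0 : ℂ) 1, (1 - ‖z‖ ^ 2) ^ s * ‖P z‖ ^ 2 =
        π * ∑' m, ‖coef P m‖ ^ 2 * nu s m := by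
    intro P s hs hP
    obtain ⟨h1, h2⟩ := hE P P R s hR hs hP hP
    have e1 : (fun m => coef P m * conj (coef P m) * (nu s m : ℂ)) =
        fun m => ((‖coef P m‖ ^ 2 * nu s m : ℝ) : ℂ) := by
      funext m; rw [Complex.mul_conj']; push_cast; ring
    rw [e1] at h1 h2
    refine ⟨Complex.summable_ofReal.1 h1, Complex.ofReal_injective ?_⟩
    rw [← integral_complex_ofReal, Complex.ofReal_mul, Complex.ofReal_tsum, ← h2]
    refine setIntegral_congr_fun measurableSet_ball fun z _ => ?_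
    rw [Complex.mul_conj']; push_cast; ring
  have hcont : ∀ (P : ℂ → ℂ) (s : ℝ), 0 ≤ s → DifferentiableOn ℂ P (ball 0 R) →
      IntegrableOn (fun z => (1 - ‖z‖ ^ 2) ^ s * ‖P z‖ ^ 2) (ball (0 : ℂ) 1) := by
    intro P s hs hP
    refine (ContinuousOn.integrableOn_compact (isCompact_closedBall (0 : ℂ) 1) ?_).mono_set
      ball_subset_closedBall
    exact ((Continuous.continuousOn (by fun_prop)).rpow_const fun z _ => Or.inr hs).mul
      ((hP.continuousOn.mono (closedBall_subset_ball hR)).norm.pow 2)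
  have hH := differentiableOn_Hfun hf hinj i
  have hP : ∀ q, DifferentiableOn ℂ (fun z => Hfun f i z * b f q z) (ball 0 R) := fun q =>
    hH.mul (differentiableOn_b hf hinj (by linarith) q)
  have hg0 : (0 : ℝ) ≤ g := by linarith
  have hnu : ∀ p, 0 ≤ nu g p := fun p => by
    refine intervalIntegral.integral_nonneg zero_le_one fun t ht => ?_
    exact mul_nonneg (pow_nonneg ht.1 _) (Real.rpow_nonneg (by linarith [ht.2]) _)
  have key : π * ∑ q ∈ range N, (∑' m, ‖u f i m q‖ ^ 2 * nu g m) / ((q : ℝ) + 1) ≤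
      π * ∑' m, ‖coef (Hfun f i) m‖ ^ 2 * nu (g - 2) m := by
    rw [← (hpar _ _ (by linarith) hH).2, Finset.mul_sum]
    have e : ∀ q ∈ range N, π * ((∑' m, ‖u f i m q‖ ^ 2 * nu g m) / ((q : ℝ) + 1)) =
        ∫ z in ball (0 : ℂ) 1, (1 - ‖z‖ ^ 2) ^ g * ‖Hfun f i z * b f q z‖ ^ 2 / ((q : ℝ) + 1) := by
      intro q _
      rw [integral_div, (hpar _ _ hg0 (hP q)).2, mul_div_assoc]
      rfl
    rw [Finset.sum_congr rfl e, ← integral_finsetSum _ fun q _ => (hcont _ _ hg0 (hP q)).div_const _]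
    refine setIntegral_mono_on (integrable_finsetSum _ fun q _ => (hcont _ _ hg0 (hP q)).div_const _)
      (hcont _ _ (by linarith) hH) measurableSet_ball fun z hz => ?_
    have hz1 : 0 < 1 - ‖z‖ ^ 2 := by
      rw [mem_ball_zero_iff] at hz; nlinarith [norm_nonneg z]
    have hT := mul_le_mul_of_nonneg_left (hA f R hR hf hinj z hz N)
      (mul_nonneg (Real.rpow_nonneg hz1.le g) (sq_nonneg ‖Hfun f i z‖))
    refine le_trans (le_of_eq ?_) (hT.trans (le_of_eq ?_))
    · rw [Finset.mul_sum]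
      refine Finset.sum_congr rfl fun q _ => ?_
      rw [norm_mul, b]
      ring
    · rw [show g = (g - 2) + 2 by ring, Real.rpow_add hz1, show (g - 2) + 2 - 2 = g - 2 by ring,
        Real.rpow_two]
      field_simp
  refine le_trans ?_ (le_of_mul_le_mul_left key Real.pi_pos)
  rw [Finset.sum_comm]
  refine Finset.sum_le_sum fun q _ => ?_
  have hsum := (hpar _ _ hg0 (hP q)).1
  calc ∑ p ∈ range N, ‖u f i p q‖ ^ 2 / ((q : ℝ) + 1) * nu g p
      = (∑ p ∈ range N, ‖u f i p q‖ ^ 2 * nu g p) / ((q : ℝ) + 1) := by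
        rw [Finset.sum_div]; exact Finset.sum_congr rfl fun p _ => by ring
    _ ≤ _ := div_le_div_of_nonneg_right
        (hsum.sum_le_tsum _ fun p _ => mul_nonneg (sq_nonneg _) (hnu p)) (by positivity)

lemma rows_of (hA : AreaStatement) (hE : ExpansionStatement) : Rows f (u f) where
  supp i p q hp := by
    rw [u_eq hf hinj hR]
    refine Finset.sum_eq_zero fun m hm => ?_
    rw [Nat.descFactorial_eq_zero_iff_lt.2 (by have := Finset.mem_range.1 hm; omega)]
    simp
  area i g hg N := area_eq hf hinj hR hA hE i g hg N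
  lie := lie_eq hf hinj hR
  jets i j N hj := jets_eq hf hinj hR i j N hj
  symm := symm_eq hf hinj hR

end

end

end Vale.Agent.P142.Sharp.RowsProof

namespace Vale.Agent.P142.Sharp

/-- T1. -/
theorem rows : AreaStatement → RowsStatement := fun hA _ _ hR hf hinj =>
  ⟨_, RowsProof.rows_of hf hinj hR hA expansion⟩

/-- T1 with T0 discharged. -/
theorem rows_all : RowsStatement := rows area_all

end Vale.Agent.P142.Sharp
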