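import Mathlib
import Vale.Agent.P142.Moments
import Vale.Agent.P142.Sharp.Endgame
import Vale.Agent.P142.Sharp.Rows

/-!
From inequalities in each degree to the coefficient bound: positivity of squares and of the area
tail in coefficients, the derivation rule, and the dilation rules.
-/

namespace Vale.Agent.P142.Sharp.Glue

open Complex Metric Set Filter Topology MeasureTheory ComplexConjugate Finset
open scoped Real

noncomputable section

/-- The derivation in each degree. -/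
lemma coef_derivation {φ : ℂ → ℂ} (hφ : AnalyticAt ℂ φ 0) (n m : ℕ) :
    coef (fun z => z ^ (n + 1) * deriv φ z) m =
      ((m : ℂ) - (n : ℂ)) * coef (fun z => z ^ n * φ z) m := by
  rw [RowsProof.coef_pow_mul hφ.deriv, RowsProof.coef_pow_mul hφ]
  rcases lt_trichotomy m n with h | rfl | h
  · rw [if_neg (by omega), if_neg (by omega), mul_zero]
  · rw [if_neg (by omega), sub_self, zero_mul]
  · rw [if_pos (by omega), if_pos h.le, RowsProof.coef_deriv, show m - (n + 1) + 1 = m - n by omega]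
    congr 1
    rw [← Nat.cast_sub h.le, show m - n = (m - (n + 1)) + 1 by omega]
    push_cast
    ring

/-- Coefficients of a dilated function. -/
lemma coef_dilate {P : ℂ → ℂ} (hP : DifferentiableOn ℂ P (ball 0 1)) (σ : ℂ) (m : ℕ) :
    coef (fun w => P (σ * w)) m = σ ^ m * coef P m := by
  refine (RowsProof.coef_of_hasSum (g := fun w => P (σ * w)) (c := fun n => σ ^ n * coef P n) ?_).2 m
  have hc : Tendsto (fun w : ℂ => σ * w) (𝓝 0) (𝓝 0) := by
    simpa using (continuous_const_mul σ).tendsto 0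
  filter_upwards [hc.eventually (ball_mem_nhds (0 : ℂ) one_pos)] with w hw
  exact (RowsProof.hasSum_coef hP hw).congr_fun fun n => by rw [mul_pow]; ring

lemma iteratedDeriv_dilate {G : ℂ → ℂ} (hG : AnalyticOnNhd ℂ G (ball 0 1)) (σ : ℂ) (j : ℕ) :
    ∀ w : ℂ, σ * w ∈ ball (0 : ℂ) 1 →
      iteratedDeriv j (fun w => G (σ * w)) w = σ ^ j * iteratedDeriv j G (σ * w) := by
  induction j with
  | zero => intro w _; simp
  | succ j ih =>
    intro w hw
    have hev : iteratedDeriv j (fun w => G (σ * w)) =ᶠ[𝓝 w]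
        fun w => σ ^ j * iteratedDeriv j G (σ * w) := by
      filter_upwards [((continuous_const_mul σ).tendsto w).eventually (isOpen_ball.mem_nhds hw)]
        with x hx using ih x hx
    rw [iteratedDeriv_succ, iteratedDeriv_succ, hev.deriv_eq]
    have ha : DifferentiableAt ℂ (iteratedDeriv j G) (σ * w) := by
      rw [iteratedDeriv_eq_iterate]
      exact ((hG _ hw).iterated_deriv j).differentiableAt
    refine ((ha.hasDerivAt.comp w ((hasDerivAt_id' w).const_mul σ)).const_mul (σ ^ j)).deriv.trans ?_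
    ring

section

variable {f : ℂ → ℂ} {σ : ℝ}

/-- Dilation multiplies a jet by the power of the dilation given by its weight. -/
lemma jet_dilate (hf : DifferentiableOn ℂ f (ball 0 1)) (hinj : InjOn f (ball 0 1)) (h0 : 0 < σ)
    (h1 : σ < 1) {w : ℂ} (hw : w ∈ ball (0 : ℂ) σ⁻¹) (k : ℕ) :
    Moments.jet (fun w => f ((σ : ℂ) * w)) w k =
      (σ : ℂ) ^ (if k = 0 then 1 else k + 1) * Moments.jet f ((σ : ℂ) * w) k := by
  obtain ⟨-, -, -, hmap⟩ := Endgame.dilate hf hinj h0 h1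
  set g : ℂ → ℂ := fun w => f ((σ : ℂ) * w) with hg
  have hσ : (σ : ℂ) ≠ 0 := by exact_mod_cast h0.ne'
  have hU : IsOpen (ball (0 : ℂ) σ⁻¹) := isOpen_ball
  have hL : ∀ x ∈ ball (0 : ℂ) σ⁻¹, Jets.Lf g x = (σ : ℂ) * Jets.Lf f ((σ : ℂ) * x) := by
    intro x hx
    have hev : deriv g =ᶠ[𝓝 x] fun y => (σ : ℂ) * deriv f ((σ : ℂ) * y) := by
      filter_upwards [hU.mem_nhds hx] with y hy using (hmap y hy).2
    have hd2 : deriv (deriv g) x = (σ : ℂ) * (deriv (deriv f) ((σ : ℂ) * x) * (σ : ℂ)) := by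
      rw [hev.deriv_eq]
      refine ((((Jets.analyticAt_of hf (hmap x hx).1).deriv.differentiableAt.hasDerivAt).comp x
        ((hasDerivAt_id' x).const_mul (σ : ℂ))).const_mul (σ : ℂ)).deriv.trans ?_
      ring
    rw [Jets.Lf, Jets.Lf, hd2, (hmap x hx).2]
    field_simp
  have hs : ∀ x ∈ ball (0 : ℂ) σ⁻¹, Jets.sig g x = (σ : ℂ) ^ 2 * Jets.sig f ((σ : ℂ) * x) := by
    intro x hx
    have hev : Jets.Lf g =ᶠ[𝓝 x] fun y => (σ : ℂ) * Jets.Lf f ((σ : ℂ) * y) := by
      filter_upwards [hU.mem_nhds hx] with y hy using hL y hy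
    have hd : deriv (Jets.Lf g) x = (σ : ℂ) * (deriv (Jets.Lf f) ((σ : ℂ) * x) * (σ : ℂ)) := by
      rw [hev.deriv_eq]
      refine ((((Jets.analyticAt_Lf hf hinj (hmap x hx).1).differentiableAt.hasDerivAt).comp x
        ((hasDerivAt_id' x).const_mul (σ : ℂ))).const_mul (σ : ℂ)).deriv.trans ?_
      ring
    rw [Jets.sig, Jets.sig, hd, hL x hx]
    ring
  cases k with
  | zero =>
    simp only [Moments.jet, Jets.eta0, hL w hw, if_pos]
    ring
  | succ j =>
    simp only [Moments.jet, Nat.succ_ne_zero, if_false]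
    have hev : Jets.sig g =ᶠ[𝓝 w] fun x => (σ : ℂ) ^ 2 * Jets.sig f ((σ : ℂ) * x) := by
      filter_upwards [hU.mem_nhds hw] with y hy using hs y hy
    rw [hev.iteratedDeriv_eq, iteratedDeriv_const_mul_field,
      iteratedDeriv_dilate (fun x hx => Jets.analyticAt_sig hf hinj hx) _ j w (hmap w hw).1]
    ring

/-- Coefficients of `1 / f'` after a dilation. -/
lemma coef_Hfun_zero_dilate (hf : DifferentiableOn ℂ f (ball 0 1)) (hinj : InjOn f (ball 0 1))
    (h0 : 0 < σ) (h1 : σ < 1) (m : ℕ) :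
    coef (Hfun (fun w => f ((σ : ℂ) * w)) 0) m = (σ : ℂ)⁻¹ * (σ : ℂ) ^ m * coef (Hfun f 0) m := by
  obtain ⟨hR, -, -, hmap⟩ := Endgame.dilate hf hinj h0 h1
  have hd : DifferentiableOn ℂ (Hfun f 0) (ball 0 1) :=
    RowsProof.differentiableOn_Hfun hf hinj 0
  have hev : Hfun (fun w => f ((σ : ℂ) * w)) 0 =ᶠ[𝓝 0]
      fun w => (σ : ℂ)⁻¹ * Hfun f 0 ((σ : ℂ) * w) := by
    filter_upwards [ball_mem_nhds (0 : ℂ) (zero_lt_one.trans hR)] with w hw
    simp only [Hfun, pow_zero, one_mul, iteratedDeriv_zero, (hmap w hw).2, mul_inv]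
  rw [RowsProof.coef_congr hev, RowsProof.coef_const_mul, coef_dilate hd]
  ring

end

/-- A pointwise positive form of holomorphic functions gives a positive sum over the degrees. -/
lemma quad_nonneg {κ : Type} (S : Finset κ) (M : κ → ℂ) (P Q : κ → ℂ → ℂ) (g : κ → ℝ) {R : ℝ}
    (hR : 1 < R) (hg : ∀ k ∈ S, 0 ≤ g k) (hP : ∀ k ∈ S, DifferentiableOn ℂ (P k) (ball 0 R))
    (hQ : ∀ k ∈ S, DifferentiableOn ℂ (Q k) (ball 0 R))
    (hpos : ∀ w ∈ ball (0 : ℂ) 1,
      0 ≤ (∑ k ∈ S, M k * (((1 - ‖w‖ ^ 2) ^ g k : ℝ) : ℂ) * (P k w * conj (Q k w))).re) :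
    Summable (fun m => (∑ k ∈ S, M k * (coef (P k) m * conj (coef (Q k) m) * (nu (g k) m : ℂ))).re) ∧
      0 ≤ ∑' m, (∑ k ∈ S, M k * (coef (P k) m * conj (coef (Q k) m) * (nu (g k) m : ℂ))).re := by
  set T : ℕ → ℂ := fun m =>
    ∑ k ∈ S, M k * (coef (P k) m * conj (coef (Q k) m) * (nu (g k) m : ℂ)) with hT
  have hE := fun k hk => expansion (P k) (Q k) R (g k) hR (hg k hk) (hP k hk) (hQ k hk)
  have hTs : HasSum T (∑ k ∈ S, M k *
      ∑' m, coef (P k) m * conj (coef (Q k) m) * (nu (g k) m : ℂ)) :=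
    hasSum_sum fun k hk => (hE k hk).1.hasSum.mul_left (M k)
  refine ⟨(Complex.hasSum_re hTs).summable, ?_⟩
  rw [(Complex.hasSum_re hTs).tsum_eq]
  have hint : ∀ k ∈ S, IntegrableOn
      (fun w => M k * (((1 - ‖w‖ ^ 2) ^ g k : ℝ) : ℂ) * (P k w * conj (Q k w))) (ball 0 1) := by
    intro k hk
    refine ((ContinuousOn.integrableOn_compact (isCompact_closedBall (0 : ℂ) 1) ?_).mono_set
      ball_subset_closedBall)
    exact (continuousOn_const.mul (weight_continuous (hg k hk)).continuousOn).mul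
      (((hP k hk).continuousOn.mono (closedBall_subset_ball hR)).mul
        (Complex.continuous_conj.comp_continuousOn
          ((hQ k hk).continuousOn.mono (closedBall_subset_ball hR))))
  have hsum : Integrable
      (fun w => ∑ k ∈ S, M k * (((1 - ‖w‖ ^ 2) ^ g k : ℝ) : ℂ) * (P k w * conj (Q k w)))
      (volume.restrict (ball 0 1)) := integrable_finsetSum _ hint
  have hval : ∫ w in ball (0 : ℂ) 1,
      ∑ k ∈ S, M k * (((1 - ‖w‖ ^ 2) ^ g k : ℝ) : ℂ) * (P k w * conj (Q k w)) =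
      (π : ℂ) * ∑ k ∈ S, M k * ∑' m, coef (P k) m * conj (coef (Q k) m) * (nu (g k) m : ℂ) := by
    rw [integral_finsetSum _ hint, Finset.mul_sum]
    refine Finset.sum_congr rfl fun k hk => ?_
    simp only [mul_assoc (M k)]
    rw [integral_const_mul, (hE k hk).2]
    ring
  have hre := integral_re (𝕜 := ℂ) hsum
  simp only [RCLike.re_to_complex] at hre
  rw [hval, Complex.re_ofReal_mul] at hre
  refine nonneg_of_mul_nonneg_right (b := Complex.re _) ?_ Real.pi_pos
  rw [← hre]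
  exact setIntegral_nonneg measurableSet_ball hpos

/-- The degree `N` part of the area tail. -/
def tail (u : ℕ → ℕ → ℕ → ℂ) (i : ℕ) (g : ℝ) (N : ℕ) : ℝ :=
  ∑ q ∈ range (N + 1), ‖u i (N - q) q‖ ^ 2 / ((q : ℝ) + 1) * nu g (N - q)

/-- The area theorem, degree by degree. -/
lemma area_degree {f : ℂ → ℂ} {u : ℕ → ℕ → ℕ → ℂ} {R : ℝ} (hu : Rows f u) (hR : 1 < R)
    (hf : DifferentiableOn ℂ f (ball 0 R)) (hinj : InjOn f (ball 0 R)) (i : ℕ) {g : ℝ}
    (hg : 2 ≤ g) :
    Summable (tail u i g) ∧ Summable (fun m => ‖coef (Hfun f i) m‖ ^ 2 * nu (g - 2) m) ∧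
      ∑' N, tail u i g N ≤ ∑' m, ‖coef (Hfun f i) m‖ ^ 2 * nu (g - 2) m := by
  have hnu := fun m => ((nu_facts g (by linarith)).1 m).1.le
  have hterm : ∀ p q : ℕ, 0 ≤ ‖u i p q‖ ^ 2 / ((q : ℝ) + 1) * nu g p := fun p q =>
    mul_nonneg (by positivity) (hnu p)
  have hnn : ∀ N, 0 ≤ tail u i g N := fun N => Finset.sum_nonneg fun q _ => hterm _ _
  have hle : ∀ K, ∑ N ∈ range K, tail u i g N ≤
      ∑' m, ‖coef (Hfun f i) m‖ ^ 2 * nu (g - 2) m := by
    intro K
    refine le_trans ?_ (hu.area i g hg K)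
    rw [← Finset.sum_product']
    simp only [tail]
    rw [Finset.sum_sigma']
    refine le_of_eq_of_le (Finset.sum_image
      (f := fun x : ℕ × ℕ => ‖u i x.1 x.2‖ ^ 2 / ((x.2 : ℝ) + 1) * nu g x.1)
      (g := fun y : (_ : ℕ) × ℕ => (y.1 - y.2, y.2)) fun a ha b hb h => by
        simp only [Finset.coe_sigma, Set.mem_sigma_iff, Finset.mem_coe, Finset.mem_range] at ha hb
        simp only [Prod.mk.injEq] at h
        exact Sigma.ext (by omega) (heq_of_eq h.2)).symm
      (Finset.sum_le_sum_of_subset_of_nonneg ?_ fun x _ _ => hterm _ _)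
    intro x hx
    simp only [Finset.mem_image, Finset.mem_sigma, Finset.mem_range] at hx
    obtain ⟨y, hy, rfl⟩ := hx
    simp only [Finset.mem_product, Finset.mem_range]
    omega
  have hs := summable_of_sum_range_le hnn hle
  refine ⟨hs, ?_, Real.tsum_le_of_sum_range_le hnn hle⟩
  have hH := RowsProof.differentiableOn_Hfun hf hinj i
  have h := Complex.hasSum_re (expansion (Hfun f i) (Hfun f i) R (g - 2) hR (by linarith) hH hH).1.hasSum
  refine h.summable.congr fun m => ?_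
  rw [Complex.mul_conj', ← Complex.ofReal_pow, ← Complex.ofReal_mul, Complex.ofReal_re]

/-- The final step: an inequality in all large degrees gives the coefficient bound. -/
theorem coefBound_of_perDegree {e : ℝ} (he : 0 ≤ e) {ε : ℝ} (hε : 0 < ε) (M₀ : ℕ)
    (H : ∀ f : ℂ → ℂ, DifferentiableOn ℂ f (ball 0 1) → InjOn f (ball 0 1) →
      ∃ B : ℝ, ∀ σ : ℝ, 1 / 2 ≤ σ → σ < 1 → ∃ Q : ℕ → ℝ, Summable Q ∧ 0 ≤ ∑' m, Q m ∧
        (∀ m, M₀ ≤ m →
          Q m ≤ -ε * (‖coef (Hfun (fun w => f ((σ : ℂ) * w)) 0) m‖ ^ 2 * nu e m)) ∧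
        ∀ m < M₀, Q m ≤ B) :
    Endgame.CoefBound e := by
  intro f hf hinj
  obtain ⟨B, hB⟩ := H f hf hinj
  refine ⟨(∑ m ∈ range M₀, 4 * ‖coef (Hfun f 0) m‖ ^ 2) + (M₀ : ℝ) * B / ε, fun σ hσ hσ1 N => ?_⟩
  obtain ⟨Q, hQs, hQ0, hhigh, hlow⟩ := hB σ hσ hσ1
  set c : ℕ → ℝ := fun m => ‖coef (Hfun (fun w => f ((σ : ℂ) * w)) 0) m‖ ^ 2 * nu e m with hc
  have hc0 : ∀ m, 0 ≤ c m := fun m => mul_nonneg (sq_nonneg _) ((nu_facts e he).1 m).1.le
  have hclow : ∀ m, c m ≤ 4 * ‖coef (Hfun f 0) m‖ ^ 2 := by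
    intro m
    refine (mul_le_of_le_one_right (sq_nonneg _) ((nu_facts e he).1 m).2).trans ?_
    rw [coef_Hfun_zero_dilate hf hinj (by linarith) hσ1, norm_mul, norm_mul, norm_inv, norm_pow,
      Complex.norm_real, Real.norm_of_nonneg (by linarith), mul_pow, mul_pow]
    refine mul_le_mul_of_nonneg_right ?_ (sq_nonneg _)
    calc σ⁻¹ ^ 2 * (σ ^ m) ^ 2 ≤ 2 ^ 2 * 1 ^ 2 := by
          gcongr
          · rw [inv_le_iff_one_le_mul₀ (by linarith)]; linarith
          · exact pow_le_one₀ (by linarith) hσ1.le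
      _ = 4 := by norm_num
  set K := max N M₀ with hK
  have htail : ∑' m, Q m ≤ ∑ m ∈ range K, Q m := by
    rw [← hQs.sum_add_tsum_nat_add K]
    refine add_le_iff_nonpos_right _ |>.2 (tsum_nonpos fun m => ?_)
    refine (hhigh _ (by omega)).trans ?_
    nlinarith [hc0 (m + K)]
  have hsplit : ∑ m ∈ range K, (Q m + ε * c m) ≤ ∑ m ∈ range M₀, (B + ε * c m) := by
    rw [← Finset.sum_range_add_sum_Ico _ (le_max_right N M₀)]
    have h1 : ∑ m ∈ Finset.Ico M₀ K, (Q m + ε * c m) ≤ 0 :=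
      Finset.sum_nonpos fun m hm => by
        have := hhigh m (Finset.mem_Ico.1 hm).1
        linarith
    have h2 : ∑ m ∈ range M₀, (Q m + ε * c m) ≤ ∑ m ∈ range M₀, (B + ε * c m) :=
      Finset.sum_le_sum fun m hm => by linarith [hlow m (Finset.mem_range.1 hm)]
    linarith
  rw [Finset.sum_add_distrib, Finset.sum_add_distrib, ← Finset.mul_sum, ← Finset.mul_sum,
    Finset.sum_const, Finset.card_range, nsmul_eq_mul] at hsplit
  calc ∑ m ∈ range N, c m ≤ ∑ m ∈ range K, c m :=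
        Finset.sum_le_sum_of_subset_of_nonneg (Finset.range_mono (le_max_left _ _)) fun m _ _ => hc0 m
    _ ≤ (∑ m ∈ range M₀, c m) + (M₀ : ℝ) * B / ε := by
        rw [← sub_le_iff_le_add', le_div_iff₀ hε]
        nlinarith [hQ0, htail]
    _ ≤ _ := by gcongr with m; exact hclow m

end

end Vale.Agent.P142.Sharp.Glue
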