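import Mathlib
import Vale.Agent.P142.Sharp.Asymp
import Vale.Agent.P142.Sharp.Glue

/-!
Tools for an inequality in all large degrees: a dual lower bound for the area tail and stability
of negative definite forms under constraints.
-/

namespace Vale.Agent.P142.Sharp.DegreeTools

open Filter Topology Finset ComplexConjugate

noncomputable section

/-- A lower bound for the tail of one degree from an arbitrary test function. -/
lemma tail_dual (u : ℕ → ℕ → ℕ → ℂ) (i : ℕ) {g : ℝ} (hg : 0 ≤ g) (N : ℕ) (φ : ℕ → ℂ) :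
    ∑ q ∈ range (N + 1), (2 * (conj (φ q) * u i (N - q) q).re -
        ‖φ q‖ ^ 2 * (((q : ℝ) + 1) / nu g (N - q))) ≤ Glue.tail u i g N := by
  refine Finset.sum_le_sum fun q _ => ?_
  have hn := (nu_bounds hg (N - q)).1
  set w : ℝ := nu g (N - q) / ((q : ℝ) + 1) with hw
  have hwp : 0 < w := by positivity
  rw [show ((q : ℝ) + 1) / nu g (N - q) = w⁻¹ by rw [hw, inv_div],
    show ‖u i (N - q) q‖ ^ 2 / ((q : ℝ) + 1) * nu g (N - q) = ‖u i (N - q) q‖ ^ 2 * w by
      rw [hw]; ring]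
  have h : 0 ≤ ‖(w : ℂ) * u i (N - q) q - φ q‖ ^ 2 * w⁻¹ := by positivity
  rw [← Complex.normSq_eq_norm_sq, Complex.normSq_apply] at h
  simp only [← Complex.normSq_eq_norm_sq, Complex.normSq_apply, Complex.mul_re, Complex.conj_re,
    Complex.conj_im, Complex.sub_re, Complex.sub_im, Complex.mul_im, Complex.ofReal_re,
    Complex.ofReal_im, zero_mul, sub_zero, add_zero] at h ⊢
  field_simp at h ⊢
  nlinarith

/-- The Gram entries of the powers of `p / N` for the dual tail. -/
def gram (g : ℝ) (N j : ℕ) : ℝ :=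
  ∑ p ∈ range (N + 1), ((p : ℝ) / N) ^ j * ((((N - p : ℕ) : ℝ) + 1) / nu g p)

lemma tendsto_gram {g : ℝ} (hg : 0 ≤ g) (j : ℕ) :
    Tendsto (fun N : ℕ => gram g N j * nu g N / (N : ℝ) ^ 2) atTop
      (𝓝 (1 / (g + 2 + j) - 1 / (g + 3 + j))) := by
  refine (tendsto_moment_tail hg j).congr fun N => ?_
  rw [gram, Finset.sum_mul, Finset.sum_div, Finset.sum_div]
  exact Finset.sum_congr rfl fun p _ => by ring

/-- The dual bound for a combination of powers of `p / N`. -/
lemma tail_dual_poly (u : ℕ → ℕ → ℕ → ℂ) (i : ℕ) {g : ℝ} (hg : 0 ≤ g) (N K : ℕ) (a : ℕ → ℂ) :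
    2 * (∑ k ∈ range K, conj (a k) *
        ∑ q ∈ range (N + 1), ((((N - q : ℕ) : ℝ) / N) ^ k : ℝ) * u i (N - q) q).re -
      ∑ k ∈ range K, ∑ l ∈ range K, (a k * conj (a l)).re * gram g N (k + l) ≤
        Glue.tail u i g N := by
  refine le_trans (le_of_eq ?_) (tail_dual u i hg N fun q =>
    ∑ k ∈ range K, a k * (((((N - q : ℕ) : ℝ) / N) ^ k : ℝ) : ℂ))
  rw [Finset.sum_sub_distrib, ← Finset.mul_sum]
  congr 1
  · congr 1
    rw [← Complex.re_sum]
    congr 1
    simp only [map_sum, map_mul, Complex.conj_ofReal, Finset.sum_mul, Finset.mul_sum]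
    rw [Finset.sum_comm]
    exact Finset.sum_congr rfl fun q _ => Finset.sum_congr rfl fun k _ => by ring
  · have hrefl := fun j : ℕ => (Finset.sum_range_reflect
      (fun p => ((p : ℝ) / N) ^ j * ((((N - p : ℕ) : ℝ) + 1) / nu g p)) (N + 1)).symm
    simp only [gram, hrefl, Finset.mul_sum]
    rw [Finset.sum_comm]
    simp only [Finset.sum_comm (γ := ℕ) (s := range K) (t := range (N + 1))]
    refine Finset.sum_congr rfl fun q hq => ?_
    have hq' : q ≤ N := Nat.lt_succ_iff.1 (Finset.mem_range.1 hq)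
    rw [show N + 1 - 1 - q = N - q by omega, Nat.sub_sub_self hq']
    set t : ℝ := ((N - q : ℕ) : ℝ) / N
    have e : ∀ z : ℂ, ‖z‖ ^ 2 = (z * conj z).re := fun z => by
      rw [Complex.mul_conj', ← Complex.ofReal_pow, Complex.ofReal_re]
    rw [e, map_sum, Finset.sum_mul_sum, Complex.re_sum, Finset.sum_mul, Finset.sum_comm]
    refine Finset.sum_congr rfl fun k _ => ?_
    rw [Complex.re_sum, Finset.sum_mul]
    refine Finset.sum_congr rfl fun l _ => ?_
    rw [map_mul, Complex.conj_ofReal, show a k * ((t ^ k : ℝ) : ℂ) * (conj (a l) * ((t ^ l : ℝ) : ℂ)) =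
      ((t ^ k * t ^ l : ℝ) : ℂ) * (a k * conj (a l)) by push_cast; ring, Complex.re_ofReal_mul,
      pow_add]
    ring

variable {ι κ : Type*} [Fintype ι] [Fintype κ]

/-- The real quadratic form of a matrix at a complex vector. -/
def form (A : ι → ι → ℝ) (x : ι → ℂ) : ℝ := ∑ a, ∑ b, A a b * (x a * conj (x b)).re

lemma form_eq (A : ι → ι → ℝ) (x : ι → ℂ) :
    form A x = (∑ a, ∑ b, A a b * ((x a).re * (x b).re)) +
      ∑ a, ∑ b, A a b * ((x a).im * (x b).im) := by
  simp only [form, Complex.mul_re, Complex.conj_re, Complex.conj_im, mul_neg, sub_neg_eq_add,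
    mul_add, Finset.sum_add_distrib]

/-- A negative definite real matrix is negative definite on complex vectors. -/
lemma form_le {A : ι → ι → ℝ} {δ : ℝ}
    (h : ∀ y : ι → ℝ, ∑ a, ∑ b, A a b * (y a * y b) ≤ -δ * ∑ a, y a ^ 2) (x : ι → ℂ) :
    form A x ≤ -δ * ∑ a, ‖x a‖ ^ 2 := by
  have e : ∀ a, ‖x a‖ ^ 2 = (x a).re ^ 2 + (x a).im ^ 2 := fun a => by
    rw [← Complex.normSq_eq_norm_sq, Complex.normSq_apply]; ring
  rw [form_eq]
  simp only [e, Finset.sum_add_distrib, mul_add]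
  exact add_le_add (h fun a => (x a).re) (h fun a => (x a).im)

/-- Entrywise small perturbations. -/
lemma form_sub_le (A B : ι → ι → ℝ) (x : ι → ℂ) :
    form A x ≤ form B x + (∑ a, ∑ b, |A a b - B a b|) * ∑ a, ‖x a‖ ^ 2 := by
  rw [← sub_le_iff_le_add', form, form, ← Finset.sum_sub_distrib, Finset.sum_mul]
  refine Finset.sum_le_sum fun a _ => ?_
  rw [← Finset.sum_sub_distrib, Finset.sum_mul]
  refine Finset.sum_le_sum fun b _ => ?_
  rw [← sub_mul]
  refine (le_abs_self _).trans ?_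
  rw [abs_mul]
  refine mul_le_mul_of_nonneg_left ?_ (abs_nonneg _)
  refine (Complex.abs_re_le_norm _).trans ?_
  rw [norm_mul, Complex.norm_conj]
  have hx : ∀ c, ‖x c‖ ^ 2 ≤ ∑ a, ‖x a‖ ^ 2 := fun c =>
    Finset.single_le_sum (f := fun a => ‖x a‖ ^ 2) (fun a _ => sq_nonneg _) (Finset.mem_univ c)
  nlinarith [sq_nonneg (‖x a‖ - ‖x b‖), hx a, hx b]

/-- Adding multiples of linear constraints does not change the form on their kernel. -/
lemma form_add_constraints (A : ι → ι → ℝ) (L Y : κ → ι → ℝ) {x : ι → ℂ}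
    (hx : ∀ r, ∑ a, (L r a : ℂ) * x a = 0) :
    form (fun a b => A a b + ∑ r, L r a * Y r b) x = form A x := by
  have h0 : form (fun a b => ∑ r, L r a * Y r b) x = 0 := by
    have e : form (fun a b => ∑ r, L r a * Y r b) x =
        ∑ r, ((∑ a, (L r a : ℂ) * x a) * ∑ b, (Y r b : ℂ) * conj (x b)).re := by
      have hr : ∀ r, ((∑ a, (L r a : ℂ) * x a) * ∑ b, (Y r b : ℂ) * conj (x b)).re =
          ∑ a, ∑ b, L r a * Y r b * (x a * conj (x b)).re := fun r => by
        rw [Finset.sum_mul_sum, Complex.re_sum]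
        refine Finset.sum_congr rfl fun a _ => ?_
        rw [Complex.re_sum]
        refine Finset.sum_congr rfl fun b _ => ?_
        rw [show (L r a : ℂ) * x a * ((Y r b : ℂ) * conj (x b)) =
          ((L r a * Y r b : ℝ) : ℂ) * (x a * conj (x b)) by push_cast; ring, Complex.re_ofReal_mul]
      simp only [form, hr]
      simp only [Finset.sum_mul]
      rw [Finset.sum_comm (γ := κ)]
      exact Finset.sum_congr rfl fun a _ => Finset.sum_comm
    rw [e]
    exact Finset.sum_eq_zero fun r _ => by rw [hx r, zero_mul, Complex.zero_re]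
  have hsplit : form (fun a b => A a b + ∑ r, L r a * Y r b) x =
      form A x + form (fun a b => ∑ r, L r a * Y r b) x := by
    simp only [form, add_mul, Finset.sum_add_distrib]
  rw [hsplit, h0, add_zero]

/-- A strictly negative limit matrix, modulo constraints, gives negativity in all large degrees. -/
theorem eventually_form_neg (A : ℕ → ι → ι → ℝ) (A₀ : ι → ι → ℝ) (L : ℕ → κ → ι → ℝ)
    (L₀ Y : κ → ι → ℝ) (hA : ∀ a b, Tendsto (fun m => A m a b) atTop (𝓝 (A₀ a b)))
    (hL : ∀ r a, Tendsto (fun m => L m r a) atTop (𝓝 (L₀ r a))) {δ : ℝ} (hδ : 0 < δ)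
    (hneg : ∀ y : ι → ℝ, ∑ a, ∑ b, (A₀ a b + ∑ r, L₀ r a * Y r b) * (y a * y b) ≤
      -δ * ∑ a, y a ^ 2) :
    ∀ᶠ m in atTop, ∀ x : ι → ℂ, (∀ r, ∑ a, (L m r a : ℂ) * x a = 0) →
      form (A m) x ≤ -(δ / 2) * ∑ a, ‖x a‖ ^ 2 := by
  have hlim : Tendsto (fun m => ∑ a, ∑ b, |(A m a b + ∑ r, L m r a * Y r b) -
      (A₀ a b + ∑ r, L₀ r a * Y r b)|) atTop (𝓝 0) := by
    rw [show (0 : ℝ) = ∑ _a : ι, ∑ _b : ι, (0 : ℝ) by simp]
    refine tendsto_finsetSum _ fun a _ => tendsto_finsetSum _ fun b _ => ?_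
    have h := (((hA a b).add (tendsto_finsetSum (Finset.univ : Finset κ) fun r _ =>
      (hL r a).mul_const (Y r b))).sub_const (A₀ a b + ∑ r, L₀ r a * Y r b)).abs
    simpa using h
  filter_upwards [hlim.eventually_le_const (show (0 : ℝ) < δ / 2 by positivity)] with m hm x hx
  rw [← form_add_constraints (A m) (L m) Y hx]
  refine (form_sub_le _ (fun a b => A₀ a b + ∑ r, L₀ r a * Y r b) x).trans ?_
  have hs : 0 ≤ ∑ a, ‖x a‖ ^ 2 := by positivity
  linarith [mul_le_mul_of_nonneg_right hm hs, form_le hneg x]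

/-- Squares plus a diagonally dominant remainder certify negativity. -/
lemma quad_le_of_dominant [DecidableEq ι] {σ : Type*} [Fintype σ] (R : ι → ι → ℝ) (c : σ → ℝ)
    (v : σ → ι → ℝ) {δ : ℝ} (hc : ∀ s, 0 ≤ c s)
    (hR : ∀ a, R a a + (∑ b ∈ Finset.univ.erase a, (|R a b| + |R b a|)) / 2 ≤ -δ) (y : ι → ℝ) :
    ∑ a, ∑ b, (R a b - ∑ s, c s * v s a * v s b) * (y a * y b) ≤ -δ * ∑ a, y a ^ 2 := by
  have hsq : ∑ a, ∑ b, (∑ s, c s * v s a * v s b) * (y a * y b) =
      ∑ s, c s * (∑ a, v s a * y a) ^ 2 := by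
    simp only [sq, Finset.sum_mul, Finset.mul_sum]
    rw [Finset.sum_comm (γ := σ)]
    refine Finset.sum_congr rfl fun a _ => ?_
    rw [Finset.sum_comm]
    exact Finset.sum_congr rfl fun s _ => Finset.sum_congr rfl fun b _ => by ring
  have hdom : ∑ a, ∑ b, R a b * (y a * y b) ≤ -δ * ∑ a, y a ^ 2 := by
    calc ∑ a, ∑ b, R a b * (y a * y b)
        ≤ ∑ a, (R a a * y a ^ 2 +
            ∑ b ∈ Finset.univ.erase a, |R a b| * ((y a ^ 2 + y b ^ 2) / 2)) := by
          refine Finset.sum_le_sum fun a _ => ?_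
          rw [← Finset.add_sum_erase _ _ (Finset.mem_univ a), sq (y a)]
          refine add_le_add le_rfl (Finset.sum_le_sum fun b _ => ?_)
          refine (le_abs_self _).trans ?_
          rw [abs_mul]
          refine mul_le_mul_of_nonneg_left ?_ (abs_nonneg _)
          rw [abs_mul]
          nlinarith [sq_nonneg (|y a| - |y b|), sq_abs (y a), sq_abs (y b)]
      _ = ∑ a, (R a a + (∑ b ∈ Finset.univ.erase a, (|R a b| + |R b a|)) / 2) * y a ^ 2 := by
          have hswap : ∑ a, ∑ b ∈ Finset.univ.erase a, |R a b| * y b ^ 2 =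
              ∑ a, ∑ b ∈ Finset.univ.erase a, |R b a| * y a ^ 2 := by
            refine Finset.sum_comm' fun a b => ?_
            simp [eq_comm]
          simp only [mul_div_assoc', mul_add, ← Finset.sum_div, Finset.sum_add_distrib, hswap,
            add_mul, div_mul_eq_mul_div, Finset.sum_mul]
      _ ≤ -δ * ∑ a, y a ^ 2 := by
          rw [Finset.mul_sum]
          exact Finset.sum_le_sum fun a _ => mul_le_mul_of_nonneg_right (hR a) (sq_nonneg _)
  simp only [sub_mul, Finset.sum_sub_distrib, hsq]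
  have : 0 ≤ ∑ s, c s * (∑ a, v s a * y a) ^ 2 :=
    Finset.sum_nonneg fun s _ => mul_nonneg (hc s) (sq_nonneg _)
  linarith

end

end Vale.Agent.P142.Sharp.DegreeTools
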