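import Mathlib
import Vale.Agent.P142.Sharp.Glue

/-!
Monomials in the jets of `f`, their Taylor coefficients, the derivation, the dilations, the
expansion of `z ^ (i + j + 2) h^(i) U₀ⱼ` in monomials, and the positivity of squares.
-/

namespace Vale.Agent.P142.Sharp.Mon

open Complex Metric Set Filter Topology MeasureTheory ComplexConjugate Finset
open Vale.Agent.P142.Moments (jet dval)

/-- An exponent vector; entry `k` is the exponent of the `k`-th jet. -/
abbrev Mn := List ℕ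

/-- A linear combination of monomials. -/
abbrev Poly := List (Mn × ℚ)

/-- Exponent of the `k`-th jet. -/
def ex (e : Mn) (k : ℕ) : ℕ := e.getD k 0

/-- Exponent vector of a function. -/
def mk (F : ℕ → ℕ) : Mn := (List.range 8).map F

/-- Product of two monomials. -/
def madd (a b : Mn) : Mn := mk fun k => ex a k + ex b k

/-- Weight. -/
def wte (e : Mn) : ℕ := ((List.range 8).map fun k => (if k = 0 then 1 else k + 1) * ex e k).sum

/-- One exponent moved from `k` to `k + 1`. -/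
def shift (e : Mn) (k : ℕ) : Mn :=
  mk fun l => if l = k then ex e k - 1 else if l = k + 1 then ex e l + 1 else ex e l

/-- The derivation with the factor `1 / f'`. -/
def Dmon (e : Mn) : Poly :=
  (madd e [1], 2 - (ex e 0 : ℚ)) :: (shift e 0, -(ex e 0 : ℚ)) ::
    (List.range 6).map fun k => (shift e (k + 1), (ex e (k + 1) : ℚ))

/-- The derivation of a combination. -/
def Dpoly (P : Poly) : Poly := P.flatMap fun t => (Dmon t.1).map fun s => (s.1, t.2 * s.2)

/-- `h^(i) / h`. -/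
def Dpow : ℕ → Poly
  | 0 => [([], 1)]
  | i + 1 => Dpoly (Dpow i)

/-- Product of two combinations. -/
def pmul (P Q : Poly) : Poly := P.flatMap fun t => Q.map fun s => (madd t.1 s.1, t.2 * s.2)

/-- `-(j + 1) γ_(j+1)`, the diagonal Taylor coefficients of the kernel. -/
def U0poly : ℕ → Poly
  | 0 => [([0, 1], 1 / 3)]
  | 1 => [([0, 0, 1], 1 / 6)]
  | 2 => [([0, 2], 1 / 15), ([0, 0, 0, 1], 1 / 20)]
  | 3 => [([0, 1, 1], 1 / 15), ([0, 0, 0, 0, 1], 1 / 90)]
  | 4 => [([0, 3], 2 / 189), ([0, 1, 0, 1], 5 / 252), ([0, 0, 2], 17 / 1008),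
      ([0, 0, 0, 0, 0, 1], 1 / 504)]
  | 5 => [([0, 2, 1], 1 / 63), ([0, 1, 0, 0, 1], 11 / 2520), ([0, 0, 1, 1], 17 / 1680),
      ([0, 0, 0, 0, 0, 0, 1], 1 / 3360)]
  | 6 => [([0, 4], 1 / 675), ([0, 2, 0, 1], 19 / 4050), ([0, 1, 2], 13 / 1620),
      ([0, 1, 0, 0, 0, 1], 1 / 1296), ([0, 0, 1, 0, 1], 29 / 12960), ([0, 0, 0, 2], 11 / 7200),
      ([0, 0, 0, 0, 0, 0, 0, 1], 1 / 25920)]
  | _ => []

/-- The monomials of `z ^ (i + j + 2) h^(i) U₀ⱼ / h`. -/
def jetsPoly (i j : ℕ) : Poly := pmul (Dpow i) (U0poly j)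

/-- The constant monomial, in normal form. -/
def one : Mn := mk fun _ => 0

noncomputable section

/-- Value of a monomial. -/
def mono (x : ℕ → ℂ) (e : Mn) : ℂ := ∏ k ∈ range 8, x k ^ ex e k

/-- Value of a combination. -/
def pval (x : ℕ → ℂ) (P : Poly) : ℂ := (P.map fun t => (t.2 : ℂ) * mono x t.1).sum

/-- The monomial as a holomorphic function, with the factor `1 / f'`. -/
def phi (f : ℂ → ℂ) (e : Mn) (z : ℂ) : ℂ := (deriv f z)⁻¹ * mono (jet f z) e

/-- The monomial times the power of `z` given by its weight. -/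
def Pm (f : ℂ → ℂ) (e : Mn) (z : ℂ) : ℂ := z ^ wte e * phi f e z

/-- Its Taylor coefficients. -/
def cm (f : ℂ → ℂ) (e : Mn) (m : ℕ) : ℂ := coef (Pm f e) m

lemma ex_mk (F : ℕ → ℕ) {k : ℕ} (hk : k < 8) : ex (mk F) k = F k := by
  simp [ex, mk, List.getD_eq_getElem?_getD, List.getElem?_range hk]

lemma wte_eq (e : Mn) : wte e = ∑ k ∈ range 8, (if k = 0 then 1 else k + 1) * ex e k := rfl

lemma wte_mk (F : ℕ → ℕ) : wte (mk F) = ∑ k ∈ range 8, (if k = 0 then 1 else k + 1) * F k := by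
  rw [wte_eq]
  exact Finset.sum_congr rfl fun k hk => by rw [ex_mk F (Finset.mem_range.1 hk)]

lemma mono_mk (x : ℕ → ℂ) (F : ℕ → ℕ) : mono x (mk F) = ∏ k ∈ range 8, x k ^ F k :=
  Finset.prod_congr rfl fun k hk => by rw [ex_mk F (Finset.mem_range.1 hk)]

lemma mono_madd (x : ℕ → ℂ) (a b : Mn) : mono x (madd a b) = mono x a * mono x b := by
  rw [madd, mono_mk, mono, mono, ← Finset.prod_mul_distrib]
  exact Finset.prod_congr rfl fun k _ => pow_add _ _ _

lemma wte_madd (a b : Mn) : wte (madd a b) = wte a + wte b := by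
  rw [madd, wte_mk, wte_eq, wte_eq, ← Finset.sum_add_distrib]
  exact Finset.sum_congr rfl fun k _ => Nat.mul_add _ _ _

@[simp] lemma mono_nil (x : ℕ → ℂ) : mono x [] = 1 := by simp [mono, ex]

@[simp] lemma wte_nil : wte [] = 0 := rfl

lemma mono_one (x : ℕ → ℂ) : mono x one = 1 := by simp [one, mono_mk]

lemma wte_one : wte one = 0 := rfl

lemma mono_eta (x : ℕ → ℂ) : mono x [1] = x 0 := by simp [mono, ex, Finset.prod_range_succ]

lemma mono_shift (x : ℕ → ℂ) (e : Mn) {k : ℕ} (hk : k + 1 < 8) :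
    (ex e k : ℂ) * mono x (shift e k) =
      (∏ m ∈ (range 8).erase k, x m ^ ex e m) * ((ex e k : ℂ) * x k ^ (ex e k - 1) * x (k + 1)) := by
  have hk1 : k + 1 ∈ (range 8).erase k := by simp; omega
  have hk0 : k ∈ range 8 := Finset.mem_range.2 (by omega)
  rw [shift, mono_mk, ← Finset.mul_prod_erase _ _ hk0, if_pos rfl,
    ← Finset.mul_prod_erase _ _ hk1, if_neg (by omega), if_pos rfl,
    ← Finset.mul_prod_erase _ (fun m => x m ^ ex e m) hk1,
    Finset.prod_congr rfl (fun m hm => ?_)]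
  · ring
  · simp only [Finset.mem_erase] at hm
    rw [if_neg hm.2.1, if_neg hm.1]

lemma pval_append (x : ℕ → ℂ) (P Q : Poly) : pval x (P ++ Q) = pval x P + pval x Q := by
  simp [pval]

lemma pval_scale (x : ℕ → ℂ) (c : ℚ) (P : Poly) :
    pval x (P.map fun s => (s.1, c * s.2)) = (c : ℂ) * pval x P := by
  rw [pval, pval, List.map_map, ← List.sum_map_mul_left]
  refine congrArg List.sum (List.map_congr_left fun t _ => ?_)
  simp only [Function.comp_apply, Rat.cast_mul]
  ring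

lemma pval_pmul (x : ℕ → ℂ) (P Q : Poly) : pval x (pmul P Q) = pval x P * pval x Q := by
  induction P with
  | nil => simp [pmul, pval]
  | cons t P ih =>
    have h1 : pmul (t :: P) Q = (Q.map fun s => (madd t.1 s.1, t.2 * s.2)) ++ pmul P Q := rfl
    have h2 : pval x (t :: P) = (t.2 : ℂ) * mono x t.1 + pval x P := by simp [pval]
    rw [h1, pval_append, ih, h2, add_mul]
    congr 1
    rw [pval, pval, List.map_map, ← List.sum_map_mul_left]
    refine congrArg List.sum (List.map_congr_left fun s _ => ?_)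
    simp only [Function.comp_apply, Rat.cast_mul, mono_madd]
    ring

lemma pval_Dmon (x : ℕ → ℂ) (e : Mn) (he : ex e 7 = 0) :
    2 * x 0 * mono x e + ∑ k ∈ range 8, (∏ m ∈ (range 8).erase k, x m ^ ex e m) *
        ((ex e k : ℂ) * x k ^ (ex e k - 1) * dval x k) = pval x (Dmon e) := by
  set T := fun k : ℕ => (∏ m ∈ (range 8).erase k, x m ^ ex e m) *
        ((ex e k : ℂ) * x k ^ (ex e k - 1) * x (k + 1)) with hT
  have h0 : (∏ m ∈ (range 8).erase 0, x m ^ ex e m) * ((ex e 0 : ℂ) * x 0 ^ (ex e 0 - 1) * dval x 0) =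
      -T 0 - (ex e 0 : ℂ) * x 0 * mono x e := by
    have hm : mono x e = x 0 ^ ex e 0 * ∏ m ∈ (range 8).erase 0, x m ^ ex e m :=
      (Finset.mul_prod_erase _ _ (by simp)).symm
    rw [hm, hT, dval]
    simp only []
    rcases Nat.eq_zero_or_pos (ex e 0) with h | h
    · simp [h]
    · obtain ⟨n, hn⟩ : ∃ n, ex e 0 = n + 1 := ⟨ex e 0 - 1, by omega⟩
      rw [hn, Nat.add_sub_cancel]
      ring
  rw [Finset.sum_range_succ', h0, pval, Dmon, List.map_cons, List.map_cons, List.sum_cons,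
    List.sum_cons, mono_madd, mono_eta, List.map_map]
  have hr : ∀ F : ℕ → ℂ, ((List.range 6).map F).sum = ∑ k ∈ range 6, F k := fun F => rfl
  rw [hr]
  rw [Finset.sum_range_succ (n := 6)]
  have h7 : ∀ d : ℂ, (∏ m ∈ (range 8).erase (6 + 1), x m ^ ex e m) *
      ((ex e (6 + 1) : ℂ) * x (6 + 1) ^ (ex e (6 + 1) - 1) * d) = 0 := fun d => by simp [he]
  rw [h7, add_zero]
  have hs : ∀ k ∈ range 6, (∏ m ∈ (range 8).erase (k + 1), x m ^ ex e m) *
      ((ex e (k + 1) : ℂ) * x (k + 1) ^ (ex e (k + 1) - 1) * dval x (k + 1)) =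
      (((ex e (k + 1) : ℚ)) : ℂ) * mono x (shift e (k + 1)) := fun k hk => by
    have hk := Finset.mem_range.1 hk
    rw [Rat.cast_natCast, mono_shift x e (by omega)]
    rfl
  rw [Finset.sum_congr rfl hs]
  simp only [Rat.cast_sub, Rat.cast_neg, Rat.cast_natCast, Rat.cast_ofNat]
  rw [neg_mul, mono_shift x e (by omega : 0 + 1 < 8)]
  simp only [hT, Function.comp_def, Rat.cast_natCast]
  ring

section

variable {f : ℂ → ℂ}

lemma differentiableAt_jet (hf : DifferentiableOn ℂ f (ball 0 1)) (hinj : InjOn f (ball 0 1))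
    {z : ℂ} (hz : z ∈ ball (0 : ℂ) 1) (k : ℕ) :
    HasDerivAt (fun w => jet f w k) (dval (jet f z) k) z := by
  cases k with
  | zero =>
    refine (((Jets.analyticAt_Lf hf hinj hz).differentiableAt.hasDerivAt).fun_neg.div_const 2).congr_deriv ?_
    simp only [dval, jet, iteratedDeriv_zero, Jets.eta0, Jets.sig]
    ring
  | succ j =>
    have h := (Jets.analyticAt_sig hf hinj hz).iterated_deriv j
    simp only [← iteratedDeriv_eq_iterate] at h
    refine h.differentiableAt.hasDerivAt.congr_deriv ?_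
    show deriv (iteratedDeriv j (Jets.sig f)) z = iteratedDeriv (j + 1) (Jets.sig f) z
    rw [iteratedDeriv_succ]

lemma differentiableAt_phi (hf : DifferentiableOn ℂ f (ball 0 1)) (hinj : InjOn f (ball 0 1))
    {z : ℂ} (hz : z ∈ ball (0 : ℂ) 1) (e : Mn) : DifferentiableAt ℂ (phi f e) z :=
  ((Jets.analyticAt_of hf hz).deriv.differentiableAt.fun_inv
    (Area.deriv_ne_zero_of_injOn isOpen_ball hf hinj hz)).fun_mul
      (DifferentiableAt.fun_finset_prod fun k _ =>
        (differentiableAt_jet hf hinj hz k).differentiableAt.fun_pow _)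

lemma differentiableOn_phi (hf : DifferentiableOn ℂ f (ball 0 1)) (hinj : InjOn f (ball 0 1))
    (e : Mn) : DifferentiableOn ℂ (phi f e) (ball 0 1) := fun _ hz =>
  (differentiableAt_phi hf hinj hz e).differentiableWithinAt

lemma differentiableOn_Pm (hf : DifferentiableOn ℂ f (ball 0 1)) (hinj : InjOn f (ball 0 1))
    (e : Mn) : DifferentiableOn ℂ (Pm f e) (ball 0 1) :=
  (differentiableOn_pow _).fun_mul (differentiableOn_phi hf hinj e)

lemma hasDerivAt_phi (hf : DifferentiableOn ℂ f (ball 0 1)) (hinj : InjOn f (ball 0 1))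
    {z : ℂ} (hz : z ∈ ball (0 : ℂ) 1) {e : Mn} (he : ex e 7 = 0) :
    HasDerivAt (phi f e) ((deriv f z)⁻¹ * pval (jet f z) (Dmon e)) z := by
  have hd := Area.deriv_ne_zero_of_injOn isOpen_ball hf hinj hz
  have hh : HasDerivAt (fun w => (deriv f w)⁻¹) ((deriv f z)⁻¹ * (2 * Jets.eta0 f z)) z := by
    refine (((Jets.analyticAt_of hf hz).deriv.differentiableAt.hasDerivAt).fun_inv hd).congr_deriv ?_
    simp only [Jets.eta0, Jets.Lf]
    field_simp
  have hp := hh.fun_mul (HasDerivAt.fun_finset_prod (u := Finset.range 8)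
    (f := fun k w => jet f w k ^ ex e k) fun k _ =>
      (differentiableAt_jet hf hinj hz k).fun_pow (ex e k))
  refine hp.congr_deriv ?_
  rw [← pval_Dmon (jet f z) e he]
  simp only [smul_eq_mul, mono, jet]
  ring

/-- The combination as a function. -/
lemma coef_poly (hf : DifferentiableOn ℂ f (ball 0 1)) (hinj : InjOn f (ball 0 1)) (P : Poly)
    {n : ℕ} (hP : ∀ t ∈ P, t.2 = 0 ∨ wte t.1 = n) (m : ℕ) :
    coef (fun z => z ^ n * ((deriv f z)⁻¹ * pval (jet f z) P)) m =
      (P.map fun t => (t.2 : ℂ) * cm f t.1 m).sum := by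
  induction P with
  | nil => simp [pval, coef, iteratedDeriv_const]
  | cons t P ih =>
    have hP' : ∀ s ∈ P, s.2 = 0 ∨ wte s.1 = n := fun s hs => hP s (List.mem_cons_of_mem _ hs)
    have h0 : (0 : ℂ) ∈ ball (0 : ℂ) 1 := mem_ball_self one_pos
    have ha : AnalyticAt ℂ (fun z => (t.2 : ℂ) * Pm f t.1 z) 0 :=
      analyticAt_const.mul ((differentiableOn_Pm hf hinj t.1).analyticAt (isOpen_ball.mem_nhds h0))
    have hb : AnalyticAt ℂ (fun z => z ^ n * ((deriv f z)⁻¹ * pval (jet f z) P)) 0 := by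
      refine DifferentiableOn.analyticAt (s := ball 0 1) ?_ (isOpen_ball.mem_nhds h0)
      refine (differentiableOn_pow _).fun_mul ?_
      clear ih hP hP' ha
      induction P with
      | nil => simp [pval, differentiableOn_const]
      | cons s P ih' =>
        refine (((differentiableOn_phi hf hinj s.1).const_mul (s.2 : ℂ)).fun_add ih').congr
          fun z _ => ?_
        simp only [pval, List.map_cons, List.sum_cons, phi]
        ring
    have e1 : (fun z => z ^ n * ((deriv f z)⁻¹ * pval (jet f z) (t :: P))) =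
        fun z => (t.2 : ℂ) * Pm f t.1 z + z ^ n * ((deriv f z)⁻¹ * pval (jet f z) P) := by
      funext z
      simp only [pval, List.map_cons, List.sum_cons, Pm, phi]
      rcases hP t List.mem_cons_self with h | h
      · rw [h]; simp
      · rw [h]; ring
    rw [e1, RowsProof.coef_add ha hb, RowsProof.coef_const_mul, ih hP', List.map_cons, List.sum_cons]
    rfl

/-- Weights are compatible with the derivation. -/
lemma wte_Dmon (e : Mn) : ∀ t ∈ Dmon e, t.2 = 0 ∨ wte t.1 = wte e + 1 := by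
  intro t ht
  have hsh : ∀ k, k + 1 < 8 → ex e k = 0 ∨ wte (shift e k) = wte e + 1 := by
    intro k hk
    rcases Nat.eq_zero_or_pos (ex e k) with h | h
    · exact Or.inl h
    refine Or.inr ?_
    rw [shift, wte_mk, wte_eq]
    simp only [Finset.sum_range_succ, Finset.sum_range_zero]
    have : k < 7 := by omega
    interval_cases k <;> simp <;> omega
  simp only [Dmon, List.mem_cons, List.mem_map, List.mem_range] at ht
  rcases ht with rfl | rfl | ⟨k, hk, rfl⟩
  · exact Or.inr (by rw [wte_madd]; rfl)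
  · rcases hsh 0 (by omega) with h | h
    · exact Or.inl (by simp [h])
    · exact Or.inr h
  · rcases hsh (k + 1) (by omega) with h | h
    · exact Or.inl (by simp [h])
    · exact Or.inr h

/-- The derivation in each degree. -/
theorem cm_derivation (hf : DifferentiableOn ℂ f (ball 0 1)) (hinj : InjOn f (ball 0 1))
    {e : Mn} (he : ex e 7 = 0) (m : ℕ) :
    ((Dmon e).map fun t => (t.2 : ℂ) * cm f t.1 m).sum = ((m : ℂ) - (wte e : ℂ)) * cm f e m := by
  have h0 : (0 : ℂ) ∈ ball (0 : ℂ) 1 := mem_ball_self one_pos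
  rw [← coef_poly hf hinj (Dmon e) (wte_Dmon e) m]
  have hev : (fun z => z ^ (wte e + 1) * ((deriv f z)⁻¹ * pval (jet f z) (Dmon e))) =ᶠ[𝓝 0]
      fun z => z ^ (wte e + 1) * deriv (phi f e) z := by
    filter_upwards [isOpen_ball.mem_nhds h0] with z hz
    rw [(hasDerivAt_phi hf hinj hz he).deriv]
  rw [RowsProof.coef_congr hev]
  exact Glue.coef_derivation
    ((differentiableOn_phi hf hinj e).analyticAt (isOpen_ball.mem_nhds h0)) (wte e) m

/-- Coefficients of a dilated monomial. -/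
theorem cm_dilate (hf : DifferentiableOn ℂ f (ball 0 1)) (hinj : InjOn f (ball 0 1)) {σ : ℝ}
    (h0 : 0 < σ) (h1 : σ < 1) (e : Mn) (m : ℕ) :
    cm (fun w => f ((σ : ℂ) * w)) e m = (σ : ℂ)⁻¹ * (σ : ℂ) ^ m * cm f e m := by
  obtain ⟨hR, -, -, hmap⟩ := Endgame.dilate hf hinj h0 h1
  have hev : Pm (fun w => f ((σ : ℂ) * w)) e =ᶠ[𝓝 0]
      fun w => (σ : ℂ)⁻¹ * Pm f e ((σ : ℂ) * w) := by
    filter_upwards [ball_mem_nhds (0 : ℂ) (zero_lt_one.trans hR)] with w hw
    simp only [Pm, phi, (hmap w hw).2, mul_inv, mono, Glue.jet_dilate hf hinj h0 h1 hw]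
    have hp : ∀ k ∈ range 8, ((σ : ℂ) ^ (if k = 0 then 1 else k + 1) * jet f ((σ : ℂ) * w) k) ^ ex e k =
        (σ : ℂ) ^ ((if k = 0 then 1 else k + 1) * ex e k) * jet f ((σ : ℂ) * w) k ^ ex e k :=
      fun k _ => by rw [mul_pow, ← pow_mul]
    rw [Finset.prod_congr rfl hp, Finset.prod_mul_distrib, Finset.prod_pow_eq_pow_sum, ← wte_eq,
      mul_pow]
    ring
  rw [cm, RowsProof.coef_congr hev, RowsProof.coef_const_mul,
    Glue.coef_dilate (differentiableOn_Pm hf hinj e), cm]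
  ring

lemma cm_nil (m : ℕ) : cm f [] m = coef (Hfun f 0) m := by
  have : Pm f [] = Hfun f 0 := by funext z; simp [Pm, phi, Hfun]
  rw [cm, this]

lemma cm_one (m : ℕ) : cm f one m = coef (Hfun f 0) m := by
  have : Pm f one = Hfun f 0 := by funext z; simp [Pm, phi, Hfun, mono_one, wte_one]
  rw [cm, this]

end

/-- `h^(i) = h · Dpow i`. -/
lemma iteratedDeriv_inv {f : ℂ → ℂ} (hf : DifferentiableOn ℂ f (ball 0 1))
    (hinj : InjOn f (ball 0 1)) : ∀ i : ℕ, (∀ l < i, ∀ t ∈ Dpow l, t.2 = 0 ∨ ex t.1 7 = 0) →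
      ∀ z ∈ ball (0 : ℂ) 1, iteratedDeriv i (fun w => (deriv f w)⁻¹) z =
        (deriv f z)⁻¹ * pval (jet f z) (Dpow i) := by
  intro i
  induction i with
  | zero => intro _ z _; simp [Dpow, pval]
  | succ i ih =>
    intro hok z hz
    have hev : iteratedDeriv i (fun w => (deriv f w)⁻¹) =ᶠ[𝓝 z]
        fun w => (deriv f w)⁻¹ * pval (jet f w) (Dpow i) := by
      filter_upwards [isOpen_ball.mem_nhds hz] with w hw
        using ih (fun l hl => hok l (by omega)) w hw
    rw [iteratedDeriv_succ, hev.deriv_eq]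
    refine HasDerivAt.deriv ?_
    have key : ∀ P : Poly, (∀ t ∈ P, t.2 = 0 ∨ ex t.1 7 = 0) →
        HasDerivAt (fun w => (deriv f w)⁻¹ * pval (jet f w) P)
          ((deriv f z)⁻¹ * pval (jet f z) (Dpoly P)) z := by
      intro P
      induction P with
      | nil => intro _; simpa [pval, Dpoly] using hasDerivAt_const z (0 : ℂ)
      | cons t P ihP =>
        intro hP
        have e1 : Dpoly (t :: P) = ((Dmon t.1).map fun s => (s.1, t.2 * s.2)) ++ Dpoly P := rfl
        have hrest := ihP fun s hs => hP s (List.mem_cons_of_mem _ hs)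
        rcases hP t List.mem_cons_self with h0 | h7
        · refine (hrest.congr_of_eventuallyEq (Eventually.of_forall fun w => ?_)).congr_deriv ?_
          · simp [pval, h0]
          · rw [e1, pval_append, pval_scale, h0]; simp
        have h := ((hasDerivAt_phi hf hinj hz h7).const_mul (t.2 : ℂ)).fun_add hrest
        refine (h.congr_of_eventuallyEq (Eventually.of_forall fun w => ?_)).congr_deriv ?_
        · simp only [pval, List.map_cons, List.sum_cons, phi]; ring
        · rw [e1, pval_append, pval_scale]; ring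
    exact key _ (hok i (by omega))

lemma pval_U0 (s : ℕ → ℂ) (η : ℂ) {j : ℕ} (hj : j ≤ 6) :
    pval (fun k => if k = 0 then η else s (k - 1)) (U0poly j) =
      -((j : ℂ) + 1) * Jets.gam s (j + 1) := by
  interval_cases j <;>
    simp [pval, U0poly, mono, ex, Jets.gam, Finset.prod_range_succ] <;> push_cast <;> ring

/-- The right hand side of the jet rows, in monomials. -/
theorem coef_jets {f : ℂ → ℂ} (hf : DifferentiableOn ℂ f (ball 0 1)) (hinj : InjOn f (ball 0 1))
    {i j : ℕ} (hj : j ≤ 6) (hok : ∀ l < i, ∀ t ∈ Dpow l, t.2 = 0 ∨ ex t.1 7 = 0)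
    (hwt : ∀ t ∈ jetsPoly i j, t.2 = 0 ∨ wte t.1 = i + j + 2) (m : ℕ) :
    coef (fun z => z ^ (j + 2) * Hfun f i z * U0 f j z) m =
      ((jetsPoly i j).map fun t => (t.2 : ℂ) * cm f t.1 m).sum := by
  rw [← coef_poly hf hinj (jetsPoly i j) hwt m]
  refine RowsProof.coef_congr ?_ m
  filter_upwards [ball_mem_nhds (0 : ℂ) one_pos] with z hz
  rw [Hfun, iteratedDeriv_inv hf hinj i hok z hz, jetsPoly, pval_pmul, U0]
  have hx : jet f z = fun k => if k = 0 then Jets.eta0 f z else iteratedDeriv (k - 1) (Jets.sig f) z := by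
    funext k; cases k <;> simp [jet]
  have h := pval_U0 (fun k => iteratedDeriv k (Jets.sig f) z) (Jets.eta0 f z) hj
  rw [← hx] at h
  rw [← h]
  ring

/-- A square: `|∑ L z^(|p|+|q|) p conj q X^(|p|+|q|)|² |h|² X^e`. -/
def sqTerm (f : ℂ → ℂ) (e : ℝ) (L : List (Mn × Mn × ℝ)) (m : ℕ) : ℝ :=
  ∑ a : Fin L.length, ∑ b : Fin L.length,
    (L[a].2.2 * L[b].2.2) *
      (cm f (madd L[a].1 L[b].2.1) m * conj (cm f (madd L[b].1 L[a].2.1) m)).re *
      nu (e + (wte L[a].1 + wte L[a].2.1 + (wte L[b].1 + wte L[b].2.1) : ℕ)) m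

theorem square_nonneg {f : ℂ → ℂ} (hf : DifferentiableOn ℂ f (ball 0 1))
    (hinj : InjOn f (ball 0 1)) {σ e : ℝ} (h0 : 0 < σ) (h1 : σ < 1) (he : 0 ≤ e)
    (L : List (Mn × Mn × ℝ)) :
    Summable (sqTerm (fun w => f ((σ : ℂ) * w)) e L) ∧
      0 ≤ ∑' m, sqTerm (fun w => f ((σ : ℂ) * w)) e L m := by
  obtain ⟨hR, hgd, hginj, hmap⟩ := Endgame.dilate hf hinj h0 h1
  set g : ℂ → ℂ := fun w => f ((σ : ℂ) * w) with hg
  set n : Fin L.length → ℕ := fun a => wte L[a].1 + wte L[a].2.1 with hn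
  have hd : ∀ t : Mn, DifferentiableOn ℂ (Pm g t) (ball 0 σ⁻¹) := by
    intro t w hw
    have hev : Pm g t =ᶠ[𝓝 w] fun v => (σ : ℂ)⁻¹ * Pm f t ((σ : ℂ) * v) := by
      filter_upwards [isOpen_ball.mem_nhds hw] with v hv
      simp only [Pm, phi, (hmap v hv).2, mul_inv, mono]
      simp only [hg, Glue.jet_dilate hf hinj h0 h1 hv]
      have hp : ∀ k ∈ range 8, ((σ : ℂ) ^ (if k = 0 then 1 else k + 1) * jet f ((σ : ℂ) * v) k) ^ ex t k =
          (σ : ℂ) ^ ((if k = 0 then 1 else k + 1) * ex t k) * jet f ((σ : ℂ) * v) k ^ ex t k :=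
        fun k _ => by rw [mul_pow, ← pow_mul]
      rw [Finset.prod_congr rfl hp, Finset.prod_mul_distrib, Finset.prod_pow_eq_pow_sum, ← wte_eq,
        mul_pow]
      ring
    refine ((DifferentiableAt.const_mul ?_ _).congr_of_eventuallyEq hev).differentiableWithinAt
    exact (((differentiableOn_Pm hf hinj t).differentiableAt
      (isOpen_ball.mem_nhds (hmap w hw).1)).comp w (differentiableAt_id.const_mul (σ : ℂ)))
  have hq := Glue.quad_nonneg (Finset.univ : Finset (Fin L.length × Fin L.length))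
    (fun x => ((L[x.1].2.2 * L[x.2].2.2 : ℝ) : ℂ))
    (fun x => Pm g (madd L[x.1].1 L[x.2].2.1)) (fun x => Pm g (madd L[x.2].1 L[x.1].2.1))
    (fun x => e + (n x.1 + n x.2 : ℕ)) hR (fun _ _ => by positivity) (fun _ _ => hd _)
    (fun _ _ => hd _) ?_
  · have heq : ∀ m, sqTerm g e L m = (∑ x : Fin L.length × Fin L.length,
        ((L[x.1].2.2 * L[x.2].2.2 : ℝ) : ℂ) * (coef (Pm g (madd L[x.1].1 L[x.2].2.1)) m *
          conj (coef (Pm g (madd L[x.2].1 L[x.1].2.1)) m) * (nu (e + (n x.1 + n x.2 : ℕ)) m : ℂ))).re := by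
      intro m
      rw [Complex.re_sum, sqTerm, Fintype.sum_prod_type]
      refine Finset.sum_congr rfl fun a _ => Finset.sum_congr rfl fun b _ => ?_
      rw [Complex.re_ofReal_mul, mul_comm (_ * conj _) ((nu _ m : ℝ) : ℂ), Complex.re_ofReal_mul]
      simp only [cm, hn]
      ring
    exact ⟨hq.1.congr fun m => (heq m).symm, le_of_le_of_eq hq.2 (tsum_congr fun m => (heq m).symm)⟩
  intro w hw
  rw [mem_ball_zero_iff] at hw
  set X : ℝ := 1 - ‖w‖ ^ 2 with hX
  have hX0 : 0 < X := by rw [hX]; nlinarith [norm_nonneg w]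
  set v : Fin L.length → ℂ := fun a => ((L[a].2.2 * X ^ n a : ℝ) : ℂ) *
    (w ^ wte L[a].1 * mono (jet g w) L[a].1 * conj (w ^ wte L[a].2.1 * mono (jet g w) L[a].2.1))
    with hv
  have hsum : ∑ x : Fin L.length × Fin L.length, ((L[x.1].2.2 * L[x.2].2.2 : ℝ) : ℂ) *
      ((X ^ (e + ((n x.1 + n x.2 : ℕ) : ℝ)) : ℝ) : ℂ) *
      (Pm g (madd L[x.1].1 L[x.2].2.1) w * conj (Pm g (madd L[x.2].1 L[x.1].2.1) w)) =
      ((X ^ e * ‖(deriv g w)⁻¹‖ ^ 2 * ‖∑ a, v a‖ ^ 2 : ℝ) : ℂ) := by
    rw [Complex.ofReal_mul, Complex.ofReal_mul, Complex.ofReal_pow, ← Complex.mul_conj',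
      Complex.ofReal_pow, ← Complex.mul_conj', map_sum, Finset.sum_mul_sum, Fintype.sum_prod_type,
      Finset.mul_sum]
    refine Finset.sum_congr rfl fun a _ => ?_
    rw [Finset.mul_sum]
    refine Finset.sum_congr rfl fun b _ => ?_
    rw [Real.rpow_add hX0, Real.rpow_natCast]
    simp only [hv, Pm, phi, wte_madd, mono_madd, map_mul, map_pow, Complex.conj_ofReal,
      Complex.conj_conj]
    push_cast
    ring
  rw [hsum, Complex.ofReal_re]
  positivity

end

end Vale.Agent.P142.Sharp.Mon
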