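import Mathlib
import Vale.Agent.P142.Sharp.DegreeTools
import Vale.Agent.P142.Sharp.Mon

/-!
The test functions for the area tail: jet, symmetry and Lie rows, their identities and limits.
-/

namespace Vale.Agent.P142.Sharp

/-- The rows used to build test functions. -/
inductive TRow
  | jet (i j : ℕ)
  | sym (i j : ℕ)
  | lie (d : ℕ)
  deriving DecidableEq, Repr

namespace TRow

open Filter Topology Finset

/-- Admissible rows for `I + 1` multipliers. -/
def ok (I : ℕ) : TRow → Bool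
  | jet i j => decide (i ≤ I) && decide (j ≤ 6)
  | sym i j => decide (i + j ≤ I)
  | lie _ => true

/-- Degree of the limit polynomials. -/
def deg : TRow → ℕ
  | jet _ j => j
  | sym _ j => j
  | lie d => d + 1

/-- Coefficient of `t ^ k` in `(1 - t) ^ j`. -/
def oneSub (j k : ℕ) : ℚ := (-1) ^ k * (j.choose k : ℚ)

/-- Coefficient of `t ^ k` of the limit of the `i`-th test function. -/
def pc : TRow → ℕ → ℕ → ℚ
  | jet i₀ j, i, k => if i = i₀ then oneSub j k else 0
  | sym i₀ j, i, k => (if i = i₀ then oneSub j k else 0) -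
      (if i₀ ≤ i ∧ i ≤ i₀ + j ∧ k = j - (i - i₀) then (j.choose (i - i₀) : ℚ) * (-1) ^ (i - i₀) else 0)
  | lie d, i, k => if i = 0 then (if k = d + 1 then 1 else 0) + (if k = 0 then 0 else oneSub d (k - 1))
      else 0

noncomputable section

/-- The `i`-th test function of a row at `p`, for degree `N`. -/
def psi : TRow → ℕ → ℕ → ℕ → ℝ
  | jet i₀ j, i, N, p => if i = i₀ then ((N - p).descFactorial j : ℝ) / (N : ℝ) ^ j else 0
  | sym i₀ j, i, N, p => (if i = i₀ then ((N - p).descFactorial j : ℝ) / (N : ℝ) ^ j else 0) -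
      (if i₀ ≤ i ∧ i ≤ i₀ + j then (j.choose (i - i₀) : ℝ) * (-1) ^ (i - i₀) *
        ((((descPochhammer ℤ (j - (i - i₀))).eval
          ((p : ℤ) - (i₀ : ℤ) - ((i - i₀ : ℕ) : ℤ)) : ℤ) : ℝ) / (N : ℝ) ^ (j - (i - i₀))) else 0)
  | lie d, i, N, p => if i = 0 then ((p : ℝ) / N) *
      (((p : ℝ) / N) ^ d + ((((N - p : ℕ) : ℝ) + 1) / N) ^ d) else 0

/-- The limit polynomial. -/
def lim (r : TRow) (i : ℕ) (t : ℝ) : ℝ := ∑ k ∈ range (r.deg + 1), (pc r i k : ℝ) * t ^ k

/-- Uniform closeness of order `1 / N`, with boundedness. -/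
def Near (a b : ℕ → ℕ → ℝ) : Prop :=
  ∃ C : ℝ, 0 ≤ C ∧ ∀ N : ℕ, 1 ≤ N → ∀ p ≤ N, |a N p - b N p| ≤ C / N ∧ |a N p| ≤ C ∧ |b N p| ≤ C

lemma Near.add {a b a' b' : ℕ → ℕ → ℝ} (h : Near a b) (h' : Near a' b') :
    Near (fun N p => a N p + a' N p) (fun N p => b N p + b' N p) := by
  obtain ⟨C, hC, h⟩ := h
  obtain ⟨C', hC', h'⟩ := h'
  refine ⟨C + C', by linarith, fun N hN p hp => ?_⟩
  obtain ⟨h1, h2, h3⟩ := h N hN p hp
  obtain ⟨h1', h2', h3'⟩ := h' N hN p hp
  refine ⟨?_, (abs_add_le _ _).trans (by linarith), (abs_add_le _ _).trans (by linarith)⟩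
  rw [show a N p + a' N p - (b N p + b' N p) = (a N p - b N p) + (a' N p - b' N p) by ring, add_div]
  exact (abs_add_le _ _).trans (by linarith)

lemma Near.mul {a b a' b' : ℕ → ℕ → ℝ} (h : Near a b) (h' : Near a' b') :
    Near (fun N p => a N p * a' N p) (fun N p => b N p * b' N p) := by
  obtain ⟨C, hC, h⟩ := h
  obtain ⟨C', hC', h'⟩ := h'
  refine ⟨2 * (C * C'), by positivity, fun N hN p hp => ?_⟩
  obtain ⟨h1, h2, h3⟩ := h N hN p hp
  obtain ⟨h1', h2', h3'⟩ := h' N hN p hp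
  have hprod : ∀ {x y : ℝ}, |x| ≤ C → |y| ≤ C' → |x * y| ≤ 2 * (C * C') := fun hx hy => by
    rw [abs_mul]
    nlinarith [mul_le_mul hx hy (abs_nonneg _) hC, mul_nonneg hC hC']
  refine ⟨?_, hprod h2 h2', hprod h3 h3'⟩
  rw [show a N p * a' N p - b N p * b' N p =
    a N p * (a' N p - b' N p) + (a N p - b N p) * b' N p by ring]
  refine (abs_add_le _ _).trans ?_
  rw [abs_mul, abs_mul]
  calc |a N p| * |a' N p - b' N p| + |a N p - b N p| * |b' N p| ≤ C * (C' / N) + C / N * C' :=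
        add_le_add (mul_le_mul h2 h1' (abs_nonneg _) hC) (mul_le_mul h1 h3' (abs_nonneg _) (by positivity))
    _ = _ := by ring

lemma Near.const (c : ℝ) : Near (fun _ _ => c) (fun _ _ => c) :=
  ⟨|c|, abs_nonneg c, fun N _ p _ => ⟨by simp only [sub_self, abs_zero]; positivity, le_rfl, le_rfl⟩⟩

lemma Near.pow {a b : ℕ → ℕ → ℝ} (h : Near a b) (n : ℕ) :
    Near (fun N p => a N p ^ n) (fun N p => b N p ^ n) := by
  induction n with
  | zero => simpa using Near.const 1
  | succ n ih => simpa only [pow_succ] using ih.mul h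

lemma Near.congr {a b a' b' : ℕ → ℕ → ℝ} (h : Near a b)
    (ha : ∀ N, 1 ≤ N → ∀ p ≤ N, a' N p = a N p) (hb : ∀ N, 1 ≤ N → ∀ p ≤ N, b' N p = b N p) :
    Near a' b' := by
  obtain ⟨C, hC, h⟩ := h
  exact ⟨C, hC, fun N hN p hp => by rw [ha N hN p hp, hb N hN p hp]; exact h N hN p hp⟩

lemma Near.ratio (c : ℝ) : Near (fun N p => (p : ℝ) / N + c / N) (fun N p => (p : ℝ) / N) := by
  refine ⟨1 + |c|, by positivity, fun N hN p hp => ?_⟩
  have hN' : (1 : ℝ) ≤ N := by exact_mod_cast hN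
  have hp' : (p : ℝ) / N ≤ 1 := by rw [div_le_one (by linarith)]; exact_mod_cast hp
  have hp0 : 0 ≤ (p : ℝ) / N := by positivity
  have hc : |c / N| ≤ |c| := by
    rw [abs_div, Nat.abs_cast]; exact div_le_self (abs_nonneg c) hN'
  refine ⟨?_, (abs_add_le _ _).trans (by rw [abs_of_nonneg hp0]; linarith), ?_⟩
  · rw [add_sub_cancel_left, abs_div, Nat.abs_cast]
    gcongr; linarith
  · rw [abs_of_nonneg hp0]; linarith [abs_nonneg c]

lemma Near.ratio' (c : ℝ) :
    Near (fun N p => ((N - p : ℕ) : ℝ) / N + c / N) (fun N p => 1 - (p : ℝ) / N) := by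
  obtain ⟨C, hC, h⟩ := Near.ratio c
  refine ⟨C, hC, fun N hN p hp => ?_⟩
  have hN' : (0 : ℝ) < N := by exact_mod_cast hN
  have e : 1 - (p : ℝ) / N = ((N - p : ℕ) : ℝ) / N := by
    rw [Nat.cast_sub hp, sub_div, div_self hN'.ne']
  simp only []
  rw [e]
  exact h N hN (N - p) (Nat.sub_le N p)

lemma near_desc (j : ℕ) : Near (fun N p => ((N - p).descFactorial j : ℝ) / (N : ℝ) ^ j)
    (fun N p => (1 - (p : ℝ) / N) ^ j) := by
  induction j with
  | zero => simpa using Near.const 1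
  | succ j ih =>
    refine (ih.mul (Near.ratio' (-(j : ℝ)))).congr (fun N hN p _ => ?_) (fun N _ p _ => pow_succ _ _)
    rw [Nat.descFactorial_succ, pow_succ]
    rcases le_or_gt j (N - p) with h | h
    · rw [Nat.cast_mul, Nat.cast_sub h]
      ring
    · rw [Nat.descFactorial_eq_zero_iff_lt.2 h]
      simp

lemma near_poch (a j : ℕ) : Near
    (fun N p => (((descPochhammer ℤ j).eval ((p : ℤ) - (a : ℤ)) : ℤ) : ℝ) / (N : ℝ) ^ j)
    (fun N p => ((p : ℝ) / N) ^ j) := by
  induction j with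
  | zero => simpa using Near.const 1
  | succ j ih =>
    refine (ih.mul (Near.ratio (-((a : ℝ) + j)))).congr (fun N hN p _ => ?_) (fun N _ p _ => pow_succ _ _)
    rw [descPochhammer_succ_eval, pow_succ]
    push_cast
    ring

lemma sum_oneSub (j : ℕ) (t : ℝ) :
    ∑ k ∈ range (j + 1), (oneSub j k : ℝ) * t ^ k = (1 - t) ^ j := by
  rw [show (1 - t) ^ j = (-t + 1) ^ j by ring_nf, add_pow]
  refine sum_congr rfl fun k _ => ?_
  simp only [oneSub]
  push_cast
  rw [show (-t) ^ k = (-1 : ℝ) ^ k * t ^ k by rw [← mul_pow]; ring_nf]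
  ring

lemma near_psi (r : TRow) (i : ℕ) : Near (psi r i) (fun N p => lim r i ((p : ℝ) / N)) := by
  cases r with
  | jet i₀ j =>
    by_cases h : i = i₀
    · refine (near_desc j).congr (fun N _ p _ => by simp only [psi, if_pos h]) fun N _ p _ => ?_
      simp only [lim, deg, pc, if_pos h, sum_oneSub]
    · refine (Near.const 0).congr (fun N _ p _ => by simp only [psi, if_neg h]) fun N _ p _ => ?_
      simp [lim, pc, h]
  | sym i₀ j =>
    have h1 : Near (fun N p => if i = i₀ then ((N - p).descFactorial j : ℝ) / (N : ℝ) ^ j else 0)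
        (fun N p => if i = i₀ then (1 - (p : ℝ) / N) ^ j else 0) := by
      by_cases h : i = i₀
      · exact (near_desc j).congr (fun N _ p _ => if_pos h) fun N _ p _ => if_pos h
      · exact (Near.const 0).congr (fun N _ p _ => if_neg h) fun N _ p _ => if_neg h
    by_cases hl : i₀ ≤ i ∧ i ≤ i₀ + j
    · refine (h1.add ((Near.const (-((j.choose (i - i₀) : ℝ) * (-1) ^ (i - i₀)))).mul
        (near_poch (i₀ + (i - i₀)) (j - (i - i₀))))).congr (fun N _ p _ => ?_) fun N _ p _ => ?_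
      · simp only [psi, if_pos hl]
        rw [Nat.cast_add, sub_sub]
        ring
      · simp only [lim, deg, pc, Rat.cast_sub, sub_mul, sum_sub_distrib]
        have e2 : ∑ k ∈ range (j + 1), (((if i₀ ≤ i ∧ i ≤ i₀ + j ∧ k = j - (i - i₀) then
            (j.choose (i - i₀) : ℚ) * (-1) ^ (i - i₀) else 0) : ℚ) : ℝ) * ((p : ℝ) / N) ^ k =
            (j.choose (i - i₀) : ℝ) * (-1) ^ (i - i₀) * ((p : ℝ) / N) ^ (j - (i - i₀)) := by
          rw [sum_eq_single (j - (i - i₀))]
          · rw [if_pos ⟨hl.1, hl.2, rfl⟩]; push_cast; ring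
          · exact fun k _ hk => by simp [hk]
          · exact fun hk => absurd (mem_range.2 (by omega)) hk
        rw [e2]
        by_cases h : i = i₀
        · simp only [if_pos h, sum_oneSub]; ring
        · simp only [if_neg h, Rat.cast_zero, zero_mul, sum_const_zero]; ring
    · refine h1.congr (fun N _ p _ => by simp only [psi, if_neg hl, sub_zero]) fun N _ p _ => ?_
      have : ∀ k, ¬(i₀ ≤ i ∧ i ≤ i₀ + j ∧ k = j - (i - i₀)) := fun k h => hl ⟨h.1, h.2.1⟩
      simp only [lim, deg, pc, if_neg (this _), sub_zero]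
      by_cases h : i = i₀
      · simp only [if_pos h, sum_oneSub]
      · simp [h]
  | lie d =>
    by_cases h : i = 0
    · refine ((Near.ratio 0).mul (((Near.ratio 0).pow d).add ((Near.ratio' 1).pow d))).congr
        (fun N _ p _ => by simp only [psi, if_pos h, zero_div, add_zero, add_div]) fun N _ p _ => ?_
      simp only [lim, deg, pc, if_pos h, Rat.cast_add, add_mul, sum_add_distrib, mul_add]
      congr 1
      · rw [sum_eq_single (d + 1)]
        · simp [pow_succ']
        · exact fun k _ hk => by simp [hk]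
        · exact fun hk => absurd (mem_range.2 (by omega)) hk
      · rw [sum_range_succ', ← sum_oneSub d, Finset.mul_sum]
        simp [pow_succ', mul_left_comm, mul_assoc]
    · refine (Near.const 0).congr (fun N _ p _ => by simp only [psi, if_neg h]) fun N _ p _ => ?_
      simp [lim, pc, h]

/-- The Gram sum of two test functions. -/
def gsum (r s : TRow) (i : ℕ) (g : ℝ) (N : ℕ) : ℝ :=
  ∑ p ∈ range (N + 1), psi r i N p * psi s i N p * ((((N - p : ℕ) : ℝ) + 1) / nu g p)

/-- Its limit. -/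
def glim (r s : TRow) (i : ℕ) (g : ℚ) : ℚ :=
  ∑ k ∈ range (r.deg + 1), ∑ l ∈ range (s.deg + 1),
    pc r i k * pc s i l * (1 / (g + 2 + k + l) - 1 / (g + 3 + k + l))

theorem tendsto_gsum (r s : TRow) (i : ℕ) {g : ℚ} (hg : 0 ≤ g) :
    Tendsto (fun N : ℕ => gsum r s i g N * nu g N / (N : ℝ) ^ 2) atTop (𝓝 (glim r s i g : ℝ)) := by
  have hg' : (0 : ℝ) ≤ g := by exact_mod_cast hg
  obtain ⟨C, hC, hnear⟩ := (near_psi r i).mul (near_psi s i)
  set w : ℕ → ℕ → ℝ := fun N p => (((N - p : ℕ) : ℝ) + 1) / nu (g : ℝ) p with hw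
  have hw0 : ∀ N p, 0 ≤ w N p := fun N p => by
    have := (nu_bounds hg' p).1
    positivity
  have hmain : Tendsto (fun N : ℕ => ∑ k ∈ range (r.deg + 1), ∑ l ∈ range (s.deg + 1),
      (pc r i k : ℝ) * (pc s i l : ℝ) * (DegreeTools.gram g N (k + l) * nu g N / (N : ℝ) ^ 2))
      atTop (𝓝 (glim r s i g : ℝ)) := by
    rw [glim, Rat.cast_sum]
    refine tendsto_finsetSum _ fun k _ => ?_
    rw [Rat.cast_sum]
    refine tendsto_finsetSum _ fun l _ => ?_
    have h := (DegreeTools.tendsto_gram hg' (k + l)).const_mul ((pc r i k : ℝ) * (pc s i l : ℝ))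
    push_cast at h ⊢
    simpa only [add_assoc] using h
  have herr : Tendsto (fun N : ℕ => C * (1 / (N : ℝ)) * (DegreeTools.gram g N 0 * nu g N / (N : ℝ) ^ 2))
      atTop (𝓝 0) := by
    simpa using (tendsto_one_div_atTop_nhds_zero_nat.const_mul C).mul (DegreeTools.tendsto_gram hg' 0)
  refine tendsto_of_tendsto_of_dist hmain (squeeze_zero' (Eventually.of_forall fun N => dist_nonneg)
    ?_ herr)
  filter_upwards [eventually_ge_atTop 1] with N hN
  have e : ∑ k ∈ range (r.deg + 1), ∑ l ∈ range (s.deg + 1),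
      (pc r i k : ℝ) * (pc s i l : ℝ) * (DegreeTools.gram g N (k + l) * nu g N / (N : ℝ) ^ 2) =
      (∑ p ∈ range (N + 1), lim r i ((p : ℝ) / N) * lim s i ((p : ℝ) / N) * w N p) *
        nu g N / (N : ℝ) ^ 2 := by
    simp only [DegreeTools.gram, lim, hw, Finset.sum_mul, Finset.mul_sum, Finset.sum_div]
    symm
    rw [Finset.sum_comm]
    refine (sum_congr rfl fun _ _ => Finset.sum_comm).trans ?_
    rw [Finset.sum_comm]
    exact sum_congr rfl fun k _ => sum_congr rfl fun l _ => sum_congr rfl fun p _ => by rw [pow_add]; ring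
  have hν := (nu_bounds hg' N).1
  rw [e, Real.dist_eq, gsum, ← sub_div, ← sub_mul, ← sum_sub_distrib, abs_div, abs_mul,
    abs_of_pos hν, abs_of_nonneg (by positivity : (0 : ℝ) ≤ (N : ℝ) ^ 2), ← mul_div_assoc,
    ← mul_assoc]
  refine div_le_div_of_nonneg_right (mul_le_mul_of_nonneg_right ?_ hν.le) (by positivity)
  refine (abs_sum_le_sum_abs _ _).trans ?_
  rw [DegreeTools.gram, Finset.mul_sum]
  refine sum_le_sum fun p hp => ?_
  rw [pow_zero, one_mul, ← sub_mul, abs_mul, abs_of_nonneg (hw0 N p), abs_sub_comm, mul_one_div]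
  exact mul_le_mul_of_nonneg_right (hnear N hN p (Nat.lt_succ_iff.1 (mem_range.1 hp))).1 (hw0 N p)

/-- The right hand sides: jets, nothing, and the coefficient of `1 / f'`. -/
def rhs (f : ℂ → ℂ) : TRow → ℕ → ℂ
  | jet i j, N => (j.factorial : ℂ) *
      coef (fun z => z ^ (j + 2) * Hfun f i z * U0 f j z) (N + 2) / (N : ℂ) ^ (i + j)
  | sym _ _, _ => 0
  | lie d, N => -(coef (Hfun f 0) (N + 2) * ((N : ℂ) *
      ((∑ p ∈ range (N + 1), ((p : ℝ) / N) ^ (d + 1) * ((((N - p : ℕ) : ℝ) + 1) / N) : ℝ) : ℂ)))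

/-- The identity of a row. -/
theorem ident {f : ℂ → ℂ} {u : ℕ → ℕ → ℕ → ℂ} (hu : Rows f u) {I : ℕ} {r : TRow}
    (hr : r.ok I = true) {N : ℕ} (hN : 1 ≤ N) :
    ∑ i ∈ range (I + 1), (∑ q ∈ range (N + 1), (psi r i N (N - q) : ℂ) * u i (N - q) q) / (N : ℂ) ^ i =
      rhs f r N := by
  have hN0 : (N : ℂ) ≠ 0 := by exact_mod_cast (by omega : N ≠ 0)
  have hdesc : ∀ i₀ j : ℕ, i₀ ≤ I → ∑ i ∈ range (I + 1), (∑ q ∈ range (N + 1),
      (((if i = i₀ then ((N - (N - q)).descFactorial j : ℝ) / (N : ℝ) ^ j else 0) : ℝ) : ℂ) *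
        u i (N - q) q) / (N : ℂ) ^ i =
      (∑ q ∈ range (N + 1), (q.descFactorial j : ℂ) * u i₀ (N - q) q) / (N : ℂ) ^ (i₀ + j) := by
    intro i₀ j hi
    rw [sum_eq_single i₀]
    · rw [Finset.sum_div, Finset.sum_div]
      refine sum_congr rfl fun q hq => ?_
      rw [if_pos rfl, Nat.sub_sub_self (Nat.lt_succ_iff.1 (mem_range.1 hq)), pow_add]
      push_cast
      field_simp
    · exact fun i _ hi => by simp [hi]
    · exact fun h => absurd (mem_range.2 (by omega)) h
  cases r with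
  | jet i₀ j =>
    simp only [ok, Bool.and_eq_true, decide_eq_true_eq] at hr
    simp only [psi, rhs, hdesc i₀ j hr.1, hu.jets i₀ j N hr.2]
  | sym i₀ j =>
    simp only [ok, decide_eq_true_eq] at hr
    simp only [psi, rhs, Complex.ofReal_sub, sub_mul, sum_sub_distrib, sub_div, hdesc i₀ j (by omega),
      hu.symm i₀ j N, sub_eq_zero]
    rw [Finset.sum_div]
    have hsub : (range (I + 1)).filter (fun i => i₀ ≤ i ∧ i ≤ i₀ + j) =
        (range (j + 1)).image (fun l => i₀ + l) := by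
      ext i
      simp only [mem_filter, mem_range, mem_image]
      exact ⟨fun h => ⟨i - i₀, by omega, by omega⟩, by rintro ⟨l, hl, rfl⟩; omega⟩
    have hif : ∀ (i q : ℕ) (c : ℝ), (((if i₀ ≤ i ∧ i ≤ i₀ + j then c else 0) : ℝ) : ℂ) * u i (N - q) q =
        if i₀ ≤ i ∧ i ≤ i₀ + j then (c : ℂ) * u i (N - q) q else 0 := fun i q c => by
      split_ifs <;> simp
    simp only [hif, Finset.sum_ite_irrel, sum_const_zero, ite_div, zero_div]
    rw [← Finset.sum_filter, hsub, Finset.sum_image (fun a _ b _ h => by simpa using h)]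
    refine sum_congr rfl fun l hl => ?_
    have hl := mem_range.1 hl
    rw [Finset.mul_sum, Finset.sum_div, Finset.sum_div]
    refine sum_congr rfl fun q _ => ?_
    rw [Nat.add_sub_cancel_left,
      show (N : ℂ) ^ (i₀ + j) = (N : ℂ) ^ i₀ * ((N : ℂ) ^ l * (N : ℂ) ^ (j - l)) by
        rw [← pow_add, ← pow_add]; congr 1; omega, pow_add (N : ℂ) i₀ l]
    generalize Polynomial.eval (((N - q : ℕ) : ℤ) - (i₀ : ℤ) - (l : ℤ)) (descPochhammer ℤ (j - l)) = z
    push_cast
    field_simp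
  | lie d =>
    simp only [psi, rhs]
    rw [sum_eq_single 0]
    · rw [pow_zero, div_one]
      set τ : ℕ → ℂ := fun p => (((p + 1 : ℕ) : ℂ) / N) ^ d with hτ
      obtain ⟨M, rfl⟩ : ∃ M, N = M + 1 := ⟨N - 1, by omega⟩
      have hsum : ∑ p ∈ range (M + 1), τ p * (((p : ℂ) + 1) * u 0 (p + 1) (M - p) +
          (((M - p : ℕ) : ℂ) + 1) * u 0 (M - p + 1) p) =
          ∑ p ∈ range (M + 1), τ p * -(((p : ℂ) + 1) * (((M - p : ℕ) : ℂ) + 1) * coef (Hfun f 0) (M + 3)) := by
        refine sum_congr rfl fun p hp => ?_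
        rw [hu.lie p (M - p), show p + (M - p) + 3 = M + 3 by have := mem_range.1 hp; omega]
        ring
      simp only [mul_add, sum_add_distrib] at hsum
      rw [← sum_range_reflect (fun p => τ p * ((((M - p : ℕ) : ℂ) + 1) * u 0 (M - p + 1) p)),
        ← sum_add_distrib] at hsum
      have hL : ∑ q ∈ range (M + 1 + 1), ((((((M + 1 - q : ℕ) : ℝ) / ((M + 1 : ℕ) : ℝ)) *
            ((((M + 1 - q : ℕ) : ℝ) / ((M + 1 : ℕ) : ℝ)) ^ d +
              ((((M + 1 - (M + 1 - q) : ℕ) : ℝ) + 1) / ((M + 1 : ℕ) : ℝ)) ^ d)) : ℝ) : ℂ) * u 0 (M + 1 - q) q =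
          (∑ p ∈ range (M + 1), (τ p * (((p : ℂ) + 1) * u 0 (p + 1) (M - p)) +
            τ (M + 1 - 1 - p) * ((((M - (M + 1 - 1 - p) : ℕ) : ℂ) + 1) *
              u 0 (M - (M + 1 - 1 - p) + 1) (M + 1 - 1 - p)))) / ((M + 1 : ℕ) : ℂ) := by
        conv_lhs => rw [← sum_range_reflect, sum_range_succ']
        rw [Finset.sum_div]
        have hz : M + 1 - (M + 1 + 1 - 1 - 0) = 0 := by omega
        simp only [hz, CharP.cast_eq_zero, zero_div, zero_mul, Complex.ofReal_zero, add_zero]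
        refine sum_congr rfl fun p hp => ?_
        have hp := mem_range.1 hp
        rw [show M + 1 + 1 - 1 - (p + 1) = M - p by omega, show M + 1 - (M - p) = p + 1 by omega,
          show M + 1 - (p + 1) = M - p by omega, show M + 1 - 1 - p = M - p by omega,
          show M - (M - p) = p by omega]
        simp only [hτ]
        push_cast
        field_simp
      simp only [if_true]
      rw [hL, hsum]
      rw [show M + 1 + 2 = M + 3 by rfl, Complex.ofReal_sum, sum_range_succ' _ (M + 1)]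
      simp only [CharP.cast_eq_zero, zero_div, ne_eq, Nat.add_eq_zero_iff, one_ne_zero, and_false,
        not_false_eq_true, zero_pow, zero_mul, Complex.ofReal_zero, add_zero, Finset.mul_sum,
        Finset.sum_div, ← Finset.sum_neg_distrib]
      refine sum_congr rfl fun p hp => ?_
      have hp := mem_range.1 hp
      rw [show M + 1 - (p + 1) = M - p by omega]
      simp only [hτ]
      have h1M : (M : ℂ) + 1 ≠ 0 := Nat.cast_add_one_ne_zero M
      have hsub : ((M - p : ℕ) : ℂ) = (M : ℂ) - p := Nat.cast_sub (by omega)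
      push_cast [hsub, pow_succ]
      generalize (((p : ℂ) + 1) / ((M : ℂ) + 1)) ^ d = X
      field_simp
    · exact fun i _ hi => by simp [hi]
    · exact fun h => absurd (mem_range.2 (by omega)) h

/-- Limit of `rhs` of a Lie row, relative to the coefficient. -/
theorem tendsto_lie (d : ℕ) : Tendsto (fun N : ℕ =>
    (∑ p ∈ range (N + 1), ((p : ℝ) / N) ^ (d + 1) * ((((N - p : ℕ) : ℝ) + 1) / N)) / N)
    atTop (𝓝 (1 / ((d : ℝ) + 2) - 1 / ((d : ℝ) + 3))) := by
  have hpow : ∀ k : ℕ, Tendsto (fun N : ℕ => (∑ p ∈ range (N + 1), ((p : ℝ) / N) ^ k) / N) atTop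
      (𝓝 (1 / ((k : ℝ) + 1))) := by
    intro k
    have h1 : Tendsto (fun N : ℕ => (((N : ℝ) + 1) / N) ^ (k + 1) * (1 / ((k : ℝ) + 1))) atTop
        (𝓝 (1 / ((k : ℝ) + 1))) := by
      simpa using ((tendsto_natCast_add_div 1).pow (k + 1)).mul_const (1 / ((k : ℝ) + 1))
    have h2 : Tendsto (fun N : ℕ => (((N : ℝ) + 1) / N) ^ (k + 1) * (1 / ((k : ℝ) + 1)) -
        (((N : ℝ) + 1) / N) ^ k * (1 / (N : ℝ))) atTop (𝓝 (1 / ((k : ℝ) + 1))) := by
      simpa using h1.sub (((tendsto_natCast_add_div 1).pow k).mul tendsto_one_div_atTop_nhds_zero_nat)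
    refine tendsto_of_tendsto_of_tendsto_of_le_of_le' h2 h1 ?_ ?_ <;>
      filter_upwards [eventually_ge_atTop 1] with N hN <;>
      have hN' : (0 : ℝ) < N := by exact_mod_cast hN
    · have hb := (sum_pow_bounds k (N + 1)).1
      push_cast at hb
      rw [show (∑ p ∈ range (N + 1), ((p : ℝ) / N) ^ k) / N =
        (((k : ℝ) + 1) * ∑ p ∈ range (N + 1), (p : ℝ) ^ k) / (((k : ℝ) + 1) * (N : ℝ) ^ (k + 1)) by
          simp only [div_pow, ← Finset.sum_div]; field_simp; ring,
        le_div_iff₀ (by positivity)]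
      refine le_trans (le_of_eq ?_) hb
      simp only [div_pow]
      field_simp
      ring
    · have hb := (sum_pow_bounds k (N + 1)).2
      push_cast at hb
      rw [show (∑ p ∈ range (N + 1), ((p : ℝ) / N) ^ k) / N =
        (((k : ℝ) + 1) * ∑ p ∈ range (N + 1), (p : ℝ) ^ k) / (((k : ℝ) + 1) * (N : ℝ) ^ (k + 1)) by
          simp only [div_pow, ← Finset.sum_div]; field_simp; ring,
        div_le_iff₀ (by positivity)]
      refine hb.trans (le_of_eq ?_)
      simp only [div_pow]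
      field_simp
  have h := (((tendsto_natCast_add_div 1).mul (hpow (d + 1)))).sub (hpow (d + 2))
  push_cast at h
  rw [one_mul, show (d : ℝ) + 1 + 1 = d + 2 by ring, show (d : ℝ) + 2 + 1 = d + 3 by ring] at h
  refine h.congr' ?_
  filter_upwards [eventually_ge_atTop 1] with N hN
  rw [← mul_div_assoc, Finset.mul_sum, ← sub_div, ← sum_sub_distrib]
  congr 1
  refine sum_congr rfl fun p hp => ?_
  rw [Nat.cast_sub (Nat.lt_succ_iff.1 (mem_range.1 hp)), pow_succ _ (d + 1)]
  have : (N : ℝ) ≠ 0 := by exact_mod_cast (by omega : N ≠ 0)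
  field_simp
  ring

end

end TRow

end Vale.Agent.P142.Sharp
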