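import Mathlib
import Vale.Agent.P142.Sharp.TestFun

/-!
A finite certificate gives the inequality in all large degrees, hence the coefficient bound.
-/

namespace Vale.Agent.P142.Sharp

open Filter Topology Finset ComplexConjugate MeasureTheory
open scoped ENNReal

/-- Certificate data. -/
structure Cert where
  /-- The exponent. -/
  e : ℚ
  /-- The monomials. -/
  mons : List Mon.Mn
  /-- The multipliers of the area inequalities for `z^i h^(i)`. -/
  lam : List ℚ
  /-- The rows with their multiplier vectors over the monomials. -/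
  rows : List (TRow × List ℚ)
  /-- The squares with their weights. -/
  squares : List (ℚ × List (Mon.Mn × Mon.Mn × ℚ))
  /-- The monomials to which the derivation is applied, with multiplier vectors. -/
  dmult : List (Mon.Mn × List ℚ)

namespace Cert

/-- Whether the combination uses only monomials of the certificate. -/
def covers (C : Cert) (P : Mon.Poly) : Bool := P.all fun t => t.2 == 0 || C.mons.contains t.1

/-- Validity of the data. -/
def valid (C : Cert) : Bool :=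
  decide (0 ≤ C.e) && C.mons.contains Mon.one && decide (0 < C.lam.length) &&
  C.lam.all (fun l => decide (0 < l)) &&
  C.rows.all (fun r => r.1.ok (C.lam.length - 1) && match r.1 with
    | .jet i j => C.covers (Mon.jetsPoly i j) &&
        ((List.range i).all fun l => (Mon.Dpow l).all fun t => t.2 == 0 || Mon.ex t.1 7 == 0) &&
        ((Mon.jetsPoly i j).all fun t => t.2 == 0 || Mon.wte t.1 == i + j + 2)
    | _ => true) &&
  C.squares.all (fun s => decide (0 ≤ s.1) &&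
    s.2.all fun p => s.2.all fun q => C.mons.contains (Mon.madd p.1 q.2.1)) &&
  C.dmult.all (fun d => Mon.ex d.1 7 == 0 && C.mons.contains d.1 && C.covers (Mon.Dmon d.1))

/-- The product `(e + 1) ⋯ (e + n)`. -/
def Pi (C : Cert) (n : ℕ) : ℚ := ∏ l ∈ range n, (C.e + 1 + l)

/-- The coordinates of a combination. -/
def lin (C : Cert) (P : Mon.Poly) (a : Fin C.mons.length) : ℚ :=
  (P.map fun t => if C.mons.idxOf t.1 = a.val then t.2 else 0).sum

/-- The coordinates of a monomial. -/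
def unit (C : Cert) (t : Mon.Mn) (a : Fin C.mons.length) : ℚ :=
  if C.mons.idxOf t = a.val then 1 else 0

/-- A multiplier vector. -/
def vec (C : Cert) (Y : List ℚ) (a : Fin C.mons.length) : ℚ := Y.getD a.val 0

/-- The right hand side of a row in coordinates, in the limit. -/
def brow (C : Cert) : TRow → Fin C.mons.length → ℚ
  | .jet i j, a => (j.factorial : ℚ) * C.lin (Mon.jetsPoly i j) a
  | .sym _ _, _ => 0
  | .lie d, a => -(1 / ((d : ℚ) + 2) - 1 / ((d : ℚ) + 3)) * C.unit Mon.one a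

/-- The limit matrix of squares and area tail. -/
def matA (C : Cert) (a b : Fin C.mons.length) : ℚ :=
  (∑ s : Fin C.squares.length, C.squares[s].1 *
    ∑ p : Fin C.squares[s].2.length, ∑ q : Fin C.squares[s].2.length,
      C.squares[s].2[p].2.2 * C.squares[s].2[q].2.2 *
        C.Pi (Mon.wte C.squares[s].2[p].1 + Mon.wte C.squares[s].2[p].2.1 +
          (Mon.wte C.squares[s].2[q].1 + Mon.wte C.squares[s].2[q].2.1)) *
        (C.unit (Mon.madd C.squares[s].2[p].1 C.squares[s].2[q].2.1) a *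
          C.unit (Mon.madd C.squares[s].2[q].1 C.squares[s].2[p].2.1) b)) +
  ((∑ i : Fin C.lam.length, C.lam[i] * C.Pi (2 * i.val)) * (C.unit Mon.one a * C.unit Mon.one b) -
    2 * (∑ r : Fin C.rows.length, C.vec C.rows[r].2 a * C.brow C.rows[r].1 b) +
    ∑ r : Fin C.rows.length, ∑ s : Fin C.rows.length,
      (∑ i : Fin C.lam.length, TRow.glim C.rows[r].1 C.rows[s].1 i.val (C.e + (2 * i.val + 2 : ℕ)) /
        (C.lam[i] * C.Pi (2 * i.val + 2))) * (C.vec C.rows[r].2 a * C.vec C.rows[s].2 b))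

/-- The derivation constraint in the limit. -/
def dcon (C : Cert) (r : Fin C.dmult.length) (a : Fin C.mons.length) : ℚ :=
  C.lin (Mon.Dmon C.dmult[r].1) a - C.unit C.dmult[r].1 a

/-- The matrix that has to be negative definite. -/
def limA (C : Cert) (a b : Fin C.mons.length) : ℚ :=
  C.matA a b + ∑ r : Fin C.dmult.length, C.dcon r a * C.vec C.dmult[r].2 b

noncomputable section

variable {C : Cert}

lemma valid_iff (h : C.valid = true) :
    0 ≤ C.e ∧ Mon.one ∈ C.mons ∧ 0 < C.lam.length ∧ (∀ l ∈ C.lam, 0 < l) ∧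
    (∀ r ∈ C.rows, r.1.ok (C.lam.length - 1) = true ∧ ∀ i j, r.1 = .jet i j →
      C.covers (Mon.jetsPoly i j) = true ∧ (∀ l < i, ∀ t ∈ Mon.Dpow l, t.2 = 0 ∨ Mon.ex t.1 7 = 0) ∧
        ∀ t ∈ Mon.jetsPoly i j, t.2 = 0 ∨ Mon.wte t.1 = i + j + 2) ∧
    (∀ s ∈ C.squares, 0 ≤ s.1 ∧ ∀ p ∈ s.2, ∀ q ∈ s.2, Mon.madd p.1 q.2.1 ∈ C.mons) ∧
    (∀ d ∈ C.dmult, Mon.ex d.1 7 = 0 ∧ d.1 ∈ C.mons ∧ C.covers (Mon.Dmon d.1) = true) := by
  simp only [valid, Bool.and_eq_true, decide_eq_true_eq, List.all_eq_true, beq_iff_eq,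
    List.contains_iff_mem] at h
  obtain ⟨⟨⟨⟨⟨⟨h1, h2⟩, h3⟩, h4⟩, h5⟩, h6⟩, h7⟩ := h
  refine ⟨h1, h2, h3, h4, fun r hr => ?_, h6, fun d hd => ⟨(h7 d hd).1.1, (h7 d hd).1.2, (h7 d hd).2⟩⟩
  obtain ⟨ho, hj⟩ := h5 r hr
  refine ⟨ho, fun i j hij => ?_⟩
  rw [hij] at hj
  simp only [Bool.and_eq_true, List.all_eq_true, beq_iff_eq, Bool.or_eq_true, List.mem_range] at hj
  exact ⟨hj.1.1, fun l hl t ht => hj.1.2 l hl t ht, fun t ht => hj.2 t ht⟩

/-- The normalised coefficient vector in degree `m`. -/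
def xvec (C : Cert) (g : ℂ → ℂ) (m : ℕ) (a : Fin C.mons.length) : ℂ :=
  Mon.cm g C.mons[a] m / (m : ℂ) ^ Mon.wte C.mons[a]

/-- Pairing with a rational vector. -/
def dot (C : Cert) (v : Fin C.mons.length → ℝ) (x : Fin C.mons.length → ℂ) : ℂ :=
  ∑ a, (v a : ℂ) * x a

lemma dot_unit {g : ℂ → ℂ} {m : ℕ} {t : Mon.Mn} (ht : t ∈ C.mons) :
    C.dot (fun a => (C.unit t a : ℝ)) (C.xvec g m) = Mon.cm g t m / (m : ℂ) ^ Mon.wte t := by
  have hlt := List.idxOf_lt_length_of_mem ht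
  rw [dot, sum_eq_single (⟨C.mons.idxOf t, hlt⟩ : Fin C.mons.length)]
  · simp [unit, xvec, List.getElem_idxOf hlt]
  · intro b _ hb
    have : C.mons.idxOf t ≠ b.val := fun h => hb (Fin.ext h.symm)
    simp [unit, this]
  · simp

lemma dot_lin {g : ℂ → ℂ} {m : ℕ} {P : Mon.Poly} (hP : C.covers P = true) :
    C.dot (fun a => (C.lin P a : ℝ)) (C.xvec g m) =
      (P.map fun t => (t.2 : ℂ) * (Mon.cm g t.1 m / (m : ℂ) ^ Mon.wte t.1)).sum := by
  induction P with
  | nil => simp [dot, lin]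
  | cons t P ih =>
    simp only [covers, List.all_cons, Bool.and_eq_true, Bool.or_eq_true, beq_iff_eq,
      List.contains_iff_mem] at hP
    have e : (fun a => (C.lin (t :: P) a : ℝ)) =
        fun a => (t.2 : ℝ) * (C.unit t.1 a : ℝ) + (C.lin P a : ℝ) := by
      funext a
      simp only [lin, unit, List.map_cons, List.sum_cons]
      split_ifs <;> push_cast <;> ring
    rw [e, List.map_cons, List.sum_cons, ← ih hP.2]
    simp only [dot, Complex.ofReal_add, Complex.ofReal_mul, Complex.ofReal_ratCast, add_mul,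
      sum_add_distrib, mul_assoc, ← Finset.mul_sum]
    congr 1
    rcases hP.1 with h | h
    · simp [h]
    · have := C.dot_unit (g := g) (m := m) h
      simp only [dot, Complex.ofReal_ratCast] at this
      rw [this]

/-- The forms of outer products. -/
lemma form_outer (u v : Fin C.mons.length → ℝ) (x : Fin C.mons.length → ℂ) :
    DegreeTools.form (fun a b => u a * v b) x = (C.dot u x * conj (C.dot v x)).re := by
  rw [dot, dot, map_sum, Finset.sum_mul_sum, Complex.re_sum, DegreeTools.form]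
  refine sum_congr rfl fun a _ => ?_
  rw [Complex.re_sum]
  refine sum_congr rfl fun b _ => ?_
  rw [map_mul, Complex.conj_ofReal, show (u a : ℂ) * x a * ((v b : ℂ) * conj (x b)) =
    ((u a * v b : ℝ) : ℂ) * (x a * conj (x b)) by push_cast; ring, Complex.re_ofReal_mul]

lemma form_add (A B : Fin C.mons.length → Fin C.mons.length → ℝ) (x : Fin C.mons.length → ℂ) :
    DegreeTools.form (fun a b => A a b + B a b) x = DegreeTools.form A x + DegreeTools.form B x := by
  simp only [DegreeTools.form, add_mul, sum_add_distrib]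

lemma form_smul (c : ℝ) (A : Fin C.mons.length → Fin C.mons.length → ℝ) (x : Fin C.mons.length → ℂ) :
    DegreeTools.form (fun a b => c * A a b) x = c * DegreeTools.form A x := by
  simp only [DegreeTools.form, mul_assoc, Finset.mul_sum]

lemma form_sum {κ : Type} (S : Finset κ) (A : κ → Fin C.mons.length → Fin C.mons.length → ℝ)
    (x : Fin C.mons.length → ℂ) :
    DegreeTools.form (fun a b => ∑ k ∈ S, A k a b) x = ∑ k ∈ S, DegreeTools.form (A k) x := by
  simp only [DegreeTools.form, Finset.sum_mul]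
  rw [Finset.sum_comm (s := S)]
  exact sum_congr rfl fun a _ => Finset.sum_comm

/-! ### The matrices in degree `m` -/

/-- Squares. -/
def sqMat (C : Cert) (m : ℕ) (a b : Fin C.mons.length) : ℝ :=
  ∑ s : Fin C.squares.length, (C.squares[s].1 : ℝ) *
    ∑ p : Fin C.squares[s].2.length, ∑ q : Fin C.squares[s].2.length,
      ((C.squares[s].2[p].2.2 : ℝ) * C.squares[s].2[q].2.2) *
        (nu ((C.e : ℝ) + (Mon.wte C.squares[s].2[p].1 + Mon.wte C.squares[s].2[p].2.1 +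
          (Mon.wte C.squares[s].2[q].1 + Mon.wte C.squares[s].2[q].2.1) : ℕ)) m *
          (m : ℝ) ^ (Mon.wte C.squares[s].2[p].1 + Mon.wte C.squares[s].2[p].2.1 +
          (Mon.wte C.squares[s].2[q].1 + Mon.wte C.squares[s].2[q].2.1)) / nu C.e m) *
        ((C.unit (Mon.madd C.squares[s].2[p].1 C.squares[s].2[q].2.1) a : ℝ) *
          (C.unit (Mon.madd C.squares[s].2[q].1 C.squares[s].2[p].2.1) b : ℝ))

/-- Right hand side of a row in degree `m`. -/
def bm (C : Cert) : TRow → ℕ → Fin C.mons.length → ℝ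
  | .jet i j, m, a => ((m : ℝ) / ((m - 2 : ℕ) : ℝ)) ^ (i + j + 2) * (C.brow (.jet i j) a : ℝ)
  | .sym _ _, _, _ => 0
  | .lie d, m, a => -((∑ p ∈ range (m - 2 + 1), ((p : ℝ) / ((m - 2 : ℕ) : ℝ)) ^ (d + 1) *
      ((((m - 2 - p : ℕ) : ℝ) + 1) / ((m - 2 : ℕ) : ℝ))) / ((m - 2 : ℕ) : ℝ)) * (C.unit Mon.one a : ℝ)

/-- The ratio of the weights of neighbouring degrees. -/
def rho (C : Cert) (m : ℕ) : ℝ := nu C.e (m - 2) / nu C.e m

/-- Coefficient of a pair of rows. -/
def qcoef (C : Cert) (r s : TRow) (i : Fin C.lam.length) (m : ℕ) : ℝ :=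
  rho C m / (C.lam[i] : ℝ) *
    (TRow.gsum r s i.val ((C.e : ℝ) + (2 * i.val + 2 : ℕ)) (m - 2) *
      nu ((C.e : ℝ) + (2 * i.val + 2 : ℕ)) (m - 2) / ((m - 2 : ℕ) : ℝ) ^ 2) *
    (nu C.e (m - 2) / (nu ((C.e : ℝ) + (2 * i.val + 2 : ℕ)) (m - 2) *
      ((m - 2 : ℕ) : ℝ) ^ (2 * i.val + 2)))

/-- Area tail. -/
def areaMat (C : Cert) (m : ℕ) (a b : Fin C.mons.length) : ℝ :=
  (∑ i : Fin C.lam.length, (C.lam[i] : ℝ) * (((m.descFactorial i.val : ℝ) / (m : ℝ) ^ i.val) ^ 2 *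
      (nu ((C.e : ℝ) + (2 * i.val : ℕ)) m * (m : ℝ) ^ (2 * i.val) / nu C.e m))) *
      ((C.unit Mon.one a : ℝ) * (C.unit Mon.one b : ℝ)) +
    (-2 * rho C m) * (∑ r : Fin C.rows.length, (C.vec C.rows[r].2 a : ℝ) * C.bm C.rows[r].1 m b) +
    ∑ r : Fin C.rows.length, ∑ s : Fin C.rows.length,
      (∑ i : Fin C.lam.length, C.qcoef C.rows[r].1 C.rows[s].1 i m) *
        ((C.vec C.rows[r].2 a : ℝ) * (C.vec C.rows[s].2 b : ℝ))

/-- The constraint in degree `m`. -/
def conMat (C : Cert) (m : ℕ) (r : Fin C.dmult.length) (a : Fin C.mons.length) : ℝ :=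
  (C.lin (Mon.Dmon C.dmult[r].1) a : ℝ) -
    (1 - (Mon.wte C.dmult[r].1 : ℝ) / m) * (C.unit C.dmult[r].1 a : ℝ)

/-! ### Limits -/

lemma tendsto_ratio (c : ℕ) (k : ℕ) :
    Tendsto (fun N : ℕ => ((((N + c : ℕ) : ℝ)) / N) ^ k) atTop (𝓝 1) := by
  have h := (tendsto_natCast_add_div (c : ℝ)).pow k
  rw [one_pow] at h
  simpa only [Nat.cast_add] using h

lemma tendsto_sub_two : Tendsto (fun m : ℕ => m - 2) atTop atTop := tendsto_sub_atTop_nat 2

lemma Pi_eq (he : 0 ≤ C.e) (n : ℕ) :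
    (C.Pi n : ℝ) = ∏ l ∈ range n, ((C.e : ℝ) + 1 + l) ∧ (0 : ℝ) < C.Pi n := by
  have h : (C.Pi n : ℝ) = ∏ l ∈ range n, ((C.e : ℝ) + 1 + l) := by
    simp [Pi, Rat.cast_prod]
  refine ⟨h, h ▸ prod_pos fun l _ => ?_⟩
  have : (0 : ℝ) ≤ C.e := by exact_mod_cast he
  positivity

lemma tendsto_rho (he : 0 ≤ C.e) : Tendsto (rho C) atTop (𝓝 1) := by
  have he' : (0 : ℝ) ≤ C.e := by exact_mod_cast he
  have h := ((tendsto_nu_shift he' 2).inv₀ one_ne_zero).comp tendsto_sub_two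
  rw [inv_one] at h
  refine h.congr' ?_
  filter_upwards [eventually_ge_atTop 2] with m hm
  simp only [Function.comp_apply, inv_div, Nat.sub_add_cancel hm, rho]

lemma tendsto_matA (he : 0 ≤ C.e) (hl : ∀ l ∈ C.lam, 0 < l) (a b : Fin C.mons.length) :
    Tendsto (fun m => C.sqMat m a b + C.areaMat m a b) atTop (𝓝 (C.matA a b : ℝ)) := by
  have he' : (0 : ℝ) ≤ C.e := by exact_mod_cast he
  simp only [matA, Rat.cast_add, Rat.cast_sub, Rat.cast_mul, Rat.cast_sum, Rat.cast_ofNat]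
  refine Tendsto.add ?_ ?_
  · refine tendsto_finsetSum _ fun s _ => Tendsto.const_mul _ (tendsto_finsetSum _ fun p _ =>
      tendsto_finsetSum _ fun q _ => (Tendsto.const_mul _ ?_).mul_const _)
    rw [(Pi_eq he _).1]
    exact tendsto_nu_raise he' _
  rw [sub_eq_add_neg, ← neg_mul]
  refine Tendsto.add (Tendsto.add ?_ ?_) ?_
  · refine (tendsto_finsetSum _ fun i _ => ?_).mul_const _
    have h := (((tendsto_descFactorial_div_pow i.val).pow 2).mul (tendsto_nu_raise he' (2 * i.val))).const_mul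
      (C.lam[i] : ℝ)
    rw [one_pow, one_mul, ← (Pi_eq he _).1] at h
    exact h
  · have h2 := (tendsto_rho he).const_mul (-2 : ℝ)
    rw [mul_one] at h2
    refine h2.mul (tendsto_finsetSum _ fun r _ => Tendsto.const_mul _ ?_)
    generalize C.rows[r].1 = row
    cases row with
    | jet i j =>
      have h := ((tendsto_ratio 2 (i + j + 2)).comp tendsto_sub_two).mul_const (C.brow (.jet i j) b : ℝ)
      rw [one_mul] at h
      refine h.congr' ?_
      filter_upwards [eventually_ge_atTop 2] with m hm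
      simp only [Function.comp_apply, bm, Nat.sub_add_cancel hm]
    | sym i j => simp [bm, brow]
    | lie d =>
      have h := (((TRow.tendsto_lie d).comp tendsto_sub_two).neg).mul_const (C.unit Mon.one b : ℝ)
      simp only [bm, brow]
      push_cast
      exact h
  · refine tendsto_finsetSum _ fun r _ => tendsto_finsetSum _ fun s _ =>
      (tendsto_finsetSum _ fun i _ => ?_).mul_const _
    have hg : (0 : ℚ) ≤ C.e + (2 * i.val + 2 : ℕ) := by positivity
    have h1 := (TRow.tendsto_gsum C.rows[r].1 C.rows[s].1 i.val hg).comp tendsto_sub_two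
    have h2 := (((tendsto_nu_raise he' (2 * i.val + 2))).inv₀
      ((Pi_eq he (2 * i.val + 2)).1 ▸ (Pi_eq he (2 * i.val + 2)).2.ne')).comp tendsto_sub_two
    have h := (((tendsto_rho he).div_const (C.lam[i] : ℝ)).mul h1).mul h2
    rw [← (Pi_eq he _).1] at h
    push_cast at h ⊢
    refine Tendsto.congr (fun m => ?_) (h.trans (le_of_eq (by congr 1; field_simp)))
    simp only [Function.comp_apply, qcoef, inv_div]
    push_cast
    ring

lemma tendsto_conMat (r : Fin C.dmult.length) (a : Fin C.mons.length) :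
    Tendsto (fun m => C.conMat m r a) atTop (𝓝 (C.dcon r a : ℝ)) := by
  have h := ((tendsto_const_nhds (x := (1 : ℝ))).sub
    (tendsto_const_div_atTop_nhds_zero_nat (Mon.wte C.dmult[r].1 : ℝ))).mul_const (C.unit C.dmult[r].1 a : ℝ)
  rw [sub_zero, one_mul] at h
  have h' := (tendsto_const_nhds (x := (C.lin (Mon.Dmon C.dmult[r].1) a : ℝ))).sub h
  simp only [dcon, Rat.cast_sub]
  exact h'

/-! ### The inequality in one degree -/

/-- The summand whose sum over all degrees is nonnegative. -/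
def Q (C : Cert) (g : ℂ → ℂ) (u : ℕ → ℕ → ℕ → ℂ) (m : ℕ) : ℝ :=
  (∑ s : Fin C.squares.length, (C.squares[s].1 : ℝ) *
    Mon.sqTerm g C.e (C.squares[s].2.map fun p => (p.1, p.2.1, (p.2.2 : ℝ))) m) +
  ∑ i : Fin C.lam.length, (C.lam[i] : ℝ) *
    (‖coef (Hfun g i.val) m‖ ^ 2 * nu ((C.e : ℝ) + (2 * i.val : ℕ)) m -
      if m < 2 then 0 else Glue.tail u i.val ((C.e : ℝ) + (2 * i.val + 2 : ℕ)) (m - 2))

lemma sqTerm_map (g : ℂ → ℂ) (e : ℝ) (L : List (Mon.Mn × Mon.Mn × ℚ)) (m : ℕ) :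
    Mon.sqTerm g e (L.map fun p => (p.1, p.2.1, (p.2.2 : ℝ))) m =
      ∑ p : Fin L.length, ∑ q : Fin L.length, ((L[p].2.2 : ℝ) * L[q].2.2) *
        (Mon.cm g (Mon.madd L[p].1 L[q].2.1) m * conj (Mon.cm g (Mon.madd L[q].1 L[p].2.1) m)).re *
        nu (e + (Mon.wte L[p].1 + Mon.wte L[p].2.1 + (Mon.wte L[q].1 + Mon.wte L[q].2.1) : ℕ)) m := by
  have hlen : (L.map fun p => (p.1, p.2.1, (p.2.2 : ℝ))).length = L.length := List.length_map ..
  rw [Mon.sqTerm, ← Equiv.sum_comp (finCongr hlen.symm)]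
  refine sum_congr rfl fun p _ => ?_
  rw [← Equiv.sum_comp (finCongr hlen.symm)]
  refine sum_congr rfl fun q _ => ?_
  simp

lemma sq_bound {g : ℂ → ℂ} {m : ℕ} (hm : 1 ≤ m) (hC : C.valid = true) :
    ∑ s : Fin C.squares.length, (C.squares[s].1 : ℝ) *
      Mon.sqTerm g C.e (C.squares[s].2.map fun p => (p.1, p.2.1, (p.2.2 : ℝ))) m =
    nu C.e m * DegreeTools.form (C.sqMat m) (C.xvec g m) := by
  obtain ⟨he, -, -, -, -, hsq, -⟩ := valid_iff hC
  have he' : (0 : ℝ) ≤ C.e := by exact_mod_cast he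
  have hν := (nu_bounds he' m).1.ne'
  unfold sqMat
  simp only [form_sum, form_smul, form_outer, Finset.mul_sum, sqTerm_map]
  refine sum_congr rfl fun s _ => sum_congr rfl fun p _ => sum_congr rfl fun q _ => ?_
  obtain ⟨-, hmem⟩ := hsq _ (List.getElem_mem s.isLt)
  simp only [Fin.getElem_fin] at hmem ⊢
  have h1 := dot_unit (C := C) (g := g) (m := m) (hmem _ (List.getElem_mem p.isLt) _ (List.getElem_mem q.isLt))
  have h2 := dot_unit (C := C) (g := g) (m := m) (hmem _ (List.getElem_mem q.isLt) _ (List.getElem_mem p.isLt))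
  simp only [Fin.getElem_fin] at h1 h2
  rw [h1, h2]
  simp only [Mon.wte_madd, map_div₀, map_pow, Complex.conj_natCast]
  rw [div_mul_div_comm, ← pow_add, ← Complex.ofReal_natCast, ← Complex.ofReal_pow,
    Complex.div_ofReal_re]
  have hm0 : (m : ℝ) ≠ 0 := by exact_mod_cast (by omega : m ≠ 0)
  field_simp
  ring

lemma rhs_eq {g : ℂ → ℂ} {R : ℝ} (hR : 1 ≤ R) (hg : DifferentiableOn ℂ g (Metric.ball 0 R))
    (hginj : Set.InjOn g (Metric.ball 0 R)) {m : ℕ} (hm : 3 ≤ m) (hC : C.valid = true)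
    (r : Fin C.rows.length) :
    TRow.rhs g C.rows[r].1 (m - 2) =
      (((m - 2 : ℕ) : ℂ)) ^ 2 * C.dot (C.bm C.rows[r].1 m) (C.xvec g m) := by
  obtain ⟨-, hnil, -, -, hrow, -, -⟩ := valid_iff hC
  obtain ⟨hok, hjet⟩ := hrow _ (List.getElem_mem r.isLt)
  have hN : (((m - 2 : ℕ) : ℂ)) ≠ 0 := by exact_mod_cast (by omega : m - 2 ≠ 0)
  have hmc : (m : ℂ) ≠ 0 := by exact_mod_cast (by omega : m ≠ 0)
  have hg1 := hg.mono (Metric.ball_subset_ball hR)
  have hi1 := hginj.mono (Metric.ball_subset_ball hR)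
  simp only [Fin.getElem_fin] at hok hjet ⊢
  generalize (C.rows[r.val]).1 = row at hok hjet ⊢
  cases row with
  | jet i j =>
    obtain ⟨hcov, hdp, hwt⟩ := hjet i j rfl
    simp only [TRow.ok, Bool.and_eq_true, decide_eq_true_eq] at hok
    simp only [TRow.rhs, show m - 2 + 2 = m by omega]
    rw [Mon.coef_jets hg1 hi1 hok.2 hdp hwt]
    have hsum : ((Mon.jetsPoly i j).map fun t => (t.2 : ℂ) * Mon.cm g t.1 m).sum =
        (m : ℂ) ^ (i + j + 2) * C.dot (fun a => (C.lin (Mon.jetsPoly i j) a : ℝ)) (C.xvec g m) := by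
      rw [dot_lin hcov, ← List.sum_map_mul_left]
      refine congrArg List.sum (List.map_congr_left fun t ht => ?_)
      rcases hwt t ht with h | h
      · simp [h]
      · rw [h]; field_simp
    rw [hsum]
    simp only [dot, bm, brow, Finset.mul_sum, Finset.sum_div]
    refine sum_congr rfl fun a _ => ?_
    push_cast
    rw [div_pow, pow_add ((m - 2 : ℕ) : ℂ) (i + j) 2]
    field_simp
  | sym i j => simp [TRow.rhs, dot, bm]
  | lie d =>
    have h0 := dot_unit (C := C) (g := g) (m := m) hnil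
    simp only [Mon.cm_one, Mon.wte_one, pow_zero, div_one] at h0
    simp only [TRow.rhs, show m - 2 + 2 = m by omega]
    generalize hS : (∑ p ∈ range (m - 2 + 1), ((p : ℝ) / ((m - 2 : ℕ) : ℝ)) ^ (d + 1) *
      ((((m - 2 - p : ℕ) : ℝ) + 1) / ((m - 2 : ℕ) : ℝ))) = S
    simp only [dot, bm, hS, Complex.ofReal_mul, mul_assoc, ← Finset.mul_sum] at h0 ⊢
    rw [h0]
    push_cast
    field_simp

lemma hfun_eq (g : ℂ → ℂ) : RowsProof.hfun g = Hfun g 0 := by
  funext z; simp [RowsProof.hfun, Hfun]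

/-- The dual bound for one multiplier. -/
lemma tail_scaled (he' : (0 : ℝ) ≤ C.e) (hl : ∀ l ∈ C.lam, 0 < l) (u : ℕ → ℕ → ℕ → ℂ) {N : ℕ}
    (hNr : (N : ℝ) ≠ 0) (hNc : (N : ℂ) ≠ 0) (α : ℝ) (μ : Fin C.rows.length → ℂ)
    (i : Fin C.lam.length) :
    2 * α * (∑ r : Fin C.rows.length, conj (μ r) *
          ((∑ q ∈ range (N + 1), (TRow.psi C.rows[r].1 i.val N (N - q) : ℂ) * u i.val (N - q) q) /
            (N : ℂ) ^ i.val) / (N : ℂ) ^ 2).re -
        α ^ 2 / ((C.lam[i] : ℝ) * (N : ℝ) ^ (2 * i.val + 4)) *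
          ∑ r : Fin C.rows.length, ∑ s : Fin C.rows.length, (μ r * conj (μ s)).re *
            TRow.gsum C.rows[r].1 C.rows[s].1 i.val ((C.e : ℝ) + (2 * i.val + 2 : ℕ)) N ≤
      (C.lam[i] : ℝ) * Glue.tail u i.val ((C.e : ℝ) + (2 * i.val + 2 : ℕ)) N := by
  have hli : (0 : ℝ) < (C.lam[i] : ℝ) := by exact_mod_cast hl _ (List.getElem_mem i.isLt)
  set c : ℝ := α / ((C.lam[i] : ℝ) * (N : ℝ) ^ (i.val + 2)) with hc
  set S : ℕ → ℂ := fun q => ∑ r : Fin C.rows.length, μ r * (TRow.psi C.rows[r].1 i.val N (N - q) : ℂ)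
    with hS
  have h := mul_le_mul_of_nonneg_left (DegreeTools.tail_dual u i.val
    (g := (C.e : ℝ) + (2 * i.val + 2 : ℕ)) (by positivity) N (fun q => (c : ℂ) * S q)) hli.le
  refine le_trans (le_of_eq ?_) h
  rw [sum_sub_distrib, mul_sub]
  congr 1
  · rw [← Finset.mul_sum, ← Complex.re_sum,
      show (C.lam[i] : ℝ) * (2 * (∑ q ∈ range (N + 1), conj ((c : ℂ) * S q) * u i.val (N - q) q).re) =
        2 * ((((C.lam[i] : ℝ)) : ℂ) * ∑ q ∈ range (N + 1), conj ((c : ℂ) * S q) * u i.val (N - q) q).re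
        by rw [Complex.re_ofReal_mul]; ring,
      mul_assoc, ← Complex.re_ofReal_mul]
    congr 2
    simp only [hS, map_mul, map_sum, Complex.conj_ofReal, Finset.mul_sum, Finset.sum_mul, Finset.sum_div]
    rw [Finset.sum_comm]
    refine sum_congr rfl fun q _ => sum_congr rfl fun r _ => ?_
    simp only [hc]
    push_cast
    have : (((C.lam[i] : ℚ) : ℂ)) ≠ 0 := by exact_mod_cast (hl _ (List.getElem_mem i.isLt)).ne'
    rw [pow_add]
    field_simp
  · have hexp : ∀ q, ‖(c : ℂ) * S q‖ ^ 2 = c ^ 2 * ∑ r : Fin C.rows.length, ∑ s : Fin C.rows.length,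
        (μ r * conj (μ s)).re * (TRow.psi C.rows[r].1 i.val N (N - q) * TRow.psi C.rows[s].1 i.val N (N - q)) := by
      intro q
      rw [norm_mul, mul_pow, Complex.norm_real, Real.norm_eq_abs, sq_abs]
      congr 1
      rw [← Complex.ofReal_re (‖S q‖ ^ 2), Complex.ofReal_pow, ← Complex.mul_conj', hS, map_sum,
        Finset.sum_mul_sum, Complex.re_sum]
      refine sum_congr rfl fun r _ => ?_
      rw [Complex.re_sum]
      refine sum_congr rfl fun s _ => ?_
      rw [map_mul, Complex.conj_ofReal, mul_mul_mul_comm, ← Complex.ofReal_mul,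
        mul_comm _ (((_ : ℝ)) : ℂ), Complex.re_ofReal_mul]
      ring
    simp only [hexp, mul_assoc, Finset.mul_sum, Finset.sum_mul]
    rw [Finset.sum_comm (γ := ℕ)]
    refine sum_congr rfl fun r _ => ?_
    rw [Finset.sum_comm (γ := ℕ)]
    refine sum_congr rfl fun s _ => ?_
    rw [TRow.gsum, ← sum_range_reflect, Finset.mul_sum, Finset.mul_sum]
    refine sum_congr rfl fun q hq => ?_
    have hq := Finset.mem_range.1 hq
    rw [show N + 1 - 1 - q = N - q by omega, show N - (N - q) = q by omega, hc]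
    field_simp
    ring

lemma area_e1 (x : Fin C.mons.length → ℂ) {m : ℕ} (hν : 0 < nu (C.e : ℝ) m) (hm : 3 ≤ m) :
    nu (C.e : ℝ) m * ((∑ i : Fin C.lam.length, (C.lam[i] : ℝ) *
      (((m.descFactorial i.val : ℝ) / (m : ℝ) ^ i.val) ^ 2 *
        (nu ((C.e : ℝ) + (2 * i.val : ℕ)) m * (m : ℝ) ^ (2 * i.val) / nu C.e m))) *
        ‖C.dot (fun a => (C.unit Mon.one a : ℝ)) x‖ ^ 2) =
      ∑ i : Fin C.lam.length, (C.lam[i] : ℝ) * ((m.descFactorial i.val : ℝ) ^ 2 *
        ‖C.dot (fun a => (C.unit Mon.one a : ℝ)) x‖ ^ 2 * nu ((C.e : ℝ) + (2 * i.val : ℕ)) m) := by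
  rw [Finset.sum_mul, Finset.mul_sum]
  refine sum_congr rfl fun i _ => ?_
  have hm0 : (m : ℝ) ≠ 0 := by exact_mod_cast (by omega : m ≠ 0)
  rw [mul_comm 2 i.val, pow_mul]
  field_simp

lemma area_e2 (x : Fin C.mons.length → ℂ) (μ : Fin C.rows.length → ℂ) {m N : ℕ} {α : ℝ}
    (hν : 0 < nu (C.e : ℝ) m) (hN : N = m - 2) (hα : α = nu (C.e : ℝ) N) :
    nu (C.e : ℝ) m * (-2 * rho C m * ∑ r : Fin C.rows.length,
      (μ r * conj (C.dot (C.bm C.rows[r].1 m) x)).re) =
      -(2 * α * ∑ r : Fin C.rows.length, (μ r * conj (C.dot (C.bm C.rows[r].1 m) x)).re) := by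
  rw [rho, ← hN, ← hα]
  field_simp

lemma area_e3 (μ : Fin C.rows.length → ℂ) {m N : ℕ} {α : ℝ} (he' : (0 : ℝ) ≤ C.e)
    (hl : ∀ l ∈ C.lam, 0 < l) (hν : 0 < nu (C.e : ℝ) m) (hN : N = m - 2) (hNr : (N : ℝ) ≠ 0)
    (hα : α = nu (C.e : ℝ) N) :
    nu (C.e : ℝ) m * ∑ r : Fin C.rows.length, ∑ s : Fin C.rows.length,
      (∑ i : Fin C.lam.length, C.qcoef C.rows[r].1 C.rows[s].1 i m) * (μ r * conj (μ s)).re =
      ∑ i : Fin C.lam.length, α ^ 2 / ((C.lam[i] : ℝ) * (N : ℝ) ^ (2 * i.val + 4)) *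
          ∑ r : Fin C.rows.length, ∑ s : Fin C.rows.length, (μ r * conj (μ s)).re *
            TRow.gsum C.rows[r].1 C.rows[s].1 i.val ((C.e : ℝ) + (2 * i.val + 2 : ℕ)) N := by
  simp only [Finset.mul_sum, Finset.sum_mul]
  rw [eq_comm, Finset.sum_comm]
  refine sum_congr rfl fun r _ => ?_
  rw [Finset.sum_comm]
  refine sum_congr rfl fun s _ => sum_congr rfl fun i _ => ?_
  have hli : (C.lam[i] : ℝ) ≠ 0 := by exact_mod_cast (hl _ (List.getElem_mem i.isLt)).ne'
  have hνg := (nu_bounds (show (0 : ℝ) ≤ (C.e : ℝ) + (2 * i.val + 2 : ℕ) by positivity) N).1.ne'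
  rw [qcoef, rho, ← hN, ← hα, show 2 * i.val + 4 = 2 + (2 * i.val + 2) by ring, pow_add]
  field_simp

lemma area_bound {g : ℂ → ℂ} {R : ℝ} (hR : 1 < R) (hg : DifferentiableOn ℂ g (Metric.ball 0 R))
    (hginj : Set.InjOn g (Metric.ball 0 R)) {u : ℕ → ℕ → ℕ → ℂ} (hu : Rows g u) {m : ℕ} (hm : 3 ≤ m)
    (hC : C.valid = true) :
    ∑ i : Fin C.lam.length, (C.lam[i] : ℝ) *
      (‖coef (Hfun g i.val) m‖ ^ 2 * nu ((C.e : ℝ) + (2 * i.val : ℕ)) m -
        if m < 2 then 0 else Glue.tail u i.val ((C.e : ℝ) + (2 * i.val + 2 : ℕ)) (m - 2)) ≤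
      nu C.e m * DegreeTools.form (C.areaMat m) (C.xvec g m) := by
  obtain ⟨he, hnil, hlen, hl, hrow, -, -⟩ := valid_iff hC
  have he' : (0 : ℝ) ≤ C.e := by exact_mod_cast he
  have hν := (nu_bounds he' m).1
  set x := C.xvec g m with hx
  set N := m - 2 with hN
  have hN1 : 1 ≤ N := by omega
  have hNr : (N : ℝ) ≠ 0 := by exact_mod_cast (by omega : N ≠ 0)
  have hNc : (N : ℂ) ≠ 0 := by exact_mod_cast (by omega : N ≠ 0)
  set α := nu (C.e : ℝ) N with hα
  set μ : Fin C.rows.length → ℂ := fun r => C.dot (fun a => (C.vec C.rows[r].2 a : ℝ)) x with hμ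
  have hT := fun i : Fin C.lam.length => tail_scaled he' hl u hNr hNc α μ i
  have htail := Finset.sum_le_sum fun i (_ : i ∈ (univ : Finset (Fin C.lam.length))) => hT i
  have hident : ∀ r : Fin C.rows.length, ∑ i : Fin C.lam.length,
      (∑ q ∈ range (N + 1), (TRow.psi C.rows[r].1 i.val N (N - q) : ℂ) * u i.val (N - q) q) /
        (N : ℂ) ^ i.val = (N : ℂ) ^ 2 * C.dot (C.bm C.rows[r].1 m) x := by
    intro r
    rw [← rhs_eq hR.le hg hginj hm hC r, ← TRow.ident (r := C.rows[r].1) hu (hrow _ (List.getElem_mem r.isLt)).1 hN1,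
      show C.lam.length - 1 + 1 = C.lam.length by omega]
    exact Fin.sum_univ_eq_sum_range (fun i : ℕ => (∑ q ∈ range (N + 1),
      (TRow.psi C.rows[r].1 i N (N - q) : ℂ) * u i (N - q) q) / (N : ℂ) ^ i) _
  have hlin : ∑ i : Fin C.lam.length, 2 * α * (∑ r : Fin C.rows.length, conj (μ r) *
      ((∑ q ∈ range (N + 1), (TRow.psi C.rows[r].1 i.val N (N - q) : ℂ) * u i.val (N - q) q) /
        (N : ℂ) ^ i.val) / (N : ℂ) ^ 2).re =
      2 * α * ∑ r : Fin C.rows.length, (μ r * conj (C.dot (C.bm C.rows[r].1 m) x)).re := by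
    rw [← Finset.mul_sum, ← Complex.re_sum, Finset.sum_comm, Complex.re_sum]
    congr 1
    refine sum_congr rfl fun r _ => ?_
    rw [← Finset.sum_div, ← Finset.mul_sum, hident r]
    rw [show conj (μ r) * ((N : ℂ) ^ 2 * C.dot (C.bm C.rows[r].1 m) x) / (N : ℂ) ^ 2 =
      conj (μ r * conj (C.dot (C.bm C.rows[r].1 m) x)) by
        rw [map_mul, Complex.conj_conj]; field_simp, Complex.conj_re]
  have hR0 : ∀ i : Fin C.lam.length, ‖coef (Hfun g i.val) m‖ ^ 2 =
      (m.descFactorial i.val : ℝ) ^ 2 * ‖C.dot (fun a => (C.unit Mon.one a : ℝ)) x‖ ^ 2 := by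
    intro i
    rw [hx, dot_unit hnil, Mon.cm_one, Mon.wte_one, pow_zero, div_one,
      RowsProof.coef_Hfun hg hginj (by linarith), norm_mul, mul_pow, Complex.norm_natCast, hfun_eq]
  rw [sum_sub_distrib, hlin] at htail
  unfold areaMat
  simp only [form_add, form_smul, form_sum, form_outer]
  simp only [mul_sub, sum_sub_distrib, if_neg (show ¬m < 2 by omega), hR0, Complex.mul_conj',
    ← Complex.ofReal_pow, Complex.ofReal_re]
  refine le_trans (sub_le_sub_left htail _) (le_of_eq ?_)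
  rw [mul_add, mul_add, sub_sub_eq_add_sub, add_sub_assoc, add_comm _ (_ - _)]
  rw [area_e1 x hν hm, area_e2 x μ hν hN hα, area_e3 μ he' hl hν hN hNr hα]
  ring

lemma con_zero {g : ℂ → ℂ} {R : ℝ} (hR : 1 ≤ R) (hg : DifferentiableOn ℂ g (Metric.ball 0 R))
    (hginj : Set.InjOn g (Metric.ball 0 R)) {m : ℕ} (hm : 1 ≤ m) (hC : C.valid = true)
    (r : Fin C.dmult.length) : ∑ a, (C.conMat m r a : ℂ) * C.xvec g m a = 0 := by
  obtain ⟨-, -, -, -, -, -, hd⟩ := valid_iff hC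
  obtain ⟨h7, hmem, hcov⟩ := hd _ (List.getElem_mem r.isLt)
  have hmc : (m : ℂ) ≠ 0 := by exact_mod_cast (by omega : m ≠ 0)
  have hder := Mon.cm_derivation (hg.mono (Metric.ball_subset_ball hR))
    (hginj.mono (Metric.ball_subset_ball hR)) h7 m
  have e1 := dot_lin (C := C) (g := g) (m := m) hcov
  have e2 := dot_unit (C := C) (g := g) (m := m) hmem
  simp only [dot, Complex.ofReal_ratCast] at e1 e2
  simp only [conMat, Fin.getElem_fin, Complex.ofReal_sub, Complex.ofReal_mul, Complex.ofReal_ratCast,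
    Complex.ofReal_div, Complex.ofReal_one, Complex.ofReal_natCast, sub_mul, sum_sub_distrib,
    mul_assoc, ← Finset.mul_sum, e1, e2]
  have e3 : ((Mon.Dmon C.dmult[r.val].1).map fun t =>
      (t.2 : ℂ) * (Mon.cm g t.1 m / (m : ℂ) ^ Mon.wte t.1)).sum =
      ((Mon.Dmon C.dmult[r.val].1).map fun t => (t.2 : ℂ) * Mon.cm g t.1 m).sum /
        (m : ℂ) ^ (Mon.wte C.dmult[r.val].1 + 1) := by
    rw [div_eq_mul_inv, ← List.sum_map_mul_right]
    refine congrArg List.sum (List.map_congr_left fun t ht => ?_)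
    rcases Mon.wte_Dmon _ t ht with h | h
    · simp [h]
    · rw [h]; ring
  rw [e3, hder, pow_succ]
  field_simp
  ring

/-- The bound in the low degrees. -/
lemma low_bound (he' : (0 : ℝ) ≤ C.e) (hl' : ∀ i : Fin C.lam.length, (0 : ℝ) ≤ (C.lam[i] : ℝ))
    (hw' : ∀ s : Fin C.squares.length, (0 : ℝ) ≤ (C.squares[s].1 : ℝ)) {f g : ℂ → ℂ} {R : ℝ}
    (hR : 1 < R) (hgd : DifferentiableOn ℂ g (Metric.ball 0 R))
    (hginj : Set.InjOn g (Metric.ball 0 R)) (u : ℕ → ℕ → ℕ → ℂ) (m : ℕ)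
    (hcm : ∀ t, ‖Mon.cm g t m‖ ≤ 2 * ‖Mon.cm f t m‖) :
    C.Q g u m ≤
    (∑ s : Fin C.squares.length, (C.squares[s].1 : ℝ) *
      ∑ p : Fin C.squares[s].2.length, ∑ q : Fin C.squares[s].2.length,
        |(C.squares[s].2[p].2.2 : ℝ) * C.squares[s].2[q].2.2| *
          ((2 * ‖Mon.cm f (Mon.madd C.squares[s].2[p].1 C.squares[s].2[q].2.1) m‖) *
            (2 * ‖Mon.cm f (Mon.madd C.squares[s].2[q].1 C.squares[s].2[p].2.1) m‖))) +
    ∑ i : Fin C.lam.length, (C.lam[i] : ℝ) *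
      ((m.descFactorial i.val : ℝ) * (2 * ‖coef (Hfun f 0) m‖)) ^ 2 := by
  unfold Q
  refine add_le_add (sum_le_sum fun s _ => mul_le_mul_of_nonneg_left ?_ (hw' s))
    (sum_le_sum fun i _ => mul_le_mul_of_nonneg_left ?_ (hl' i))
  · rw [sqTerm_map]
    refine sum_le_sum fun p _ => sum_le_sum fun q _ => ?_
    refine (le_abs_self _).trans ?_
    rw [abs_mul, abs_mul]
    refine (mul_le_of_le_one_right (by positivity) ?_).trans (mul_le_mul_of_nonneg_left ?_ (abs_nonneg _))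
    · rw [abs_of_nonneg (nu_bounds (by positivity) m).1.le]; exact (nu_bounds (by positivity) m).2
    · refine (Complex.abs_re_le_norm _).trans ?_
      rw [norm_mul, Complex.norm_conj]
      exact mul_le_mul (hcm _) (hcm _) (norm_nonneg _) (by positivity)
  · have ht : (0 : ℝ) ≤ if m < 2 then 0 else Glue.tail u i.val ((C.e : ℝ) + (2 * i.val + 2 : ℕ)) (m - 2) := by
      split_ifs
      · exact le_rfl
      · exact sum_nonneg fun q _ => mul_nonneg (by positivity) (nu_bounds (by positivity) _).1.le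
    refine (sub_le_self _ ht).trans ((mul_le_of_le_one_right (sq_nonneg _)
      (nu_bounds (by positivity) m).2).trans (pow_le_pow_left₀ (norm_nonneg _) ?_ 2))
    rw [RowsProof.coef_Hfun hgd hginj (by linarith), norm_mul, Complex.norm_natCast]
    refine mul_le_mul_of_nonneg_left ?_ (Nat.cast_nonneg _)
    have h := hcm Mon.one
    rw [Mon.cm_one, Mon.cm_one] at h
    rw [hfun_eq]; exact h

theorem coefBound_of_cert (C : Cert) (hC : C.valid = true) {δ : ℝ} (hδ : 0 < δ)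
    (hneg : ∀ y : Fin C.mons.length → ℝ,
      ∑ a, ∑ b, (C.limA a b : ℝ) * (y a * y b) ≤ -δ * ∑ a, y a ^ 2) :
    Endgame.CoefBound (C.e : ℝ) := by
  obtain ⟨he, hnil, hlen, hl, -, hsq, -⟩ := valid_iff hC
  have he' : (0 : ℝ) ≤ C.e := by exact_mod_cast he
  have hev := DegreeTools.eventually_form_neg (fun m a b => C.sqMat m a b + C.areaMat m a b)
    (fun a b => (C.matA a b : ℝ)) C.conMat (fun r a => (C.dcon r a : ℝ))
    (fun r b => (C.vec C.dmult[r].2 b : ℝ)) (fun a b => tendsto_matA he hl a b)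
    (fun r a => tendsto_conMat r a) hδ fun y => by
      simpa [limA, Rat.cast_add, Rat.cast_sum, Rat.cast_mul] using hneg y
  obtain ⟨M₀, hM₀⟩ := eventually_atTop.1 hev
  refine Glue.coefBound_of_perDegree he' (half_pos hδ) (max M₀ 3) fun f hf hinj => ?_
  set bnd : ℕ → ℝ := fun m =>
    (∑ s : Fin C.squares.length, (C.squares[s].1 : ℝ) *
      ∑ p : Fin C.squares[s].2.length, ∑ q : Fin C.squares[s].2.length,
        |(C.squares[s].2[p].2.2 : ℝ) * C.squares[s].2[q].2.2| *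
          ((2 * ‖Mon.cm f (Mon.madd C.squares[s].2[p].1 C.squares[s].2[q].2.1) m‖) *
            (2 * ‖Mon.cm f (Mon.madd C.squares[s].2[q].1 C.squares[s].2[p].2.1) m‖))) +
    ∑ i : Fin C.lam.length, (C.lam[i] : ℝ) *
      ((m.descFactorial i.val : ℝ) * (2 * ‖coef (Hfun f 0) m‖)) ^ 2 with hbnd
  have hl' : ∀ i : Fin C.lam.length, (0 : ℝ) ≤ (C.lam[i] : ℝ) := fun i => by
    exact_mod_cast (hl _ (List.getElem_mem i.isLt)).le
  have hw' : ∀ s : Fin C.squares.length, (0 : ℝ) ≤ (C.squares[s].1 : ℝ) := fun s => by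
    exact_mod_cast (hsq _ (List.getElem_mem s.isLt)).1
  have hbnd0 : ∀ m, 0 ≤ bnd m := fun m => add_nonneg
    (sum_nonneg fun s _ => mul_nonneg (hw' s) (sum_nonneg fun p _ => sum_nonneg fun q _ => by positivity))
    (sum_nonneg fun i _ => mul_nonneg (hl' i) (sq_nonneg _))
  refine ⟨∑ m ∈ range (max M₀ 3), bnd m, fun σ hσ hσ1 => ?_⟩
  have h0 : 0 < σ := by linarith
  obtain ⟨hR, hgd, hginj, -⟩ := Endgame.dilate hf hinj h0 hσ1
  set g : ℂ → ℂ := fun w => f ((σ : ℂ) * w) with hgdef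
  obtain ⟨u, hu⟩ := rows_all g σ⁻¹ hR hgd hginj
  set gi : Fin C.lam.length → ℝ := fun i => (C.e : ℝ) + (2 * i.val + 2 : ℕ) with hgi
  have harea := fun i : Fin C.lam.length => Glue.area_degree hu hR hgd hginj i.val
    (g := gi i) (by simp only [hgi]; push_cast; linarith [show (0 : ℝ) ≤ i.val from Nat.cast_nonneg _])
  have hg2 : ∀ i : Fin C.lam.length, gi i - 2 = (C.e : ℝ) + (2 * i.val : ℕ) := fun i => by
    simp only [hgi]; push_cast; ring
  simp only [hg2] at harea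
  have hshift : ∀ i : Fin C.lam.length, HasSum
      (fun m => if m < 2 then (0 : ℝ) else Glue.tail u i.val (gi i) (m - 2))
      (∑' N, Glue.tail u i.val (gi i) N) := by
    intro i
    refine (hasSum_nat_add_iff' (f := fun m => if m < 2 then (0 : ℝ) else Glue.tail u i.val (gi i) (m - 2)) 2).1 ?_
    simpa [Finset.sum_range_succ] using (harea i).1.hasSum
  have hsqs := fun s : Fin C.squares.length => Mon.square_nonneg hf hinj h0 hσ1 he'
    (C.squares[s].2.map fun p => (p.1, p.2.1, (p.2.2 : ℝ)))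
  have hQ : HasSum (C.Q g u) ((∑ s : Fin C.squares.length, (C.squares[s].1 : ℝ) *
      ∑' m, Mon.sqTerm g C.e (C.squares[s].2.map fun p => (p.1, p.2.1, (p.2.2 : ℝ))) m) +
      ∑ i : Fin C.lam.length, (C.lam[i] : ℝ) *
        ((∑' m, ‖coef (Hfun g i.val) m‖ ^ 2 * nu ((C.e : ℝ) + (2 * i.val : ℕ)) m) -
          ∑' N, Glue.tail u i.val (gi i) N)) :=
    (hasSum_sum fun s _ => (hsqs s).1.hasSum.mul_left _).add
      (hasSum_sum fun i _ => ((harea i).2.1.hasSum.sub (hshift i)).mul_left _)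
  refine ⟨C.Q g u, hQ.summable, ?_, fun m hm => ?_, fun m hm => ?_⟩
  · rw [hQ.tsum_eq]
    exact add_nonneg (sum_nonneg fun s _ => mul_nonneg (hw' s) (hsqs s).2)
      (sum_nonneg fun i _ => mul_nonneg (hl' i) (sub_nonneg.2 (harea i).2.2))
  · have hm3 : 3 ≤ m := le_trans (le_max_right _ _) hm
    have hν := (nu_bounds he' m).1
    have hform := hM₀ m (le_trans (le_max_left _ _) hm) (C.xvec g m)
      (fun r => con_zero hR.le hgd hginj (by omega) hC r)
    rw [form_add] at hform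
    have hx0 : ‖coef (Hfun g 0) m‖ ^ 2 ≤ ∑ a, ‖C.xvec g m a‖ ^ 2 := by
      have hlt := List.idxOf_lt_length_of_mem hnil
      refine le_trans (le_of_eq ?_) (single_le_sum (fun a _ => sq_nonneg ‖C.xvec g m a‖)
        (mem_univ ⟨C.mons.idxOf Mon.one, hlt⟩))
      simp [xvec, List.getElem_idxOf hlt, Mon.cm_one, Mon.wte_one]
    calc C.Q g u m ≤ nu C.e m * DegreeTools.form (C.sqMat m) (C.xvec g m) +
          nu C.e m * DegreeTools.form (C.areaMat m) (C.xvec g m) :=
          add_le_add (sq_bound (by omega) hC).le (area_bound hR hgd hginj hu hm3 hC)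
      _ ≤ nu C.e m * (-(δ / 2) * ‖coef (Hfun g 0) m‖ ^ 2) := by
          rw [← mul_add]
          refine mul_le_mul_of_nonneg_left (hform.trans ?_) hν.le
          exact mul_le_mul_of_nonpos_left hx0 (by linarith)
      _ = _ := by ring
  · refine le_trans ?_ (single_le_sum (f := bnd) (fun m _ => hbnd0 m) (Finset.mem_range.2 hm))
    have hσm : ‖(σ : ℂ)⁻¹ * (σ : ℂ) ^ m‖ ≤ 2 := by
      rw [norm_mul, norm_inv, norm_pow, Complex.norm_real, Real.norm_of_nonneg h0.le]
      calc σ⁻¹ * σ ^ m ≤ 2 * 1 :=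
            mul_le_mul (by rw [inv_le_iff_one_le_mul₀ h0]; linarith) (pow_le_one₀ h0.le hσ1.le)
              (by positivity) two_pos.le
        _ = 2 := by norm_num
    have hcm : ∀ t, ‖Mon.cm g t m‖ ≤ 2 * ‖Mon.cm f t m‖ := fun t => by
      rw [hgdef, Mon.cm_dilate hf hinj h0 hσ1, norm_mul]
      exact mul_le_mul_of_nonneg_right hσm (norm_nonneg _)
    exact low_bound he' hl' hw' hR hgd hginj u m hcm

/-- The certificate gives all final statements. -/
theorem result_of_cert (C : Cert) (hC : C.valid = true) (he1 : C.e ≤ 1) {δ : ℝ} (hδ : 0 < δ)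
    (hneg : ∀ y : Fin C.mons.length → ℝ,
      ∑ a, ∑ b, (C.limA a b : ℝ) * (y a * y b) ≤ -δ * ∑ a, y a ^ 2) :
    (∀ f : ℂ → ℂ, DifferentiableOn ℂ f (Metric.ball 0 1) → Set.InjOn f (Metric.ball 0 1) →
      limsup (fun r : ℝ => ((Real.log ((2 * Real.pi)⁻¹ * ∫ θ in (-Real.pi)..Real.pi,
          ‖deriv f (circleMap 0 r θ)‖ ^ (-2 : ℝ)) / Real.log (1 / (1 - r)) : ℝ) : EReal))
        (nhdsWithin 1 (Set.Iio 1)) ≤ ((1 + (C.e : ℝ) : ℝ) : EReal) ∧
      (∃ K : ℝ, ∀ r : ℝ, 0 ≤ r → r < 1 →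
        (2 * Real.pi)⁻¹ * ∫ θ in (-Real.pi)..Real.pi, ‖deriv f (circleMap 0 r θ)‖ ^ (-2 : ℝ) ≤
          K * (1 / (1 - r)) ^ (1 + (C.e : ℝ))) ∧
      ∫⁻ z in Metric.ball (0 : ℂ) 1,
          ENNReal.ofReal (‖deriv f z‖ ^ (-2 : ℝ) * (1 - ‖z‖ ^ 2) ^ (C.e : ℝ)) < ⊤ ∧
      ∀ t : ℝ, -2 / (1 + (C.e : ℝ)) < t → t ≤ 0 →
        ∫⁻ z in Metric.ball (0 : ℂ) 1, ENNReal.ofReal (‖deriv f z‖ ^ t) < ⊤) ∧
    (∀ (W : Set ℂ) (φ : ℂ → ℂ), IsOpen W → DifferentiableOn ℂ φ W → Set.BijOn φ W (Metric.ball 0 1) →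
      ∀ s : ℝ, 2 ≤ s → s < 2 + 2 / (1 + (C.e : ℝ)) →
        ∫⁻ w in W, ENNReal.ofReal (‖deriv φ w‖ ^ s) < ⊤) :=
  Endgame.result_of_coefBound (e := (C.e : ℝ)) (by exact_mod_cast (valid_iff hC).1)
    (by exact_mod_cast he1) (coefBound_of_cert C hC hδ hneg)

end

end Cert

end Vale.Agent.P142.Sharp
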