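import Mathlib
import Vale.Agent.P142.Sharp.PerDegree

/-!
An integer check of a certificate.
-/

namespace Vale.Agent.P142.Sharp

open Finset

/-- Compact certificate data: the squares share their items and their weight. -/
structure CData where
  /-- The exponent. -/
  e : ℚ
  /-- The monomials. -/
  mons : List Mon.Mn
  /-- The multipliers. -/
  lam : List ℚ
  /-- The rows. -/
  rows : List (TRow × List ℚ)
  /-- The items `(p, q)`. -/
  items : List (Mon.Mn × Mon.Mn)
  /-- The square vectors over the items. -/
  vecs : List (List ℤ)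
  /-- The weight of the squares. -/
  w : ℚ
  /-- The derivation multipliers. -/
  dmult : List (Mon.Mn × List ℚ)

/-- Integer tables of the check. -/
structure Aux where
  /-- The scale. -/
  D : ℕ
  /-- The scale of the row multipliers. -/
  dY : ℕ
  /-- Row multipliers. -/
  Yi : List (List ℤ)
  /-- Gram matrix of the square vectors. -/
  G : List (List ℤ)
  /-- Index of `p i + q j`. -/
  ix : List (List ℕ)
  /-- Index of `p j + q i`. -/
  ixT : List (List ℕ)
  /-- Weights of the squares by total degree. -/
  Pn : List ℤ
  /-- The constant term. -/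
  c00 : ℤ
  /-- Right hand sides of the rows. -/
  Bi : List (List ℤ)
  /-- Gram matrix of the rows. -/
  Gi : List (List ℤ)
  /-- `-Bi + Gi Yi`. -/
  Tr : List (List ℤ)
  /-- The derivation constraints. -/
  Li : List (List ℤ)
  /-- The derivation multipliers. -/
  Zi : List (List ℤ)
  /-- The scaled matrix. -/
  M : List (List ℤ)
  /-- Scale of the residual squares. -/
  cs : ℤ
  /-- Residual squares. -/
  cvecs : List (List ℤ)

namespace CData

/-- The certificate. -/
def toCert (d : CData) : Cert where
  e := d.e
  mons := d.mons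
  lam := d.lam
  rows := d.rows
  squares := d.vecs.map fun v =>
    (d.w, List.zipWith (fun p (c : ℤ) => (p.1, p.2, (c : ℚ))) d.items v)
  dmult := d.dmult

/-- Entry of a table. -/
def at2 {α : Type} (A : List (List α)) (i j : ℕ) (z : α) : α := (A.getD i []).getD j z

/-- Componentwise sum. -/
def addV : List ℤ → List ℤ → List ℤ := List.zipWith (· + ·)

/-- A multiple. -/
def smulV (c : ℤ) (v : List ℤ) : List ℤ := v.map (c * ·)

/-- Sum of multiples. -/
def combV (K : ℕ) (cs : List ℤ) (vs : List (List ℤ)) : List ℤ :=
  (List.zipWith smulV cs vs).foldr addV (List.replicate K 0)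

/-- A list of indexed contributions, accumulated. -/
def scatter {α : Type} [Add α] (z : α) (K : ℕ) (l : List (ℕ × α)) : List α :=
  l.foldr (fun t v => v.modify t.1 (· + t.2)) (List.replicate K z)

/-- Coordinates of a combination. -/
def linVec (d : CData) (P : Mon.Poly) : List ℚ :=
  scatter 0 d.mons.length (P.map fun t => (d.mons.idxOf t.1, t.2))

/-- The total degree of an item. -/
def deg2 (d : CData) : List ℕ := d.items.map fun p => Mon.wte p.1 + Mon.wte p.2

/-- The contributions of the squares to row `a`. -/
def sqEntries (A : Aux) (ns : List ℕ) (a : ℕ) : List (ℕ × ℤ) :=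
  ((A.ix.zip (A.ixT.zip (A.G.zip ns))).map fun r =>
    ((r.1.zip (r.2.1.zip (r.2.2.1.zip ns))).filter fun t => t.1 == a).map fun t =>
      (t.2.1, t.2.2.1 * A.Pn.getD (r.2.2.2 + t.2.2.2) 0)).flatten

/-- Row `a` of the scaled matrix. -/
def mRow (d : CData) (A : Aux) (a : ℕ) : List ℤ :=
  addV (addV (scatter 0 d.mons.length
      ((if d.mons.idxOf Mon.one = a then [(d.mons.idxOf Mon.one, A.c00)] else []) ++
        sqEntries A (deg2 d) a))
    (combV d.mons.length (A.Yi.map fun y => y.getD a 0) A.Tr))
    (combV d.mons.length (A.Li.map fun y => y.getD a 0) A.Zi)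

/-- Shapes of the tables and validity of the data. -/
def okShape (d : CData) (A : Aux) : Bool :=
  let K := d.mons.length
  let n := d.items.length
  let R := d.rows.length
  let Q := d.dmult.length
  (Cert.valid { d.toCert with squares := [] } && decide (0 ≤ d.w)) && decide (d.mons.Nodup) && decide (0 < A.D) && decide (0 < A.dY) &&
    (d.vecs.all fun v => v.length == n) && (A.ix.length == n) && (A.ixT.length == n) &&
    (A.G.length == n) && (A.Yi.length == R) && (A.Tr.length == R) && (A.Gi.length == R) &&
    (A.Bi.length == R) && (A.Li.length == Q) && (A.Zi.length == Q) &&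
    (A.Tr.all fun v => v.length == K) && (A.Zi.all fun v => v.length == K) &&
    (A.Bi.all fun v => v.length == K) && (A.Yi.all fun v => v.length == K) &&
    (A.Gi.all fun v => v.length == R)

/-- The index tables. -/
def okIdx (d : CData) (A : Aux) (lo hi : ℕ) : Bool :=
  (List.range (hi - lo)).all fun k =>
    let i := lo + k
    let p := d.items.getD i ([], [])
    ((A.ix.getD i []).length == d.items.length) && ((A.ixT.getD i []).length == d.items.length) &&
      (((A.ix.getD i []).zip d.items).all fun t => decide (t.1 < d.mons.length) &&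
        d.mons.getD t.1 [] == Mon.madd p.1 t.2.2) &&
      (((A.ixT.getD i []).zip d.items).all fun t => decide (t.1 < d.mons.length) &&
        d.mons.getD t.1 [] == Mon.madd t.2.1 p.2)

/-- A list as one integer. -/
def pack (X : ℤ) (v : List ℤ) : ℤ := v.foldr (fun x acc => x + X * acc) 0

/-- Sum of the products. -/
def dotV (cs vs : List ℤ) : ℤ := (List.zipWith (· * ·) cs vs).sum

/-- The base of `pack`. -/
def base : ℤ := 2 ^ 256

/-- Bounds on the square vectors and on their Gram matrix. -/
def okBound (d : CData) (A : Aux) : Bool :=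
  decide (d.vecs.length ≤ 2 ^ 20) &&
    (d.vecs.all fun v => v.all fun x => decide (x.natAbs ≤ 2 ^ 100)) &&
    (A.G.all fun v => (v.length == d.items.length) && v.all fun x => decide (x.natAbs ≤ 2 ^ 221))

/-- The Gram matrix of the squares, as packed rows. -/
def okGram (d : CData) (A : Aux) (lo hi : ℕ) : Bool :=
  (List.range (hi - lo)).all fun k =>
    decide (pack base (A.G.getD (lo + k) []) =
      dotV (d.vecs.map fun v => v.getD (lo + k) 0) (d.vecs.map (pack base)))

/-- Weights, the constant term and the multipliers. -/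
def okConst (d : CData) (A : Aux) : Bool :=
  decide ((A.D : ℚ) * ((List.range d.lam.length).map fun i => d.lam.getD i 0 * d.toCert.Pi (2 * i)).sum
    = (A.c00 : ℚ)) &&
  (List.range A.Pn.length).all (fun n => decide ((A.D : ℚ) * d.w * d.toCert.Pi n = (A.Pn.getD n 0 : ℤ))) &&
  (deg2 d).all (fun n => (deg2 d).all fun n' => decide (n + n' < A.Pn.length)) &&
  ((A.Yi.zip d.rows).all fun t => ((List.range d.mons.length).all fun a =>
    decide (((t.1.getD a 0 : ℤ) : ℚ) = (A.dY : ℚ) * t.2.2.getD a 0)))

/-- Whether the row has a test function for the `i`-th multiplier. -/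
def touches : TRow → ℕ → Bool
  | .jet i₀ _, i => i == i₀
  | .sym i₀ j, i => decide (i₀ ≤ i) && decide (i ≤ i₀ + j)
  | .lie _, i => i == 0

/-- Entry of the Gram matrix of the rows. -/
def gEntry (d : CData) (r s : TRow) : ℚ :=
  ((List.range d.lam.length).map fun i =>
    if touches r i && touches s i then
      TRow.glim r s i (d.e + (2 * i + 2 : ℕ)) / (d.lam.getD i 0 * d.toCert.Pi (2 * i + 2))
    else 0).sum

/-- The Gram matrix of the rows. -/
def okGi (d : CData) (A : Aux) (lo hi : ℕ) : Bool :=
  (List.range (hi - lo)).all fun k =>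
    (List.range d.rows.length).all fun s =>
      decide (((at2 A.Gi (lo + k) s 0 : ℤ) : ℚ) * ((A.dY : ℚ) * A.dY) =
        (A.D : ℚ) * gEntry d (d.rows.getD (lo + k) (.lie 0, [])).1 (d.rows.getD s (.lie 0, [])).1)

/-- The right hand sides of one kind of row in coordinates. -/
def browVec (d : CData) : TRow → List ℚ
  | .jet i j => (d.linVec (Mon.jetsPoly i j)).map fun c => (j.factorial : ℚ) * c
  | .sym _ _ => List.replicate d.mons.length 0
  | .lie k => scatter 0 d.mons.length
      [(d.mons.idxOf Mon.one, -(1 / ((k : ℚ) + 2) - 1 / ((k : ℚ) + 3)))]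

/-- Right hand sides and `Tr`. -/
def okRows (d : CData) (A : Aux) (lo hi : ℕ) : Bool :=
  (List.range (hi - lo)).all fun k =>
    let r := lo + k
    ((browVec d (d.rows.getD r (.lie 0, [])).1).map (fun c => 2 * (A.D : ℚ) * c) ==
        (A.Bi.getD r []).map (fun b : ℤ => (A.dY : ℚ) * b)) &&
      A.Tr.getD r [] == addV (smulV (-1) (A.Bi.getD r [])) (combV d.mons.length (A.Gi.getD r []) A.Yi)

/-- The derivation tables. -/
def okD (d : CData) (A : Aux) : Bool :=
  (List.range d.dmult.length).all fun r =>
    let t := d.dmult.getD r ([], [])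
    (d.linVec ((t.1, -1) :: Mon.Dmon t.1) == (A.Li.getD r []).map fun b : ℤ => (b : ℚ)) &&
      ((List.range d.mons.length).all fun a =>
        decide ((A.D : ℚ) * t.2.getD a 0 = ((at2 A.Zi r a 0 : ℤ) : ℚ)))

/-- The matrix. -/
def okM (d : CData) (A : Aux) (lo hi : ℕ) : Bool :=
  (List.range (hi - lo)).all fun k => A.M.getD (lo + k) [] == mRow d A (lo + k)

/-- Residual after the squares, symmetrised. -/
def residRow (d : CData) (A : Aux) (a : ℕ) : List ℤ :=
  addV (addV (A.M.getD a []) (A.M.map fun r => r.getD a 0))
    (combV d.mons.length (A.cvecs.map fun v => A.cs * v.getD a 0) A.cvecs)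

/-- The residual is dominated by its negative diagonal. -/
def okNeg (d : CData) (A : Aux) (lo hi : ℕ) : Bool :=
  (A.M.length == d.mons.length) && decide (0 ≤ A.cs) && (A.cvecs.all fun v => v.length == d.mons.length) &&
  (List.range (hi - lo)).all fun k =>
    let a := lo + k
    let R := residRow d A a
    (R.length == d.mons.length) &&
      decide (R.getD a 0 + (R.map fun x => |x|).sum - |R.getD a 0| ≤ -1)

end CData

end Vale.Agent.P142.Sharp
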