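import Mathlib
import Vale.Agent.P142.Sharp.Check

/-!
Soundness of the integer check of a certificate.
-/

namespace Vale.Agent.P142.Sharp

open Finset Filter

namespace CData

/-! ### Lists -/

section lists

variable {α β γ : Type}

lemma getD_getElem {l : List α} {z : α} {i : ℕ} (h : i < l.length) : l.getD i z = l[i] :=
  List.getD_eq_getElem l z h

lemma eq_range_map {l : List α} (z : α) : l = (List.range l.length).map fun i => l.getD i z := by
  refine List.ext_getElem (by simp) fun i h1 _ => ?_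
  simp [List.getElem?_eq_getElem h1]

lemma sum_range_list [AddCommMonoid β] (n : ℕ) (f : ℕ → β) :
    ((List.range n).map f).sum = ∑ i ∈ range n, f i := rfl

lemma map_sum_getD [AddCommMonoid β] (l : List α) (z : α) (f : α → β) :
    (l.map f).sum = ∑ i ∈ range l.length, f (l.getD i z) := by
  conv_lhs => rw [eq_range_map (l := l) z]
  rw [List.map_map]
  rfl

lemma fin_sum_getD [AddCommMonoid β] (l : List α) (z : α) {n : ℕ} (hn : l.length = n)
    (F : α → β) : ∑ p : Fin l.length, F l[p] = ∑ i ∈ range n, F (l.getD i z) := by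
  subst hn
  rw [← Fin.sum_univ_eq_sum_range]
  exact sum_congr rfl fun p _ => by rw [getD_getElem p.isLt]; rfl

lemma zipWith_getD {f : α → β → γ} {l₁ : List α} {l₂ : List β} {i : ℕ} (a : α) (b : β) (c : γ)
    (h₁ : i < l₁.length) (h₂ : i < l₂.length) :
    (List.zipWith f l₁ l₂).getD i c = f (l₁.getD i a) (l₂.getD i b) := by
  rw [getD_getElem (by simp [h₁, h₂]), getD_getElem h₁, getD_getElem h₂, List.getElem_zipWith]

lemma map_getD {f : α → β} {l : List α} {i : ℕ} (a : α) (c : β) (h : i < l.length) :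
    (l.map f).getD i c = f (l.getD i a) := by
  rw [getD_getElem (by simp [h]), getD_getElem h, List.getElem_map]

lemma zip_range {l₁ : List α} {l₂ : List β} (a : α) (b : β) {n : ℕ} (h₁ : l₁.length = n)
    (h₂ : l₂.length = n) :
    l₁.zip l₂ = (List.range n).map fun i => (l₁.getD i a, l₂.getD i b) := by
  refine List.ext_getElem (by simp [h₁, h₂]) fun i h _ => ?_
  simp at h
  simp [List.getElem?_eq_getElem h.1, List.getElem?_eq_getElem h.2]

lemma range_map_getD {f : ℕ → β} {n i : ℕ} (z : β) (h : i < n) :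
    ((List.range n).map f).getD i z = f i := by
  rw [getD_getElem (by simp [h]), List.getElem_map, List.getElem_range]

lemma filter_map_sum [AddCommMonoid β] (l : List α) (p : α → Bool) (f : α → β) :
    ((l.filter p).map f).sum = (l.map fun x => if p x then f x else 0).sum := by
  induction l with
  | nil => simp
  | cons x l ih => by_cases h : p x <;> simp [h, ih]

end lists

/-! ### Vector operations -/

lemma length_addV (u v : List ℤ) : (addV u v).length = min u.length v.length := List.length_zipWith ..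

lemma getD_addV {u v : List ℤ} {b : ℕ} (h₁ : b < u.length) (h₂ : b < v.length) :
    (addV u v).getD b 0 = u.getD b 0 + v.getD b 0 := zipWith_getD 0 0 0 h₁ h₂

lemma combV_spec (K : ℕ) : ∀ (cs : List ℤ) (vs : List (List ℤ)), (∀ v ∈ vs, v.length = K) →
    cs.length = vs.length → (combV K cs vs).length = K ∧ ∀ b < K, (combV K cs vs).getD b 0 =
      ∑ r ∈ range vs.length, cs.getD r 0 * (vs.getD r []).getD b 0 := by
  intro cs
  induction cs with
  | nil =>
    intro vs _ hlen
    cases vs with
    | nil => exact ⟨by simp [combV], fun b hb => by simp [combV, List.getD_eq_getElem?_getD, hb]⟩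
    | cons => simp at hlen
  | cons c cs ih =>
    intro vs hv hlen
    cases vs with
    | nil => simp at hlen
    | cons v vs =>
      obtain ⟨hl, hg⟩ := ih vs (fun w hw => hv w (List.mem_cons_of_mem _ hw)) (by simpa using hlen)
      have e : combV K (c :: cs) (v :: vs) = addV (smulV c v) (combV K cs vs) := rfl
      have hvl := hv v List.mem_cons_self
      refine ⟨by rw [e, length_addV, hl]; simp [smulV, hvl], fun b hb => ?_⟩
      rw [e, getD_addV (by simp [smulV, hvl, hb]) (by omega), hg b hb, List.length_cons,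
        sum_range_succ', add_comm]
      congr 1
      rw [smulV, map_getD 0 0 (by omega)]
      rfl

lemma scatter_spec {α : Type} [AddCommMonoid α] (K : ℕ) : ∀ l : List (ℕ × α),
    (scatter 0 K l).length = K ∧ ∀ b < K, (scatter 0 K l).getD b 0 =
      (l.map fun t => if t.1 = b then t.2 else 0).sum := by
  intro l
  induction l with
  | nil => exact ⟨by simp [scatter], fun b hb => by simp [scatter, List.getD_eq_getElem?_getD, hb]⟩
  | cons t l ih =>
    obtain ⟨hl, hg⟩ := ih
    have e : scatter (0 : α) K (t :: l) = (scatter 0 K l).modify t.1 (· + t.2) := rfl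
    refine ⟨by rw [e, List.length_modify, hl], fun b hb => ?_⟩
    have hbl : b < (scatter (0 : α) K l).length := by omega
    have hg' := hg b hb
    rw [getD_getElem hbl] at hg'
    rw [e, List.map_cons, List.sum_cons, List.getD_eq_getElem?_getD, List.getElem?_modify,
      List.getElem?_eq_getElem hbl]
    by_cases h : t.1 = b <;> simp [h, hg', add_comm]

lemma pack_addV (X : ℤ) : ∀ u v : List ℤ, u.length = v.length →
    pack X (addV u v) = pack X u + pack X v := by
  intro u
  induction u with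
  | nil => intro v h; cases v with | nil => rfl | cons => simp at h
  | cons x u ih =>
    intro v h
    cases v with
    | nil => simp at h
    | cons y v =>
      have := ih v (by simpa using h)
      simp only [pack, addV, List.zipWith_cons_cons, List.foldr_cons] at this ⊢
      rw [this]; ring

lemma pack_smulV (X c : ℤ) : ∀ v : List ℤ, pack X (smulV c v) = c * pack X v := by
  intro v
  induction v with
  | nil => simp [pack, smulV]
  | cons x v ih =>
    simp only [pack, smulV, List.map_cons, List.foldr_cons] at ih ⊢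
    rw [ih]; ring

lemma pack_combV (X : ℤ) (K : ℕ) : ∀ (cs : List ℤ) (vs : List (List ℤ)), (∀ v ∈ vs, v.length = K) →
    cs.length = vs.length → pack X (combV K cs vs) = dotV cs (vs.map (pack X)) := by
  intro cs
  induction cs with
  | nil =>
    intro vs _ _
    have : ∀ n : ℕ, pack X (List.replicate n 0) = 0 := fun n => by
      induction n with
      | zero => rfl
      | succ n ih => rw [List.replicate_succ]; simp only [pack, List.foldr_cons] at ih ⊢; rw [ih]; simp
    cases vs <;> simp [combV, dotV, this]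
  | cons c cs ih =>
    intro vs hv hlen
    cases vs with
    | nil => simp at hlen
    | cons v vs =>
      have hv' := fun w hw => hv w (List.mem_cons_of_mem _ hw)
      have hl := (combV_spec K cs vs hv' (by simpa using hlen)).1
      have e : combV K (c :: cs) (v :: vs) = addV (smulV c v) (combV K cs vs) := rfl
      rw [e, pack_addV _ _ _ (by rw [hl, smulV, List.length_map]; exact hv v List.mem_cons_self),
        pack_smulV, ih vs hv' (by simpa using hlen)]
      simp [dotV]

lemma pack_inj {X b : ℤ} (hb : 2 * b < X) : ∀ u v : List ℤ, u.length = v.length →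
    (∀ x ∈ u, |x| ≤ b) → (∀ x ∈ v, |x| ≤ b) → pack X u = pack X v → u = v := by
  intro u
  induction u with
  | nil => intro v h _ _ _; cases v with | nil => rfl | cons => simp at h
  | cons x u ih =>
    intro v h hu hv he
    cases v with
    | nil => simp at h
    | cons y v =>
      have hx := abs_le.1 (hu x List.mem_cons_self)
      have hy := abs_le.1 (hv y List.mem_cons_self)
      have he : x + X * pack X u = y + X * pack X v := he
      have hp : pack X u = pack X v := by
        rcases lt_trichotomy (pack X u) (pack X v) with h' | h' | h'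
        · have : 1 ≤ pack X v - pack X u := by omega
          nlinarith
        · exact h'
        · have : 1 ≤ pack X u - pack X v := by omega
          nlinarith
      rw [hp] at he
      rw [add_right_cancel he, ih v (by simpa using h) (fun z hz => hu z (List.mem_cons_of_mem _ hz))
        (fun z hz => hv z (List.mem_cons_of_mem _ hz)) hp]

/-! ### The parts of the matrix -/

variable {d : CData} {A : Aux}

lemma linVec_spec (d : CData) (P : Mon.Poly) :
    (d.linVec P).length = d.mons.length ∧ ∀ b : Fin d.toCert.mons.length,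
      (d.linVec P).getD b.val 0 = d.toCert.lin P b := by
  obtain ⟨hl, hg⟩ := scatter_spec (α := ℚ) d.mons.length (P.map fun t => (d.mons.idxOf t.1, t.2))
  refine ⟨hl, fun b => (hg b.val b.isLt).trans ?_⟩
  rw [List.map_map]
  rfl

lemma lin_cons_neg (C : Cert) (t : Mon.Mn) (P : Mon.Poly) (a : Fin C.mons.length) :
    C.lin ((t, -1) :: P) a = C.lin P a - C.unit t a := by
  simp only [Cert.lin, Cert.unit, List.map_cons, List.sum_cons]
  by_cases h : C.mons.idxOf t = a.val
  · rw [if_pos h, if_pos h]; ring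
  · rw [if_neg h, if_neg h]; ring

lemma browVec_spec (d : CData) (r : TRow) :
    (d.browVec r).length = d.mons.length ∧ ∀ b : Fin d.toCert.mons.length,
      (d.browVec r).getD b.val 0 = d.toCert.brow r b := by
  cases r with
  | jet i j =>
    obtain ⟨hl, hg⟩ := linVec_spec d (Mon.jetsPoly i j)
    refine ⟨by simp [browVec, hl], fun b => ?_⟩
    simp only [browVec]
    have hb : b.val < d.mons.length := b.isLt
    rw [map_getD 0 0 (by omega), hg b]
    rfl
  | sym i j =>
    refine ⟨by simp [browVec], fun b => ?_⟩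
    have hb : b.val < d.mons.length := b.isLt
    simp [browVec, Cert.brow, List.getD_eq_getElem?_getD, hb]
  | lie k =>
    obtain ⟨hl, hg⟩ := scatter_spec (α := ℚ) d.mons.length
      [(d.mons.idxOf Mon.one, -(1 / ((k : ℚ) + 2) - 1 / ((k : ℚ) + 3)))]
    refine ⟨hl, fun b => (hg b.val b.isLt).trans ?_⟩
    simp only [Cert.brow, Cert.unit, toCert, List.map_cons, List.map_nil, List.sum_cons, List.sum_nil,
      add_zero]
    by_cases h : d.mons.idxOf Mon.one = b.val <;> simp [h]

lemma glim_eq_zero {r s : TRow} {i : ℕ} (h : (touches r i && touches s i) = false) (g : ℚ) :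
    TRow.glim r s i g = 0 := by
  have hpc : ∀ t : TRow, touches t i = false → ∀ k, TRow.pc t i k = 0 := by
    intro t ht k
    cases t with
    | jet i₀ j => simp [touches] at ht; simp [TRow.pc, ht]
    | sym i₀ j =>
      simp [touches] at ht
      simp only [TRow.pc]
      rw [if_neg (by rintro rfl; exact absurd (ht le_rfl) (by omega)), if_neg (fun h => by
        have := ht h.1; omega), sub_zero]
    | lie k => simp [touches] at ht; simp [TRow.pc, ht]
  rcases Bool.and_eq_false_iff.1 h with h | h <;> simp [TRow.glim, hpc _ h]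

lemma gEntry_eq (d : CData) (r s : TRow) :
    gEntry d r s = ∑ i : Fin d.toCert.lam.length,
      TRow.glim r s i.val (d.toCert.e + (2 * i.val + 2 : ℕ)) /
        (d.toCert.lam[i] * d.toCert.Pi (2 * i.val + 2)) := by
  rw [gEntry, sum_range_list, ← Fin.sum_univ_eq_sum_range]
  refine sum_congr rfl fun i _ => ?_
  have hi : i.val < d.lam.length := i.isLt
  have e : d.lam.getD i.val 0 = d.toCert.lam[i] := getD_getElem hi
  rw [e]
  split_ifs with h
  · rfl
  · rw [glim_eq_zero (Bool.eq_false_iff.2 h), zero_div]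

lemma of_okIdx (hnd : d.mons.Nodup) {i : ℕ} (hi : okIdx d A i (i + 1) = true) :
    ((A.ix.getD i []).length = d.items.length ∧ (A.ixT.getD i []).length = d.items.length) ∧
    ∀ j < d.items.length,
      d.mons.idxOf (Mon.madd (d.items.getD i ([], [])).1 (d.items.getD j ([], [])).2) = at2 A.ix i j 0 ∧
      d.mons.idxOf (Mon.madd (d.items.getD j ([], [])).1 (d.items.getD i ([], [])).2) = at2 A.ixT i j 0 := by
  simp only [okIdx, Nat.add_sub_cancel_left, List.range_one, List.all_cons, List.all_nil, Bool.and_true,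
    Nat.add_zero, Bool.and_eq_true, beq_iff_eq] at hi
  obtain ⟨⟨⟨h1, h2⟩, h3⟩, h4⟩ := hi
  refine ⟨⟨h1, h2⟩, fun j hj => ⟨?_, ?_⟩⟩
  · rw [zip_range 0 ([], []) h1 rfl] at h3
    simp only [List.all_map, List.all_eq_true, List.mem_range, Function.comp_apply,
      Bool.and_eq_true, decide_eq_true_eq, beq_iff_eq] at h3
    obtain ⟨hlt, he⟩ := h3 j hj
    rw [getD_getElem hlt] at he
    rw [← he]
    exact hnd.idxOf_getElem _ hlt
  · rw [zip_range 0 ([], []) h2 rfl] at h4
    simp only [List.all_map, List.all_eq_true, List.mem_range, Function.comp_apply,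
      Bool.and_eq_true, decide_eq_true_eq, beq_iff_eq] at h4
    obtain ⟨hlt, he⟩ := h4 j hj
    rw [getD_getElem hlt] at he
    rw [← he]
    exact hnd.idxOf_getElem _ hlt

lemma sqEntries_sum {n : ℕ} (ns : List ℕ) (hns : ns.length = n) (h0 : A.ix.length = n)
    (h0' : A.ixT.length = n) (hG : A.G.length = n)
    (h1 : ∀ i < n, (A.ix.getD i []).length = n) (h2 : ∀ i < n, (A.ixT.getD i []).length = n)
    (h3 : ∀ i < n, (A.G.getD i []).length = n) (a b : ℕ) :
    ((sqEntries A ns a).map fun t => if t.1 = b then t.2 else 0).sum =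
      ∑ i ∈ range n, ∑ j ∈ range n, if at2 A.ix i j 0 = a ∧ at2 A.ixT i j 0 = b then
        at2 A.G i j 0 * A.Pn.getD (ns.getD i 0 + ns.getD j 0) 0 else 0 := by
  rw [sqEntries, List.map_flatten, List.sum_flatten, List.map_map, List.map_map]
  rw [zip_range [] 0 hG hns, zip_range [] ([], 0) h0' (by simp),
    zip_range [] ([], [], 0) h0 (by simp), List.map_map, sum_range_list]
  refine sum_congr rfl fun i hi => ?_
  have hi := mem_range.1 hi
  simp only [Function.comp_apply]
  rw [range_map_getD _ hi, range_map_getD _ hi]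
  simp only []
  rw [zip_range 0 0 (h3 i hi) hns, zip_range 0 (0, 0) (h2 i hi) (by simp),
    zip_range 0 (0, 0, 0) (h1 i hi) (by simp), List.map_map, filter_map_sum, List.map_map,
    sum_range_list]
  refine sum_congr rfl fun j hj => ?_
  have hj := mem_range.1 hj
  simp only [Function.comp_apply]
  rw [range_map_getD _ hj, range_map_getD _ hj]
  simp only [at2, beq_iff_eq]
  split_ifs <;> simp_all

/-- All the checks. -/
structure Checks (d : CData) (A : Aux) : Prop where
  shape : okShape d A = true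
  idx : ∀ i < d.items.length, okIdx d A i (i + 1) = true
  bound : okBound d A = true
  gram : ∀ i < d.items.length, okGram d A i (i + 1) = true
  const : okConst d A = true
  gi : ∀ r < d.rows.length, okGi d A r (r + 1) = true
  rows : ∀ r < d.rows.length, okRows d A r (r + 1) = true
  dcon : okD d A = true
  mat : ∀ a < d.mons.length, okM d A a (a + 1) = true
  neg : ∀ a < d.mons.length, okNeg d A a (a + 1) = true

/-- Chunks of the checks combine. -/
lemma all_of_chunk {p : ℕ → Bool} {lo hi : ℕ}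
    (h : ((List.range (hi - lo)).all fun k => p (lo + k)) = true) {i : ℕ} (h1 : lo ≤ i) (h2 : i < hi) :
    p i = true := by
  have := List.all_eq_true.1 h (i - lo) (List.mem_range.2 (by omega))
  rwa [Nat.add_sub_cancel' h1] at this

/-- The facts about shapes. -/
structure Shape (d : CData) (A : Aux) : Prop where
  nodup : d.mons.Nodup
  dpos : 0 < A.D
  dypos : 0 < A.dY
  vecs : ∀ v ∈ d.vecs, v.length = d.items.length
  ix : A.ix.length = d.items.length
  ixT : A.ixT.length = d.items.length
  gram : A.G.length = d.items.length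
  yl : A.Yi.length = d.rows.length
  tl : A.Tr.length = d.rows.length
  gil : A.Gi.length = d.rows.length
  ll : A.Li.length = d.dmult.length
  zl : A.Zi.length = d.dmult.length
  trow : ∀ v ∈ A.Tr, v.length = d.mons.length
  zrow : ∀ v ∈ A.Zi, v.length = d.mons.length
  yrow : ∀ v ∈ A.Yi, v.length = d.mons.length
  girow : ∀ v ∈ A.Gi, v.length = d.rows.length

lemma shape_of (h : Checks d A) : Shape d A := by
  have hs := h.shape
  simp only [okShape, Bool.and_eq_true, decide_eq_true_eq, List.all_eq_true, beq_iff_eq] at hs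
  obtain ⟨⟨⟨⟨⟨⟨⟨⟨⟨⟨⟨⟨⟨⟨⟨⟨⟨⟨⟨-, -⟩, h1⟩, h2⟩, h3⟩, h4⟩, h5⟩, h6⟩, h7⟩, h8⟩, h9⟩, h10⟩, -⟩,
    h11⟩, h12⟩, h13⟩, h14⟩, -⟩, h16⟩, h17⟩ := hs
  exact ⟨h1, h2, h3, h4, h5, h6, h7, h8, h9, h10, h11, h12, h13, h14, h16, h17⟩

lemma gram_spec (h : Checks d A) {i : ℕ} (hi : i < d.items.length) :
    (A.G.getD i []).length = d.items.length ∧ ∀ j < d.items.length, at2 A.G i j 0 =
      ∑ s ∈ range d.vecs.length, (d.vecs.getD s []).getD i 0 * (d.vecs.getD s []).getD j 0 := by
  have hg := h.gram i hi
  simp only [okGram, Nat.add_sub_cancel_left, List.range_one, List.all_cons, List.all_nil,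
    Bool.and_true, Nat.add_zero, decide_eq_true_eq] at hg
  have hb := h.bound
  simp only [okBound, Bool.and_eq_true, decide_eq_true_eq, List.all_eq_true, beq_iff_eq] at hb
  obtain ⟨⟨hV, hvb⟩, hGb⟩ := hb
  have hvs := (shape_of h).vecs
  obtain ⟨hl, hget⟩ := combV_spec d.items.length (d.vecs.map fun v => v.getD i 0) d.vecs hvs
    (List.length_map ..)
  have hmem : A.G.getD i [] ∈ A.G := by
    rw [getD_getElem (by rw [(shape_of h).gram]; exact hi)]; exact List.getElem_mem _
  have hGl := (hGb _ hmem).1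
  have habs : ∀ {x : ℤ} {k : ℕ}, x.natAbs ≤ 2 ^ k → |x| ≤ 2 ^ k := fun {x k} hx => by
    rw [Int.abs_eq_natAbs]; exact_mod_cast hx
  have heq : A.G.getD i [] = combV d.items.length (d.vecs.map fun v => v.getD i 0) d.vecs := by
    refine pack_inj (X := base) (b := 2 ^ 221) (by unfold base; norm_num) _ _ (by rw [hGl, hl])
      (fun x hx => habs ((hGb _ hmem).2 x hx)) (fun x hx => ?_)
      (by rw [hg, pack_combV _ _ _ _ hvs (List.length_map ..)])
    obtain ⟨j, hj, rfl⟩ := List.getElem_of_mem hx
    have hjn : j < d.items.length := hl ▸ hj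
    rw [← getD_getElem (z := (0 : ℤ)) hj, hget j hjn]
    have hentry : ∀ s, s < d.vecs.length → ∀ k, |(d.vecs.getD s []).getD k 0| ≤ 2 ^ 100 := fun s hs k => by
      rcases lt_or_ge k (d.vecs.getD s []).length with hk | hk
      · rw [getD_getElem hk]
        refine habs (hvb _ ?_ _ (List.getElem_mem _))
        rw [getD_getElem hs]; exact List.getElem_mem _
      · rw [List.getD_eq_default _ _ hk]; simp
    refine (abs_sum_le_sum_abs _ _).trans ((sum_le_card_nsmul _ _ (2 ^ 200) fun s hs => ?_).trans ?_)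
    · rw [map_getD [] 0 (mem_range.1 hs), abs_mul]
      calc _ ≤ (2 : ℤ) ^ 100 * 2 ^ 100 := mul_le_mul (hentry s (mem_range.1 hs) i)
            (hentry s (mem_range.1 hs) j) (abs_nonneg _) (by positivity)
        _ = _ := by norm_num
    · rw [card_range, nsmul_eq_mul]
      calc (d.vecs.length : ℤ) * 2 ^ 200 ≤ 2 ^ 20 * 2 ^ 200 :=
            mul_le_mul_of_nonneg_right (by exact_mod_cast hV) (by positivity)
        _ ≤ _ := by norm_num
  refine ⟨hGl, fun j hj => ?_⟩
  rw [at2, heq, hget j hj]
  refine sum_congr rfl fun s hs => ?_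
  rw [map_getD [] 0 (mem_range.1 hs)]

lemma mat_entry (h : Checks d A) {a b : ℕ} (ha : a < d.mons.length) (hb : b < d.mons.length) :
    (A.M.getD a []).length = d.mons.length ∧ at2 A.M a b 0 =
      (if d.mons.idxOf Mon.one = a ∧ d.mons.idxOf Mon.one = b then A.c00 else 0) +
      (∑ i ∈ range d.items.length, ∑ j ∈ range d.items.length,
        if at2 A.ix i j 0 = a ∧ at2 A.ixT i j 0 = b then
          at2 A.G i j 0 * A.Pn.getD ((deg2 d).getD i 0 + (deg2 d).getD j 0) 0 else 0) +
      (∑ r ∈ range d.rows.length, at2 A.Yi r a 0 * at2 A.Tr r b 0) +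
      ∑ r ∈ range d.dmult.length, at2 A.Li r a 0 * at2 A.Zi r b 0 := by
  have S := shape_of h
  have hm := h.mat a ha
  simp only [okM, Nat.add_sub_cancel_left, List.range_one, List.all_cons, List.all_nil, Bool.and_true,
    Nat.add_zero, beq_iff_eq] at hm
  have hcomb : ∀ (L T : List (List ℤ)) (R : ℕ), L.length = R → T.length = R →
      (∀ v ∈ T, v.length = d.mons.length) →
      (combV d.mons.length (L.map fun y => y.getD a 0) T).length = d.mons.length ∧
      (combV d.mons.length (L.map fun y => y.getD a 0) T).getD b 0 =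
        ∑ r ∈ range R, at2 L r a 0 * at2 T r b 0 := by
    intro L T R hL hT hTK
    obtain ⟨hl, hget⟩ := combV_spec d.mons.length (L.map fun y => y.getD a 0) T hTK (by simp [hL, hT])
    refine ⟨hl, (hget b hb).trans ?_⟩
    rw [hT]
    refine sum_congr rfl fun r hr => ?_
    rw [map_getD [] 0 (by rw [hL]; exact mem_range.1 hr)]
    rfl
  obtain ⟨hl2, hg2⟩ := hcomb A.Yi A.Tr d.rows.length S.yl S.tl S.trow
  obtain ⟨hl3, hg3⟩ := hcomb A.Li A.Zi d.dmult.length S.ll S.zl S.zrow
  obtain ⟨hl1, hg1⟩ := scatter_spec (α := ℤ) d.mons.length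
    ((if d.mons.idxOf Mon.one = a then [(d.mons.idxOf Mon.one, A.c00)] else []) ++
      sqEntries A (deg2 d) a)
  refine ⟨by rw [hm, mRow, length_addV, length_addV, hl1, hl2, hl3, min_self, min_self], ?_⟩
  have hlen : b < (addV (scatter 0 d.mons.length
      ((if d.mons.idxOf Mon.one = a then [(d.mons.idxOf Mon.one, A.c00)] else []) ++
        sqEntries A (deg2 d) a)) (combV d.mons.length (A.Yi.map fun y => y.getD a 0) A.Tr)).length := by
    rw [length_addV, hl1, hl2, min_self]; exact hb
  rw [at2, hm, mRow, getD_addV hlen (by rw [hl3]; exact hb),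
    getD_addV (by rw [hl1]; exact hb) (by rw [hl2]; exact hb), hg1 b hb, hg2, hg3, List.map_append,
    List.sum_append, sqEntries_sum (deg2 d) (List.length_map ..) S.ix S.ixT S.gram
      (fun i hi => (of_okIdx S.nodup (h.idx i hi)).1.1)
      (fun i hi => (of_okIdx S.nodup (h.idx i hi)).1.2) (fun i hi => (gram_spec h hi).1)]
  congr 3
  by_cases h1 : d.mons.idxOf Mon.one = a <;> simp [h1]

lemma sq_inner (C : Cert) (a b : Fin C.mons.length) (n : ℕ) (items : List (Mon.Mn × Mon.Mn))
    (hn : items.length = n) (v : List ℤ) (hv : v.length = n) (L : List (Mon.Mn × Mon.Mn × ℚ))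
    (hL : L = List.zipWith (fun p (c : ℤ) => (p.1, p.2, (c : ℚ))) items v) :
    ∑ p : Fin L.length, ∑ q : Fin L.length, L[p].2.2 * L[q].2.2 *
      C.Pi (Mon.wte L[p].1 + Mon.wte L[p].2.1 + (Mon.wte L[q].1 + Mon.wte L[q].2.1)) *
      (C.unit (Mon.madd L[p].1 L[q].2.1) a * C.unit (Mon.madd L[q].1 L[p].2.1) b) =
    ∑ i ∈ range n, ∑ j ∈ range n, ((v.getD i 0 : ℤ) : ℚ) * ((v.getD j 0 : ℤ) : ℚ) *
      (C.Pi (Mon.wte (items.getD i ([], [])).1 + Mon.wte (items.getD i ([], [])).2 +
          (Mon.wte (items.getD j ([], [])).1 + Mon.wte (items.getD j ([], [])).2)) *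
        (C.unit (Mon.madd (items.getD i ([], [])).1 (items.getD j ([], [])).2) a *
          C.unit (Mon.madd (items.getD j ([], [])).1 (items.getD i ([], [])).2) b)) := by
  have hlen : L.length = n := by rw [hL]; simp [hv, hn]
  have hget : ∀ i < n, L.getD i (([], [], 0) : Mon.Mn × Mon.Mn × ℚ) =
      ((items.getD i ([], [])).1, (items.getD i ([], [])).2, ((v.getD i 0 : ℤ) : ℚ)) := fun i hi => by
    rw [hL, zipWith_getD (([], []) : Mon.Mn × Mon.Mn) (0 : ℤ) _ (by omega) (by omega)]
  rw [fin_sum_getD L ([], [], 0) hlen fun t => ∑ q : Fin L.length, t.2.2 * L[q].2.2 *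
      C.Pi (Mon.wte t.1 + Mon.wte t.2.1 + (Mon.wte L[q].1 + Mon.wte L[q].2.1)) *
      (C.unit (Mon.madd t.1 L[q].2.1) a * C.unit (Mon.madd L[q].1 t.2.1) b)]
  refine sum_congr rfl fun i hi => ?_
  rw [fin_sum_getD L ([], [], 0) hlen fun u => (L.getD i ([], [], 0)).2.2 * u.2.2 *
      C.Pi (Mon.wte (L.getD i ([], [], 0)).1 + Mon.wte (L.getD i ([], [], 0)).2.1 +
        (Mon.wte u.1 + Mon.wte u.2.1)) *
      (C.unit (Mon.madd (L.getD i ([], [], 0)).1 u.2.1) a *
        C.unit (Mon.madd u.1 (L.getD i ([], [], 0)).2.1) b)]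
  refine sum_congr rfl fun j hj => ?_
  rw [hget i (mem_range.1 hi), hget j (mem_range.1 hj)]
  simp only []
  ring

lemma squ_eq (h : Checks d A) (a b : Fin d.toCert.mons.length) :
    ((∑ i ∈ range d.items.length, ∑ j ∈ range d.items.length,
      if at2 A.ix i j 0 = a.val ∧ at2 A.ixT i j 0 = b.val then
        at2 A.G i j 0 * A.Pn.getD ((deg2 d).getD i 0 + (deg2 d).getD j 0) 0 else 0 : ℤ) : ℚ) =
    (A.D : ℚ) * ∑ s : Fin d.toCert.squares.length, d.toCert.squares[s].1 *
      ∑ p : Fin d.toCert.squares[s].2.length, ∑ q : Fin d.toCert.squares[s].2.length,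
        d.toCert.squares[s].2[p].2.2 * d.toCert.squares[s].2[q].2.2 *
          d.toCert.Pi (Mon.wte d.toCert.squares[s].2[p].1 + Mon.wte d.toCert.squares[s].2[p].2.1 +
            (Mon.wte d.toCert.squares[s].2[q].1 + Mon.wte d.toCert.squares[s].2[q].2.1)) *
          (d.toCert.unit (Mon.madd d.toCert.squares[s].2[p].1 d.toCert.squares[s].2[q].2.1) a *
            d.toCert.unit (Mon.madd d.toCert.squares[s].2[q].1 d.toCert.squares[s].2[p].2.1) b) := by
  have S := shape_of h
  have hc := h.const
  simp only [okConst, Bool.and_eq_true, decide_eq_true_eq, List.all_eq_true, List.mem_range] at hc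
  obtain ⟨⟨⟨-, hPn⟩, hdeg⟩, -⟩ := hc
  rw [fin_sum_getD d.toCert.squares ((0 : ℚ), []) (show d.toCert.squares.length = d.vecs.length from
    List.length_map ..) fun S => S.1 * ∑ p : Fin S.2.length, ∑ q : Fin S.2.length,
        S.2[p].2.2 * S.2[q].2.2 *
          d.toCert.Pi (Mon.wte S.2[p].1 + Mon.wte S.2[p].2.1 + (Mon.wte S.2[q].1 + Mon.wte S.2[q].2.1)) *
          (d.toCert.unit (Mon.madd S.2[p].1 S.2[q].2.1) a *
            d.toCert.unit (Mon.madd S.2[q].1 S.2[p].2.1) b)]
  have hsq : ∀ s ∈ range d.vecs.length, d.toCert.squares.getD s ((0 : ℚ), []) =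
      (d.w, List.zipWith (fun p (c : ℤ) => (p.1, p.2, (c : ℚ))) d.items (d.vecs.getD s [])) :=
    fun s hs => map_getD [] _ (mem_range.1 hs)
  rw [Finset.mul_sum]
  simp only [Int.cast_sum]
  symm
  refine (sum_congr rfl fun s hs => by
    rw [hsq s hs, sq_inner d.toCert a b _ d.items rfl (d.vecs.getD s [])
      (S.vecs _ (by rw [getD_getElem (mem_range.1 hs)]; exact List.getElem_mem _)) _ rfl]).trans ?_
  simp only [Finset.mul_sum]
  rw [Finset.sum_comm]
  refine sum_congr rfl fun i hi => ?_
  rw [Finset.sum_comm]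
  refine sum_congr rfl fun j hj => ?_
  have hi := mem_range.1 hi
  have hj := mem_range.1 hj
  obtain ⟨hi1, hi2⟩ := (of_okIdx S.nodup (h.idx i hi)).2 j hj
  have hdi : (deg2 d).getD i 0 = Mon.wte (d.items.getD i ([], [])).1 + Mon.wte (d.items.getD i ([], [])).2 :=
    map_getD ([], []) 0 hi
  have hdj : (deg2 d).getD j 0 = Mon.wte (d.items.getD j ([], [])).1 + Mon.wte (d.items.getD j ([], [])).2 :=
    map_getD ([], []) 0 hj
  have hl : (deg2 d).length = d.items.length := List.length_map ..
  have hlt : (deg2 d).getD i 0 + (deg2 d).getD j 0 < A.Pn.length := by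
    refine hdeg _ ?_ _ ?_ <;> rw [getD_getElem (by omega)] <;> exact List.getElem_mem _
  have hP := hPn _ hlt
  rw [← hdi, ← hdj]
  have e1 : d.toCert.unit (Mon.madd (d.items.getD i ([], [])).1 (d.items.getD j ([], [])).2) a *
      d.toCert.unit (Mon.madd (d.items.getD j ([], [])).1 (d.items.getD i ([], [])).2) b =
      if at2 A.ix i j 0 = a.val ∧ at2 A.ixT i j 0 = b.val then 1 else 0 := by
    rw [← hi1, ← hi2]
    exact ite_zero_mul_ite_zero .. |>.trans (by rw [one_mul]; rfl)
  rw [e1]
  split_ifs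
  · rw [(gram_spec h hi).2 j hj]
    simp only [Int.cast_mul, Int.cast_sum, Finset.sum_mul]
    refine sum_congr rfl fun s _ => ?_
    rw [← hP]
    ring
  · simp

lemma one_eq (h : Checks d A) (a b : Fin d.toCert.mons.length) :
    (((if d.mons.idxOf Mon.one = a.val ∧ d.mons.idxOf Mon.one = b.val then A.c00 else 0) : ℤ) : ℚ) =
      (A.D : ℚ) * ((∑ i : Fin d.toCert.lam.length, d.toCert.lam[i] * d.toCert.Pi (2 * i.val)) *
        (d.toCert.unit Mon.one a * d.toCert.unit Mon.one b)) := by
  have hc := h.const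
  simp only [okConst, Bool.and_eq_true, decide_eq_true_eq, List.all_eq_true, List.mem_range] at hc
  obtain ⟨⟨⟨hc00, -⟩, -⟩, -⟩ := hc
  have e0 : ∑ i : Fin d.toCert.lam.length, d.toCert.lam[i] * d.toCert.Pi (2 * i.val) =
      ((List.range d.lam.length).map fun i => d.lam.getD i 0 * d.toCert.Pi (2 * i)).sum := by
    rw [sum_range_list, ← Fin.sum_univ_eq_sum_range]
    refine sum_congr rfl fun i _ => ?_
    rw [getD_getElem (show i.val < d.lam.length from i.isLt)]
    rfl
  rw [e0, ← mul_assoc, hc00]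
  simp only [Cert.unit]
  rw [ite_zero_mul_ite_zero, one_mul]
  simp only [Int.cast_ite, Int.cast_zero, mul_ite, mul_one, mul_zero]
  rfl

lemma y_spec (h : Checks d A) {r : ℕ} (hr : r < d.rows.length) {a : ℕ} (ha : a < d.mons.length) :
    ((at2 A.Yi r a 0 : ℤ) : ℚ) = (A.dY : ℚ) * (d.rows.getD r (TRow.lie 0, [])).2.getD a 0 := by
  have hc := h.const
  simp only [okConst, Bool.and_eq_true, decide_eq_true_eq, List.all_eq_true, List.mem_range] at hc
  obtain ⟨-, hYeq⟩ := hc
  rw [zip_range [] (TRow.lie 0, []) (shape_of h).yl rfl] at hYeq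
  exact hYeq _ (List.mem_map.2 ⟨r, List.mem_range.2 hr, rfl⟩) a ha

lemma tr_spec (h : Checks d A) {r : ℕ} (hr : r < d.rows.length) (b : Fin d.toCert.mons.length) :
    ((at2 A.Tr r b.val 0 : ℤ) : ℚ) * (A.dY : ℚ) =
      (A.D : ℚ) * (-2 * d.toCert.brow (d.rows.getD r (TRow.lie 0, [])).1 b +
        ∑ s ∈ range d.rows.length,
          gEntry d (d.rows.getD r (TRow.lie 0, [])).1 (d.rows.getD s (TRow.lie 0, [])).1 *
            (d.rows.getD s (TRow.lie 0, [])).2.getD b.val 0) := by
  have S := shape_of h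
  have hb : b.val < d.mons.length := b.isLt
  have hrow := h.rows r hr
  simp only [okRows, Nat.add_sub_cancel_left, List.range_one, List.all_cons, List.all_nil,
    Bool.and_true, Nat.add_zero, Bool.and_eq_true, beq_iff_eq] at hrow
  obtain ⟨hbr, htr⟩ := hrow
  obtain ⟨hbl, hbg⟩ := browVec_spec d (d.rows.getD r (TRow.lie 0, [])).1
  have hBlen : (A.Bi.getD r []).length = d.mons.length := by
    have := congrArg List.length hbr
    rw [List.length_map, List.length_map, hbl] at this
    exact this.symm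
  have hGlen : (A.Gi.getD r []).length = d.rows.length := by
    rw [getD_getElem (by rw [S.gil]; exact hr)]; exact S.girow _ (List.getElem_mem _)
  obtain ⟨hcl, hcg⟩ := combV_spec d.mons.length (A.Gi.getD r []) A.Yi S.yrow (by rw [hGlen, S.yl])
  have hbb := congrArg (fun l : List ℚ => l.getD b.val 0) hbr
  simp only [map_getD (0 : ℚ) (0 : ℚ) (show b.val < (d.browVec (d.rows.getD r (TRow.lie 0, [])).1).length
    from hbl.symm ▸ hb), map_getD (0 : ℤ) (0 : ℚ) (show b.val < (A.Bi.getD r []).length from hBlen.symm ▸ hb),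
    hbg] at hbb
  rw [at2, htr, getD_addV (by rw [smulV, List.length_map, hBlen]; exact hb) (by rw [hcl]; exact hb),
    hcg b.val hb, smulV, map_getD 0 0 (by rw [hBlen]; exact hb), S.yl]
  push_cast
  have hsum : ∑ s ∈ range d.rows.length,
      (((A.Gi.getD r []).getD s 0 : ℤ) : ℚ) * (((A.Yi.getD s []).getD b.val 0 : ℤ) : ℚ) * (A.dY : ℚ) =
      (A.D : ℚ) * ∑ s ∈ range d.rows.length,
        gEntry d (d.rows.getD r (TRow.lie 0, [])).1 (d.rows.getD s (TRow.lie 0, [])).1 *
          (d.rows.getD s (TRow.lie 0, [])).2.getD b.val 0 := by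
    rw [Finset.mul_sum]
    refine sum_congr rfl fun s hs => ?_
    have hg := h.gi r hr
    simp only [okGi, Nat.add_sub_cancel_left, List.range_one, List.all_cons, List.all_nil,
      Bool.and_true, Nat.add_zero, List.all_eq_true, List.mem_range, decide_eq_true_eq] at hg
    have hg := hg s (mem_range.1 hs)
    have hy := y_spec h (mem_range.1 hs) hb
    simp only [at2] at hg hy
    rw [hy]
    linear_combination (d.rows.getD s (TRow.lie 0, [])).2.getD b.val 0 * hg
  rw [add_mul, Finset.sum_mul, hsum]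
  linear_combination hbb

lemma yt_eq (h : Checks d A) (a b : Fin d.toCert.mons.length) :
    ∑ r ∈ range d.rows.length, ((at2 A.Yi r a.val 0 : ℤ) : ℚ) * ((at2 A.Tr r b.val 0 : ℤ) : ℚ) =
      -((A.D : ℚ) * (2 * ∑ r : Fin d.toCert.rows.length,
          d.toCert.vec d.toCert.rows[r].2 a * d.toCert.brow d.toCert.rows[r].1 b)) +
        (A.D : ℚ) * ∑ r : Fin d.toCert.rows.length, ∑ s : Fin d.toCert.rows.length,
          (∑ i : Fin d.toCert.lam.length, TRow.glim d.toCert.rows[r].1 d.toCert.rows[s].1 i.val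
            (d.toCert.e + (2 * i.val + 2 : ℕ)) / (d.toCert.lam[i] * d.toCert.Pi (2 * i.val + 2))) *
            (d.toCert.vec d.toCert.rows[r].2 a * d.toCert.vec d.toCert.rows[s].2 b) := by
  simp only [← gEntry_eq]
  rw [fin_sum_getD d.toCert.rows (TRow.lie 0, []) (n := d.rows.length) rfl
      fun t => d.toCert.vec t.2 a * d.toCert.brow t.1 b,
    fin_sum_getD d.toCert.rows (TRow.lie 0, []) (n := d.rows.length) rfl
      fun t => ∑ s : Fin d.toCert.rows.length, gEntry d t.1 d.toCert.rows[s].1 *
        (d.toCert.vec t.2 a * d.toCert.vec d.toCert.rows[s].2 b)]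
  simp only [Finset.mul_sum, ← Finset.sum_neg_distrib, ← sum_add_distrib]
  refine sum_congr rfl fun r hr => ?_
  have hr := mem_range.1 hr
  have h2 := tr_spec h hr b
  rw [← Finset.mul_sum, fin_sum_getD d.toCert.rows (TRow.lie 0, []) (n := d.rows.length) rfl
    fun u => gEntry d (d.toCert.rows.getD r (TRow.lie 0, [])).1 u.1 *
        (d.toCert.vec (d.toCert.rows.getD r (TRow.lie 0, [])).2 a * d.toCert.vec u.2 b)]
  rw [y_spec h hr a.isLt]
  simp only [Cert.vec]
  have e : ∑ s ∈ range d.rows.length, gEntry d (d.rows.getD r (TRow.lie 0, [])).1 (d.rows.getD s (TRow.lie 0, [])).1 *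
      ((d.rows.getD r (TRow.lie 0, [])).2.getD a.val 0 * (d.rows.getD s (TRow.lie 0, [])).2.getD b.val 0) =
      (d.rows.getD r (TRow.lie 0, [])).2.getD a.val 0 * ∑ s ∈ range d.rows.length,
        gEntry d (d.rows.getD r (TRow.lie 0, [])).1 (d.rows.getD s (TRow.lie 0, [])).1 *
          (d.rows.getD s (TRow.lie 0, [])).2.getD b.val 0 := by
    rw [Finset.mul_sum]
    exact sum_congr rfl fun s _ => by ring
  simp only [toCert] at h2 ⊢
  rw [e]
  linear_combination (d.rows.getD r (TRow.lie 0, [])).2.getD a.val 0 * h2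

lemma lz_eq (h : Checks d A) (a b : Fin d.toCert.mons.length) :
    ∑ r ∈ range d.dmult.length, ((at2 A.Li r a.val 0 : ℤ) : ℚ) * ((at2 A.Zi r b.val 0 : ℤ) : ℚ) =
      (A.D : ℚ) * ∑ r : Fin d.toCert.dmult.length,
        d.toCert.dcon r a * d.toCert.vec d.toCert.dmult[r].2 b := by
  rw [Finset.mul_sum, ← Fin.sum_univ_eq_sum_range]
  refine sum_congr rfl fun r _ => ?_
  have hd' := h.dcon
  simp only [okD, List.all_eq_true, List.mem_range, Bool.and_eq_true, beq_iff_eq,
    decide_eq_true_eq] at hd'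
  obtain ⟨hl, hz⟩ := hd' r.val r.isLt
  have e : d.dmult.getD r.val ([], []) = d.toCert.dmult[r] :=
    getD_getElem (show r.val < d.dmult.length from r.isLt)
  rw [e] at hl hz
  obtain ⟨hvl, hvg⟩ := linVec_spec d ((d.toCert.dmult[r].1, -1) :: Mon.Dmon d.toCert.dmult[r].1)
  have hLlen : a.val < (A.Li.getD r.val []).length := by
    have := congrArg List.length hl
    rw [List.length_map, hvl] at this
    rw [← this]
    exact a.isLt
  have hla := congrArg (fun l : List ℚ => l.getD a.val 0) hl
  simp only [map_getD (0 : ℤ) (0 : ℚ) hLlen, hvg] at hla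
  have hlin : d.toCert.lin ((d.toCert.dmult[r].1, -1) :: Mon.Dmon d.toCert.dmult[r].1) a =
      d.toCert.dcon r a := by
    exact lin_cons_neg d.toCert _ _ a
  simp only [at2] at hz ⊢
  rw [← hla, hlin, ← hz b.val b.isLt]
  exact mul_left_comm _ _ _

theorem scaled_eq (h : Checks d A) (a b : Fin d.toCert.mons.length) :
    ((at2 A.M a.val b.val 0 : ℤ) : ℚ) = (A.D : ℚ) * d.toCert.limA a b := by
  rw [(mat_entry h a.isLt b.isLt).2]
  rw [Int.cast_add, Int.cast_add, Int.cast_add, one_eq h a b, squ_eq h a b]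
  simp only [Int.cast_sum, Int.cast_mul]
  rw [yt_eq h a b, lz_eq h a b, Cert.limA, Cert.matA]
  ring

lemma valid_of_checks (h : Checks d A) : d.toCert.valid = true := by
  have hs := h.shape
  simp only [okShape, Bool.and_eq_true] at hs
  obtain ⟨hv, hw⟩ := hs.1.1.1.1.1.1.1.1.1.1.1.1.1.1.1.1.1.1
  have hw : 0 ≤ d.w := of_decide_eq_true hw
  have hsq : d.toCert.squares.all (fun s => decide (0 ≤ s.1) &&
      s.2.all fun p => s.2.all fun q => d.toCert.mons.contains (Mon.madd p.1 q.2.1)) = true := by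
    simp only [toCert, List.all_eq_true, List.mem_map, Bool.and_eq_true, decide_eq_true_eq]
    rintro s ⟨v, -, rfl⟩
    refine ⟨hw, fun p hp q hq => ?_⟩
    obtain ⟨i, hi, rfl⟩ := List.getElem_of_mem hp
    obtain ⟨j, hj, rfl⟩ := List.getElem_of_mem hq
    simp only [List.length_zipWith, lt_min_iff] at hi hj
    simp only [List.getElem_zipWith]
    have hn := (shape_of h).nodup
    have hii := hi.1
    have hidx := h.idx i hii
    simp only [okIdx, Nat.add_sub_cancel_left, List.range_one, List.all_cons, List.all_nil, Bool.and_true,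
      Nat.add_zero, Bool.and_eq_true, beq_iff_eq] at hidx
    obtain ⟨⟨⟨h1, -⟩, h3⟩, -⟩ := hidx
    rw [zip_range 0 ([], []) h1 rfl] at h3
    simp only [List.all_map, List.all_eq_true, List.mem_range, Function.comp_apply,
      Bool.and_eq_true, decide_eq_true_eq, beq_iff_eq] at h3
    obtain ⟨hlt, he⟩ := h3 j hj.1
    rw [getD_getElem hlt, getD_getElem hii, getD_getElem hj.1] at he
    rw [List.contains_iff_mem, ← he]
    exact List.getElem_mem _
  simp only [Cert.valid, Bool.and_eq_true] at hv ⊢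
  exact ⟨⟨hv.1.1, hsq⟩, hv.2⟩

/-- The entries of the scaled matrix, as reals. -/
def mR (A : Aux) (a b : ℕ) : ℝ := ((at2 A.M a b (0 : ℤ) : ℤ) : ℝ)

lemma resid_eq (h : Checks d A) {a b : ℕ} (ha : a < d.mons.length) (hb : b < d.mons.length) :
    (((residRow d A a).getD b 0 : ℤ) : ℝ) = mR A a b + mR A b a +
      ∑ s : Fin A.cvecs.length, (A.cs : ℝ) * (((A.cvecs.getD s.val []).getD a 0 : ℤ) : ℝ) *
        (((A.cvecs.getD s.val []).getD b 0 : ℤ) : ℝ) := by
  have hn := h.neg a ha
  simp only [okNeg, Nat.add_sub_cancel_left, List.range_one, List.all_cons, List.all_nil, Bool.and_true,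
    Nat.add_zero, Bool.and_eq_true, beq_iff_eq, decide_eq_true_eq, List.all_eq_true] at hn
  obtain ⟨⟨⟨hMl, -⟩, hcv⟩, -⟩ := hn
  have hrow := (mat_entry h ha hb).1
  obtain ⟨hcl, hcg⟩ := combV_spec d.mons.length (A.cvecs.map fun w => A.cs * w.getD a 0) A.cvecs
    hcv (List.length_map ..)
  have hcol : (A.M.map fun r => r.getD a 0).length = d.mons.length := by rw [List.length_map, hMl]
  rw [residRow, getD_addV (by rw [length_addV, hrow, hcol, min_self]; exact hb) (by rw [hcl]; exact hb),
    getD_addV (by rw [hrow]; exact hb) (by rw [hcol]; exact hb), map_getD [] 0 (by rw [hMl]; exact hb),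
    hcg b hb]
  simp only [mR, at2, Int.cast_add, Int.cast_sum, Int.cast_mul]
  rw [← Fin.sum_univ_eq_sum_range]
  congr 1
  refine sum_congr rfl fun s _ => ?_
  rw [map_getD [] 0 s.isLt]
  push_cast
  ring

/-- The checks give the inequality required by the certificate. -/
theorem neg_of_checks (h : Checks d A) : 0 < (1 / (2 * (A.D : ℝ))) ∧
    ∀ y : Fin d.toCert.mons.length → ℝ,
      ∑ a, ∑ b, (d.toCert.limA a b : ℝ) * (y a * y b) ≤ -(1 / (2 * (A.D : ℝ))) * ∑ a, y a ^ 2 := by
  have hD' : (0 : ℝ) < A.D := by exact_mod_cast (shape_of h).dpos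
  refine ⟨by positivity, fun y => ?_⟩
  have hfacts := fun a (ha : a < d.mons.length) => by
    have hn := h.neg a ha
    simp only [okNeg, Nat.add_sub_cancel_left, List.range_one, List.all_cons, List.all_nil, Bool.and_true,
      Nat.add_zero, Bool.and_eq_true, beq_iff_eq, decide_eq_true_eq, List.all_eq_true] at hn
    exact hn
  have hcs : ∀ _a : Fin d.toCert.mons.length, (0 : ℝ) ≤ A.cs := fun a => by
    exact_mod_cast (hfacts a.val a.isLt).1.1.2
  set v : Fin A.cvecs.length → Fin d.toCert.mons.length → ℝ :=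
    fun s a => (((A.cvecs.getD s.val []).getD a.val 0 : ℤ) : ℝ) with hv
  set R : Fin d.toCert.mons.length → Fin d.toCert.mons.length → ℝ :=
    fun a b => (((residRow d A a.val).getD b.val 0 : ℤ) : ℝ) with hR
  have hres : ∀ a b, R a b = mR A a.val b.val + mR A b.val a.val + ∑ s, (A.cs : ℝ) * v s a * v s b :=
    fun a b => resid_eq h a.isLt b.isLt
  have hsym : ∀ a b, R b a = R a b := fun a b => by
    rw [hres, hres, add_comm (mR A b.val a.val)]
    congr 1
    exact sum_congr rfl fun s _ => by ring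
  have hdom : ∀ a, R a a + (∑ b ∈ univ.erase a, (|R a b| + |R b a|)) / 2 ≤ -1 := by
    intro a
    obtain ⟨-, hlen, hle⟩ := hfacts a.val a.isLt
    have hsum : ∑ b ∈ univ.erase a, (|R a b| + |R b a|) = 2 * ((∑ b, |R a b|) - |R a a|) := by
      simp only [hsym a, ← two_mul, ← Finset.mul_sum, sum_erase_eq_sub (mem_univ a), mul_sub]
    rw [hsum, mul_div_cancel_left₀ _ two_ne_zero]
    have e : ∑ b, |R a b| = ((((residRow d A a.val).map fun x => |x|).sum : ℤ) : ℝ) := by
      rw [map_sum_getD _ (0 : ℤ), hlen, Int.cast_sum,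
        ← Fin.sum_univ_eq_sum_range (fun i => ((|(residRow d A a.val).getD i 0| : ℤ) : ℝ))]
      exact sum_congr rfl fun b _ => by simp only [hR, Int.cast_abs]
    rw [e]
    have hle' : (((residRow d A a.val).getD a.val 0 +
        ((residRow d A a.val).map fun x => |x|).sum - |(residRow d A a.val).getD a.val 0| : ℤ) : ℝ) ≤
        ((-1 : ℤ) : ℝ) := Int.cast_le.2 hle
    simp only [Int.cast_add, Int.cast_sub, Int.cast_abs, Int.cast_neg, Int.cast_one] at hle'
    simp only [hR]
    linarith
  have hq := DegreeTools.quad_le_of_dominant R (fun _ => (A.cs : ℝ)) v (δ := 1)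
    (fun _ => hcs ⟨_, List.idxOf_lt_length_of_mem (Cert.valid_iff (valid_of_checks h)).2.1⟩) hdom y
  simp only [hres, add_sub_cancel_right, add_mul, sum_add_distrib] at hq
  rw [Finset.sum_comm (f := fun a b => mR A b.val a.val * (y a * y b))] at hq
  have hM : ∀ a b : Fin d.toCert.mons.length, mR A a.val b.val = (A.D : ℝ) * (d.toCert.limA a b : ℝ) :=
    fun a b => by
    have := congrArg (fun q : ℚ => (q : ℝ)) (scaled_eq h a b)
    push_cast at this
    exact this
  simp only [hM, mul_assoc, ← Finset.mul_sum] at hq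
  have e2 : ∑ a, ∑ b, (d.toCert.limA a b : ℝ) * (y b * y a) = ∑ a, ∑ b, (d.toCert.limA a b : ℝ) * (y a * y b) :=
    sum_congr rfl fun a _ => sum_congr rfl fun b _ => by ring
  rw [e2] at hq
  rw [neg_mul, div_mul_eq_mul_div, one_mul, ← neg_div, le_div_iff₀ (by positivity)]
  linarith

/-! ### Chunks -/

lemma idx_chunk {lo hi i : ℕ} (h : okIdx d A lo hi = true) (h1 : lo ≤ i) (h2 : i < hi) :
    okIdx d A i (i + 1) = true := by
  rw [okIdx] at h ⊢
  rw [List.all_eq_true] at ⊢
  intro k hk
  obtain rfl : k = 0 := by have := List.mem_range.1 hk; omega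
  have := List.all_eq_true.1 h (i - lo) (List.mem_range.2 (by omega))
  rwa [Nat.add_sub_cancel' h1] at this

lemma gram_chunk {lo hi i : ℕ} (h : okGram d A lo hi = true) (h1 : lo ≤ i) (h2 : i < hi) :
    okGram d A i (i + 1) = true := by
  rw [okGram] at h ⊢
  rw [List.all_eq_true] at ⊢
  intro k hk
  obtain rfl : k = 0 := by have := List.mem_range.1 hk; omega
  have := List.all_eq_true.1 h (i - lo) (List.mem_range.2 (by omega))
  rwa [Nat.add_sub_cancel' h1] at this

lemma gi_chunk {lo hi i : ℕ} (h : okGi d A lo hi = true) (h1 : lo ≤ i) (h2 : i < hi) :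
    okGi d A i (i + 1) = true := by
  rw [okGi] at h ⊢
  rw [List.all_eq_true] at ⊢
  intro k hk
  obtain rfl : k = 0 := by have := List.mem_range.1 hk; omega
  have := List.all_eq_true.1 h (i - lo) (List.mem_range.2 (by omega))
  rwa [Nat.add_sub_cancel' h1] at this

lemma rows_chunk {lo hi i : ℕ} (h : okRows d A lo hi = true) (h1 : lo ≤ i) (h2 : i < hi) :
    okRows d A i (i + 1) = true := by
  rw [okRows] at h ⊢
  rw [List.all_eq_true] at ⊢
  intro k hk
  obtain rfl : k = 0 := by have := List.mem_range.1 hk; omega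
  have := List.all_eq_true.1 h (i - lo) (List.mem_range.2 (by omega))
  rwa [Nat.add_sub_cancel' h1] at this

lemma mat_chunk {lo hi i : ℕ} (h : okM d A lo hi = true) (h1 : lo ≤ i) (h2 : i < hi) :
    okM d A i (i + 1) = true := by
  rw [okM] at h ⊢
  rw [List.all_eq_true] at ⊢
  intro k hk
  obtain rfl : k = 0 := by have := List.mem_range.1 hk; omega
  have := List.all_eq_true.1 h (i - lo) (List.mem_range.2 (by omega))
  rwa [Nat.add_sub_cancel' h1] at this

lemma neg_chunk {lo hi i : ℕ} (h : okNeg d A lo hi = true) (h1 : lo ≤ i) (h2 : i < hi) :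
    okNeg d A i (i + 1) = true := by
  rw [okNeg, Bool.and_eq_true] at h ⊢
  refine ⟨h.1, ?_⟩
  rw [List.all_eq_true] at ⊢
  intro k hk
  obtain rfl : k = 0 := by have := List.mem_range.1 hk; omega
  have := List.all_eq_true.1 h.2 (i - lo) (List.mem_range.2 (by omega))
  rwa [Nat.add_sub_cancel' h1] at this

/-- The final statements from the checks. -/
theorem result_of_checks (h : Checks d A) (he : d.e ≤ 1) :
    (∀ f : ℂ → ℂ, DifferentiableOn ℂ f (Metric.ball 0 1) → Set.InjOn f (Metric.ball 0 1) →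
      limsup (fun r : ℝ => ((Real.log ((2 * Real.pi)⁻¹ * ∫ θ in (-Real.pi)..Real.pi,
          ‖deriv f (circleMap 0 r θ)‖ ^ (-2 : ℝ)) / Real.log (1 / (1 - r)) : ℝ) : EReal))
        (nhdsWithin 1 (Set.Iio 1)) ≤ ((1 + (d.e : ℝ) : ℝ) : EReal) ∧
      (∃ K : ℝ, ∀ r : ℝ, 0 ≤ r → r < 1 →
        (2 * Real.pi)⁻¹ * ∫ θ in (-Real.pi)..Real.pi, ‖deriv f (circleMap 0 r θ)‖ ^ (-2 : ℝ) ≤
          K * (1 / (1 - r)) ^ (1 + (d.e : ℝ))) ∧
      ∫⁻ z in Metric.ball (0 : ℂ) 1,
          ENNReal.ofReal (‖deriv f z‖ ^ (-2 : ℝ) * (1 - ‖z‖ ^ 2) ^ (d.e : ℝ)) < ⊤ ∧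
      ∀ t : ℝ, -2 / (1 + (d.e : ℝ)) < t → t ≤ 0 →
        ∫⁻ z in Metric.ball (0 : ℂ) 1, ENNReal.ofReal (‖deriv f z‖ ^ t) < ⊤) ∧
    (∀ (W : Set ℂ) (φ : ℂ → ℂ), IsOpen W → DifferentiableOn ℂ φ W → Set.BijOn φ W (Metric.ball 0 1) →
      ∀ s : ℝ, 2 ≤ s → s < 2 + 2 / (1 + (d.e : ℝ)) →
        ∫⁻ w in W, ENNReal.ofReal (‖deriv φ w‖ ^ s) < ⊤) :=
  Cert.result_of_cert d.toCert (valid_of_checks h) he (neg_of_checks h).1 (neg_of_checks h).2

end CData

end Vale.Agent.P142.Sharp
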