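import Mathlib
import Vale.Agent.P142.Sharp.CheckSound
import Vale.Agent.P142.Sharp.Checked.All

/-!
The integral-means bound `41/40` at exponent minus two.
-/

namespace Vale.Agent.P142.Sharp.Final

open Complex Metric Set Filter Topology MeasureTheory
open scoped Real ENNReal

/-- The value of the exponent. -/
theorem exponent_eq : (Data.cdata.e : ℝ) = 1 / 40 := by
  have h : Data.cdata.e = 1 / 40 := by decide +kernel
  rw [h]
  norm_num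

/-- The certified statements with the numerical exponent. -/
theorem bounds :
    (∀ f : ℂ → ℂ, DifferentiableOn ℂ f (ball 0 1) → InjOn f (ball 0 1) →
      limsup (fun r : ℝ => ((Real.log ((2 * π)⁻¹ * ∫ θ in (-π)..π,
          ‖deriv f (circleMap 0 r θ)‖ ^ (-2 : ℝ)) / Real.log (1 / (1 - r)) : ℝ) : EReal))
        (𝓝[<] 1) ≤ ((41 / 40 : ℝ) : EReal) ∧
      (∃ C : ℝ, ∀ r : ℝ, 0 ≤ r → r < 1 →
        (2 * π)⁻¹ * ∫ θ in (-π)..π, ‖deriv f (circleMap 0 r θ)‖ ^ (-2 : ℝ) ≤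
          C * (1 / (1 - r)) ^ (41 / 40 : ℝ)) ∧
      ∫⁻ z in ball (0 : ℂ) 1,
          ENNReal.ofReal (‖deriv f z‖ ^ (-2 : ℝ) * (1 - ‖z‖ ^ 2) ^ (1 / 40 : ℝ)) < ⊤ ∧
      ∀ t : ℝ, -80 / 41 < t → t ≤ 0 →
        ∫⁻ z in ball (0 : ℂ) 1, ENNReal.ofReal (‖deriv f z‖ ^ t) < ⊤) ∧
    (∀ (W : Set ℂ) (φ : ℂ → ℂ), IsOpen W → DifferentiableOn ℂ φ W → BijOn φ W (ball 0 1) →
      ∀ s : ℝ, 2 ≤ s → s < 162 / 41 →
        ∫⁻ w in W, ENNReal.ofReal (‖deriv φ w‖ ^ s) < ⊤) := by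
  have h := CData.result_of_checks Checked.checks Checked.exponent_le
  rw [exponent_eq] at h
  refine ⟨fun f hf hinj => ?_, fun W φ hW hφ hbij s hs hs' =>
    h.2 W φ hW hφ hbij s hs (lt_of_lt_of_eq hs' (by norm_num))⟩
  obtain ⟨h1, h2, h3, h4⟩ := h.1 f hf hinj
  rw [show (1 : ℝ) + 1 / 40 = 41 / 40 by norm_num] at h1 h2 h4
  exact ⟨h1, h2, h3, fun t ht ht0 => h4 t (lt_of_eq_of_lt (by norm_num) ht) ht0⟩

end Vale.Agent.P142.Sharp.Final
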